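import Mathlib.LinearAlgebra.Matrix.NonsingularInverse
import Mathlib.MeasureTheory.Group.Arithmetic
import Mathlib.MeasureTheory.Constructions.BorelSpace.Basic

/-!
P156, GOE side (H2): entrywise measurability of determinants and inverses.
-/

namespace Vale.Agent.P156.H9

open Matrix MeasureTheory

variable {κ : Type*} [Fintype κ] [DecidableEq κ] {𝕜 : Type*} [Field 𝕜] [MeasurableSpace 𝕜]
  [MeasurableAdd₂ 𝕜] [MeasurableMul₂ 𝕜] [MeasurableInv 𝕜] {Ω : Type*} [MeasurableSpace Ω]

omit [MeasurableInv 𝕜] in
theorem measurable_det {M : Ω → Matrix κ κ 𝕜} (hM : ∀ i j, Measurable fun ω => M ω i j) :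
    Measurable fun ω => (M ω).det := by
  simp only [Matrix.det_apply']
  apply Finset.measurable_sum
  intro σ _
  apply Measurable.const_mul
  apply Finset.measurable_prod
  intro i _
  exact hM _ _

theorem measurable_inv {M : Ω → Matrix κ κ 𝕜} (hM : ∀ i j, Measurable fun ω => M ω i j)
    (i j : κ) : Measurable fun ω => (M ω)⁻¹ i j := by
  have h : ∀ ω, (M ω)⁻¹ i j = ((M ω).det)⁻¹ * ((M ω).updateRow j (Pi.single i 1)).det := by
    intro ω
    rw [Matrix.inv_def, Matrix.smul_apply, Ring.inverse_eq_inv', smul_eq_mul, adjugate_apply]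
  simp only [h]
  apply Measurable.mul
  · exact (measurable_det hM).inv
  · apply measurable_det
    intro k l
    by_cases hk : k = j
    · subst hk
      simp only [updateRow_self]
      exact measurable_const
    · simp only [updateRow_ne hk]
      exact hM k l

theorem measurable_dot_inv {M : Ω → Matrix κ κ 𝕜} (hM : ∀ i j, Measurable fun ω => M ω i j)
    {x y : Ω → κ → 𝕜} (hx : ∀ i, Measurable fun ω => x ω i) (hy : ∀ i, Measurable fun ω => y ω i) :
    Measurable fun ω => x ω ⬝ᵥ ((M ω)⁻¹ *ᵥ y ω) := by
  simp only [dotProduct, mulVec]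
  apply Finset.measurable_sum
  intro i _
  apply (hx i).mul
  apply Finset.measurable_sum
  intro j _
  exact (measurable_inv hM i j).mul (hy j)

end Vale.Agent.P156.H9
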