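import Vale.Agent.P156.H9.GoeLimit
import Vale.Agent.P156.H144.Merge

/-!
P156, GOE side (H2): the limit theorem in the form required by block G.
-/

namespace Vale.Agent.P156.H9

open MeasureTheory ProbabilityTheory Matrix Filter Topology
open scoped NNReal

variable {κ ν : Type*} [Fintype κ] [Fintype ν]

/-- the iterated product of Gaussian laws, uncurried -/
theorem map_uncurry_pi :
    (Measure.pi fun _ : κ => gam ν).map (fun (g : κ → ν → ℝ) (p : κ × ν) => g p.1 p.2)
      = gam (κ × ν) := by
  have hm : Measurable (fun (g : κ → ν → ℝ) (p : κ × ν) => g p.1 p.2) := by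
    apply measurable_pi_lambda
    intro p
    exact (measurable_pi_apply p.2).comp (measurable_pi_apply p.1)
  have : IsProbabilityMeasure ((Measure.pi fun _ : κ => gam ν).map
      (fun (g : κ → ν → ℝ) (p : κ × ν) => g p.1 p.2)) :=
    Measure.isProbabilityMeasure_map hm.aemeasurable
  apply ext_of_exp
  intro t
  rw [integral_map hm.aemeasurable (by
    apply Measurable.aestronglyMeasurable
    fun_prop), exp_gam]
  have h1 : ∀ g : κ → ν → ℝ, Complex.exp (((∑ k : κ × ν, t k * g k.1 k.2 : ℝ) : ℂ) * Complex.I)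
      = ∏ a, Complex.exp (((∑ i, t (a, i) * g a i : ℝ) : ℂ) * Complex.I) := by
    intro g
    rw [← Complex.exp_sum, Fintype.sum_prod_type, Complex.ofReal_sum, Finset.sum_mul]
  rw [integral_congr_ae (Eventually.of_forall h1),
    integral_fintype_prod_eq_prod (f := fun a (x : ν → ℝ) =>
      Complex.exp (((∑ i, t (a, i) * x i : ℝ) : ℂ) * Complex.I)),
    Finset.prod_congr rfl (fun a _ => exp_gam (fun i => t (a, i))), ← Complex.exp_sum,
    Fintype.sum_prod_type]
  congr 1
  rw [Complex.ofReal_sum, ← Finset.sum_neg_distrib, Finset.sum_div]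

theorem pi_eq_map_curry :
    (Measure.pi fun _ : κ => gam ν)
      = (gam (κ × ν)).map (fun (x : κ × ν → ℝ) (a : κ) (i : ν) => x (a, i)) := by
  have hm : Measurable (fun (g : κ → ν → ℝ) (p : κ × ν) => g p.1 p.2) := by
    apply measurable_pi_lambda
    intro p
    exact (measurable_pi_apply p.2).comp (measurable_pi_apply p.1)
  have hm' : Measurable (fun (x : κ × ν → ℝ) (a : κ) (i : ν) => x (a, i)) := by
    apply measurable_pi_lambda
    intro a
    apply measurable_pi_lambda
    intro i
    exact measurable_pi_apply _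
  rw [← map_uncurry_pi, Measure.map_map hm' hm]
  have : (fun (x : κ × ν → ℝ) (a : κ) (i : ν) => x (a, i)) ∘
      (fun (g : κ → ν → ℝ) (p : κ × ν) => g p.1 p.2) = id := by
    ext g a i; rfl
  rw [this, Measure.map_id]

/-- the entries on and above the diagonal of the normalized matrix -/
noncomputable def WG (n : ℕ) (G : Fin n × Fin n → ℝ) : Upper n → ℝ :=
  fun p => cc n * Hm G p.1.1 p.1.2

theorem measurable_WG (n : ℕ) : Measurable (WG n) := by
  apply measurable_pi_lambda
  intro p
  exact (measurable_Hm (fun p => measurable_pi_apply p) _ _).const_mul _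

theorem goeMat_WG (n : ℕ) (G : Fin n × Fin n → ℝ) : goeMat (WG n G) = cc n • Hm G := by
  ext i j
  rw [Matrix.smul_apply, smul_eq_mul]
  unfold goeMat WG
  split_ifs with h
  · rfl
  · rw [(Hm_isSymm G).apply i j]

theorem goeLaw_eq (n : ℕ) : goeLaw n = (gam (Fin n × Fin n)).map (WG n) := by
  have h2 : √2 * √2 = 2 := Real.mul_self_sqrt (by norm_num)
  set p : Upper n → Fin n × Fin n := fun r => (r.1.1, r.1.2) with hp
  set q : Upper n → Fin n × Fin n := fun r => (r.1.2, r.1.1) with hq
  set α : Upper n → ℝ := fun r => if r.1.1 = r.1.2 then 1 else (√2)⁻¹ with hα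
  set β : Upper n → ℝ := fun r => if r.1.1 = r.1.2 then 0 else (√2)⁻¹ with hβ
  have hb : ∀ r, β r ≠ 0 → r.1.1 ≠ r.1.2 := by
    intro r h h'
    apply h
    rw [hβ]; simp [h']
  have h := gam_two p q α β
    (by
      intro r
      simp only [hα, hβ]
      split_ifs
      · norm_num
      · rw [inv_pow, sq, h2]; norm_num)
    (by
      intro r r' h
      apply Subtype.ext
      exact h)
    (by
      intro r r' _ _ h
      apply Subtype.ext
      rw [hq, Prod.ext_iff] at h
      exact Prod.ext h.2 h.1)
    (by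
      intro r r' h' h
      rw [hp, hq, Prod.ext_iff] at h
      have k1 := r.2
      have k2 := r'.2
      have k3 := hb r' h'
      have e1 : r.1.1 = r'.1.2 := h.1
      have e2 : r.1.2 = r'.1.1 := h.2
      rw [e1, e2] at k1
      exact k3 (le_antisymm k2 k1))
  -- the scaling
  set σ : Upper n → ℝ := fun r => if r.1.1 = r.1.2 then √2 * cc n else cc n with hσ
  have hW : WG n = (fun (u : Upper n → ℝ) r => σ r * u r) ∘
      (fun x r => α r * x (p r) + β r * x (q r)) := by
    ext G r
    simp only [WG, Function.comp, hσ, hα, hβ, hp, hq]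
    split_ifs with h'
    · rw [← h', Hm_diag]; ring
    · rw [Hm_apply]; field_simp
  have hms : Measurable (fun (u : Upper n → ℝ) r => σ r * u r) := by fun_prop
  rw [hW, ← Measure.map_map hms (measurable_two p q α β), h, gam,
    Measure.pi_map_pi (f := fun (r : Upper n) (x : ℝ) => σ r * x)
      (fun r => (measurable_const_mul _).aemeasurable)]
  unfold goeLaw
  congr 1
  ext1 r
  rw [gaussianReal_map_const_mul]
  congr 1
  · simp
  · apply NNReal.eq
    have hc : cc n ^ 2 = 1 / (n : ℝ) := by
      unfold cc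
      rw [inv_pow, Real.sq_sqrt (Nat.cast_nonneg n), one_div]
    simp only [hσ]
    split_ifs
    · simp only [NNReal.coe_mk, mul_one]
      rw [mul_pow, hc, sq, h2]
      push_cast
      ring
    · simp only [NNReal.coe_mk, mul_one]
      rw [hc]
      push_cast
      ring

/-- the map from the Gaussian variables to the matrix and the leads -/
noncomputable def Psi (n K : ℕ) (x : KK n K → ℝ) : (Upper n → ℝ) × (Fin K → Fin n → ℝ) :=
  (WG n fun p => x (Sum.inl p), fun a i => x (Sum.inr (a, i)))

theorem measurable_Psi (n K : ℕ) : Measurable (Psi n K) := by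
  apply Measurable.prodMk
  · exact (measurable_WG n).comp (by fun_prop)
  · apply measurable_pi_lambda
    intro a
    apply measurable_pi_lambda
    intro i
    exact measurable_pi_apply _

theorem POg_eq (n K : ℕ) : H144.POg n (Fin K) = (gam (KK n K)).map (Psi n K) := by
  have hm' : Measurable (fun (x : Fin K × Fin n → ℝ) (a : Fin K) (i : Fin n) => x (a, i)) := by
    apply measurable_pi_lambda
    intro a
    apply measurable_pi_lambda
    intro i
    exact measurable_pi_apply _
  have h1 : H144.POg n (Fin K) = ((gam (Fin n × Fin n)).map (WG n)).prod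
      ((gam (Fin K × Fin n)).map (fun (x : Fin K × Fin n → ℝ) (a : Fin K) (i : Fin n) =>
        x (a, i))) := by
    unfold H144.POg
    rw [goeLaw_eq, ← pi_eq_map_curry]
    rfl
  rw [h1, Measure.map_prod_map _ _ (measurable_WG n) hm', gam_sum,
    Measure.map_map ((measurable_WG n).prodMap hm') (by fun_prop)]
  rfl

theorem COg_Psi {n K : ℕ} (hn : 0 < n) (x : KK n K → ℝ) :
    H144.COg (Psi n K x).1 (Psi n K x).2 = RR (cc n) n K x := by
  have hc : 0 < cc n := cc_pos hn
  have hn0 : (0 : ℝ) < n := by exact_mod_cast hn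
  have hcc : (cc n)⁻¹ / (n : ℝ) = cc n := by
    unfold cc
    rw [inv_inv, div_eq_iff hn0.ne']
    have := Real.mul_self_sqrt hn0.le
    have h0 : √(n : ℝ) ≠ 0 := by positivity
    field_simp
    rw [sq, this]
  have hinv : (goeMat (Psi n K x).1)⁻¹ = (cc n)⁻¹ • (Hm fun p => x (Sum.inl p))⁻¹ := by
    have e : (Psi n K x).1 = WG n fun p => x (Sum.inl p) := rfl
    rw [e, goeMat_WG]
    by_cases hu : IsUnit (Hm fun p => x (Sum.inl p)).det
    · apply Matrix.inv_eq_right_inv
      rw [smul_mul_assoc, mul_smul_comm, Matrix.mul_nonsing_inv _ hu, smul_smul,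
        mul_inv_cancel₀ hc.ne', one_smul]
    · have h2 : ¬ IsUnit (cc n • Hm fun p => x (Sum.inl p)).det := by
        rw [det_smul]
        intro h
        apply hu
        rw [isUnit_iff_ne_zero] at h ⊢
        exact right_ne_zero_of_mul h
      rw [nonsing_inv_apply_not_isUnit _ hu, nonsing_inv_apply_not_isUnit _ h2, smul_zero]
  ext a b
  unfold H144.COg
  rw [hinv]
  change (∑ i, ∑ j, x (Sum.inr (a, i)) * ((cc n)⁻¹ • (Hm fun p => x (Sum.inl p))⁻¹) i j
    * x (Sum.inr (b, j))) / (n : ℝ) = cc n * ((fun i => x (Sum.inr (a, i))) ⬝ᵥ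
      ((Hm fun p => x (Sum.inl p))⁻¹ *ᵥ fun i => x (Sum.inr (b, i))))
  have e1 : ∑ i, ∑ j, x (Sum.inr (a, i)) * ((cc n)⁻¹ • (Hm fun p => x (Sum.inl p))⁻¹) i j
      * x (Sum.inr (b, j)) = (cc n)⁻¹ * ((fun i => x (Sum.inr (a, i))) ⬝ᵥ
      ((Hm fun p => x (Sum.inl p))⁻¹ *ᵥ fun i => x (Sum.inr (b, i)))) := by
    rw [dotProduct, Finset.mul_sum]
    apply Finset.sum_congr rfl
    intro i _
    rw [mulVec, dotProduct, Finset.mul_sum, Finset.mul_sum]
    apply Finset.sum_congr rfl
    intro j _
    rw [Matrix.smul_apply, smul_eq_mul]; ring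
  rw [e1, mul_div_right_comm, hcc]

/-- **the GOE limit theorem** in the form required by block G -/
theorem goeLimit : H144.GoeLimit := by
  intro K c hc f
  refine (goe_limit_gam hc f).congr' ?_
  filter_upwards [eventually_gt_atTop 0] with n hn
  have hmeas : Measurable (fun ω : (Upper n → ℝ) × (Fin K → Fin n → ℝ) =>
      f (toSymU (Vale.Agent.P156.cay Complex.I ((H144.COg ω.1 ω.2).map Complex.ofReal)))) :=
    H144.measurable_ptS_comp (fun i j => H144.COg_measurable i j)
      (fun ω => H144.COg_symm ω.1 ω.2) f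
  rw [POg_eq, integral_map (measurable_Psi n K).aemeasurable hmeas.aestronglyMeasurable]
  congr 1
  ext x
  have h1 : (H144.COg (Psi n K x).1 (Psi n K x).2)ᵀ = H144.COg (Psi n K x).1 (Psi n K x).2 :=
    H144.COg_symm _ _
  have h2 := H144.ptS_coe h1
  rw [COg_Psi hn] at h2
  congr 1
  apply Subtype.ext
  change (Sg n K x).1 = (H144.ptS (H144.COg (Psi n K x).1 (Psi n K x).2)).1
  rw [COg_Psi hn, h2]
  rfl

end Vale.Agent.P156.H9
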