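import Vale.Agent.P156.H9.FE13f
import Vale.Agent.P156.H9.Final
import Vale.Agent.P156.G.Final
import Vale.Agent.P156.H625.Tight
import Vale.Agent.P156.H849.UpgradeFixed

/-! # FE13: the fixed energy theorem from `SpecEv` and `SpecS` -/

namespace Vale.Agent.P156.H9

open Vale.Agent.P156.FE (Bulk SpecEv SpecFixed)

/-- Fixed energy universality from the every-energy estimates and block F. -/
theorem specFixed_of_ev {d : ℕ} (hd : 3 ≤ d) (hEv : ∀ a b : ℝ, Bulk d a b → SpecEv d a b)
    (hS : SpecS d) : SpecFixed d :=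
  specFixed_of hd hEv (fun a b h => specMic_of_ev h (hEv a b h))
    (G.specGoodLimit_of hd hS goeLimit)

/-- Joint convergence of all linear statistics at every fixed bulk energy. -/
theorem targetFixed_of_ev {d : ℕ} (hd : 3 ≤ d) (hEv : ∀ a b : ℝ, Bulk d a b → SpecEv d a b)
    (hS : SpecS d) : TargetFixed d := by
  intro E h1 h2 m f hf hfc Φ hΦ hC
  obtain ⟨C, hC⟩ := hC
  exact H849.joint_of_laplace d E (specFixed_of_ev hd hEv hS E (abs_lt.2 ⟨h1, h2⟩))
    H625.goeTight f hf hfc Φ hΦ hC

end Vale.Agent.P156.H9
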