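import Vale.Agent.P156.H9.Cay

/-!
P156, GOE side (H2): entrywise bounds for the Cayley transform, perturbation, congruence, the
`h ↦ -1/h` transformation in one channel, dropping one lead.
-/

namespace Vale.Agent.P156.H9

open Matrix Complex

variable {ι : Type*} [Fintype ι] [DecidableEq ι]

theorem rI_eq_cay {A : Matrix ι ι ℂ} (hA : A.IsHermitian) :
    rI A = (-(I / 2)) • (1 - cay A) := by
  rw [cay_eq hA, sub_sub_cancel, smul_smul]
  have : -(I / 2) * (2 * I) = 1 := by linear_combination (-1 : ℂ) * I_mul_I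
  rw [this, one_smul]

theorem norm_cay_le {A : Matrix ι ι ℂ} (hA : A.IsHermitian) (i j : ι) : ‖cay A i j‖ ≤ 1 :=
  entry_norm_bound_of_unitary (cay_mem_unitary hA) i j

theorem norm_rI_le {A : Matrix ι ι ℂ} (hA : A.IsHermitian) (i j : ι) : ‖rI A i j‖ ≤ 1 := by
  rw [rI_eq_cay hA, Matrix.smul_apply, Matrix.sub_apply, smul_eq_mul, norm_mul]
  have h1 : ‖-(I / 2)‖ = 1 / 2 := by simp
  have h2 : ‖(1 : Matrix ι ι ℂ) i j‖ ≤ 1 := by
    rw [Matrix.one_apply]; split_ifs <;> simp
  have h3 := norm_cay_le hA i j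
  have h4 := norm_sub_le ((1 : Matrix ι ι ℂ) i j) (cay A i j)
  rw [h1]; linarith

/-- resolvent perturbation -/
theorem rI_sub {A A' : Matrix ι ι ℂ} (hA : A.IsHermitian) (hA' : A'.IsHermitian) :
    rI A' - rI A = rI A' * (A - A') * rI A := by
  have h : A - A' = pI A - pI A' := by rw [pI, pI, add_sub_add_right_eq_sub]
  rw [h, mul_sub, sub_mul, mul_assoc, pI_mul_rI hA, mul_one, rI_mul_pI hA', one_mul]

omit [DecidableEq ι] in
theorem norm_triple_le (X Y Z : Matrix ι ι ℂ) {e : ℝ} (hX : ∀ i j, ‖X i j‖ ≤ 1)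
    (hY : ∀ i j, ‖Y i j‖ ≤ e) (hZ : ∀ i j, ‖Z i j‖ ≤ 1) (i j : ι) :
    ‖(X * Y * Z) i j‖ ≤ (Fintype.card ι) ^ 2 * e := by
  rw [mul_apply]
  have h1 : ∀ k, ‖(X * Y) i k‖ ≤ Fintype.card ι * e := by
    intro k
    rw [mul_apply]
    calc ‖∑ l, X i l * Y l k‖ ≤ ∑ l, ‖X i l * Y l k‖ := norm_sum_le _ _
      _ ≤ ∑ _l : ι, e := by
          apply Finset.sum_le_sum
          intro l _
          rw [norm_mul]
          calc ‖X i l‖ * ‖Y l k‖ ≤ 1 * ‖Y l k‖ :=
                mul_le_mul_of_nonneg_right (hX i l) (norm_nonneg _)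
            _ ≤ e := by rw [one_mul]; exact hY l k
      _ = _ := by simp
  calc ‖∑ k, (X * Y) i k * Z k j‖ ≤ ∑ k, ‖(X * Y) i k * Z k j‖ := norm_sum_le _ _
    _ ≤ ∑ _k : ι, (Fintype.card ι * e) := by
        apply Finset.sum_le_sum
        intro k _
        rw [norm_mul]
        calc ‖(X * Y) i k‖ * ‖Z k j‖ ≤ ‖(X * Y) i k‖ * 1 :=
              mul_le_mul_of_nonneg_left (hZ k j) (norm_nonneg _)
          _ ≤ _ := by rw [mul_one]; exact h1 k
    _ = _ := by simp; ring

/-- Lipschitz bound of the Cayley transform -/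
theorem norm_cay_sub_le {A A' : Matrix ι ι ℂ} (hA : A.IsHermitian) (hA' : A'.IsHermitian)
    {e : ℝ} (h : ∀ i j, ‖A' i j - A i j‖ ≤ e) (i j : ι) :
    ‖cay A' i j - cay A i j‖ ≤ 2 * (Fintype.card ι) ^ 2 * e := by
  have h1 : cay A' i j - cay A i j = -(2 * I) * (rI A' - rI A) i j := by
    rw [cay_eq hA, cay_eq hA']
    simp only [Matrix.sub_apply, Matrix.smul_apply, smul_eq_mul]; ring
  rw [h1, rI_sub hA hA', norm_mul]
  have h2 : ‖-(2 * I)‖ = 2 := by simp
  rw [h2]
  have h3 : ‖(rI A' * (A - A') * rI A) i j‖ ≤ (Fintype.card ι) ^ 2 * e := by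
    apply norm_triple_le _ _ _ (norm_rI_le hA') _ (norm_rI_le hA)
    intro i j
    rw [Matrix.sub_apply, norm_sub_rev]
    exact h i j
  linarith

/-- congruence by a real positive diagonal matrix close to `1` -/
theorem rI_congr {A : Matrix ι ι ℂ} (hA : A.IsHermitian) {c : ι → ℝ} (hc : ∀ i, c i ≠ 0)
    {A' : Matrix ι ι ℂ} (hA' : A'.IsHermitian) (hAA : ∀ i j, A' i j = c i * c j * A i j) (i j : ι) :
    rI A' i j = ((c i * c j : ℝ) : ℂ)⁻¹ * rI A i j
      + I * ∑ k, rI A' i k * ((((c k) ^ 2 - 1) * (c k * c j)⁻¹ : ℝ) : ℂ) * rI A k j := by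
  have hc' : ∀ i, (c i : ℂ) ≠ 0 := fun i => by exact_mod_cast hc i
  -- X = C⁻¹ B C⁻¹
  set X : Matrix ι ι ℂ := Matrix.of fun i j => ((c i * c j : ℝ) : ℂ)⁻¹ * rI A i j with hX
  have hB : ∀ i j, ∑ k, (A i k + (if i = k then I else 0)) * rI A k j = if i = j then 1 else 0 := by
    intro i j
    have := congrFun (congrFun (pI_mul_rI hA) i) j
    rw [mul_apply, Matrix.one_apply] at this
    rw [← this]
    apply Finset.sum_congr rfl
    intro k _
    congr 1
    rw [pI, Matrix.add_apply, Matrix.smul_apply, Matrix.one_apply, smul_eq_mul]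
    split_ifs <;> simp
  have h1 : pI A' * X = 1 - Matrix.of (fun k j =>
      I * ((((c k) ^ 2 - 1) * (c k * c j)⁻¹ : ℝ) : ℂ) * rI A k j) := by
    ext i j
    rw [mul_apply, Matrix.sub_apply, Matrix.one_apply, of_apply]
    have e1 : ∀ k, pI A' i k * X k j = (c i / c j : ℂ) * ((A i k + (if i = k then I else 0))
        * rI A k j) - (if i = k then I * ((((c k) ^ 2 - 1) * (c k * c j)⁻¹ : ℝ) : ℂ)
          * rI A k j else 0) := by
      intro k
      rw [hX, of_apply, pI, Matrix.add_apply, Matrix.smul_apply, Matrix.one_apply, smul_eq_mul,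
        hAA]
      have hk := hc' k
      have hj := hc' j
      split_ifs with h
      · subst h
        push_cast
        field_simp
        ring
      · push_cast
        field_simp
        ring
    rw [Finset.sum_congr rfl (fun k _ => e1 k), Finset.sum_sub_distrib, ← Finset.mul_sum, hB]
    congr 1
    · split_ifs with h
      · subst h
        rw [mul_one, div_self (hc' i)]
      · rw [mul_zero]
    · rw [Finset.sum_ite_eq]; simp
  have h2 : X = rI A' - rI A' * Matrix.of (fun k j =>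
      I * ((((c k) ^ 2 - 1) * (c k * c j)⁻¹ : ℝ) : ℂ) * rI A k j) := by
    have := congrArg (fun M => rI A' * M) h1
    beta_reduce at this
    rw [← mul_assoc, rI_mul_pI hA', one_mul, mul_sub, mul_one] at this
    exact this
  have h3 := congrFun (congrFun h2 i) j
  rw [Matrix.sub_apply, mul_apply, hX, of_apply] at h3
  rw [h3, Finset.mul_sum, sub_add_eq_add_sub, eq_sub_iff_add_eq]
  congr 1
  apply Finset.sum_congr rfl
  intro k _
  rw [of_apply]; ring

theorem norm_cay_congr_le {A : Matrix ι ι ℂ} (hA : A.IsHermitian) {c : ι → ℝ} {e : ℝ}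
    (he : e ≤ 1 / 2) (hc : ∀ i, |c i - 1| ≤ e)
    {A' : Matrix ι ι ℂ} (hA' : A'.IsHermitian) (hAA : ∀ i j, A' i j = c i * c j * A i j) (i j : ι) :
    ‖cay A' i j - cay A i j‖ ≤ 20 * (Fintype.card ι + 1) * e := by
  have he0 : 0 ≤ e := le_trans (abs_nonneg _) (hc i)
  have hb : ∀ k, 1 / 2 ≤ c k ∧ c k ≤ 3 / 2 := by
    intro k
    have := abs_le.1 (hc k)
    constructor <;> linarith [this.1, this.2]
  have hc0 : ∀ k, c k ≠ 0 := fun k => by have := (hb k).1; positivity
  have hinv : ∀ k l, (c k * c l)⁻¹ ≤ 4 := by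
    intro k l
    have h1 : (1 : ℝ) / 4 ≤ c k * c l := by nlinarith [(hb k).1, (hb l).1]
    calc (c k * c l)⁻¹ ≤ (1 / 4 : ℝ)⁻¹ := inv_anti₀ (by norm_num) h1
      _ = 4 := by norm_num
  have hpos : ∀ k l, 0 < c k * c l := by
    intro k l
    have h1 := (hb k).1
    have h2 := (hb l).1
    apply mul_pos <;> linarith
  have hinv0 : ∀ k l, 0 < (c k * c l)⁻¹ := fun k l => inv_pos.2 (hpos k l)
  have k1 : ∀ k l, |c k * c l - 1| ≤ 5 / 2 * e := by
    intro k l
    have : c k * c l - 1 = (c k - 1) * c l + (c l - 1) := by ring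
    rw [this]
    calc |(c k - 1) * c l + (c l - 1)| ≤ |(c k - 1) * c l| + |c l - 1| := abs_add_le _ _
      _ ≤ e * (3 / 2) + e := by
          rw [abs_mul]
          have : |c l| ≤ 3 / 2 := by
            rw [abs_of_nonneg (by linarith [(hb l).1])]; exact (hb l).2
          have := mul_le_mul (hc k) this (abs_nonneg _) he0
          linarith [hc l]
      _ = _ := by ring
  have k2 : |(c i * c j)⁻¹ - 1| ≤ 10 * e := by
    have : (c i * c j)⁻¹ - 1 = -((c i * c j - 1) * (c i * c j)⁻¹) := by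
      rw [sub_mul, mul_inv_cancel₀ (hpos i j).ne']
      ring
    rw [this, abs_neg, abs_mul, abs_of_pos (hinv0 i j)]
    calc |c i * c j - 1| * (c i * c j)⁻¹ ≤ (5 / 2 * e) * 4 :=
          mul_le_mul (k1 i j) (hinv i j) (hinv0 i j).le (by positivity)
      _ = _ := by ring
  have k3 : ∀ k, |((c k) ^ 2 - 1) * (c k * c j)⁻¹| ≤ 10 * e := by
    intro k
    rw [abs_mul, abs_of_pos (hinv0 k j), sq]
    calc |c k * c k - 1| * (c k * c j)⁻¹ ≤ (5 / 2 * e) * 4 :=
          mul_le_mul (k1 k k) (hinv k j) (hinv0 k j).le (by positivity)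
      _ = _ := by ring
  have h1 : cay A' i j - cay A i j = -(2 * I) * (rI A' i j - rI A i j) := by
    rw [cay_eq hA, cay_eq hA']
    simp only [Matrix.sub_apply, Matrix.smul_apply, smul_eq_mul]; ring
  have h2 : rI A' i j - rI A i j = (((c i * c j)⁻¹ - 1 : ℝ) : ℂ) * rI A i j
      + I * ∑ k, rI A' i k * ((((c k) ^ 2 - 1) * (c k * c j)⁻¹ : ℝ) : ℂ) * rI A k j := by
    rw [rI_congr hA hc0 hA' hAA]
    push_cast
    ring
  have h3 : ‖rI A' i j - rI A i j‖ ≤ 10 * (Fintype.card ι + 1) * e := by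
    rw [h2]
    calc _ ≤ ‖(((c i * c j)⁻¹ - 1 : ℝ) : ℂ) * rI A i j‖ + ‖I * ∑ k, rI A' i k
            * ((((c k) ^ 2 - 1) * (c k * c j)⁻¹ : ℝ) : ℂ) * rI A k j‖ := norm_add_le _ _
      _ ≤ 10 * e * 1 + ∑ _k : ι, 10 * e := by
          apply add_le_add
          · rw [norm_mul, norm_real, Real.norm_eq_abs]
            exact mul_le_mul k2 (norm_rI_le hA i j) (norm_nonneg _) (by positivity)
          · rw [norm_mul, norm_I, one_mul]
            refine (norm_sum_le _ _).trans (Finset.sum_le_sum fun k _ => ?_)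
            rw [norm_mul, norm_mul, norm_real, Real.norm_eq_abs]
            calc ‖rI A' i k‖ * |((c k) ^ 2 - 1) * (c k * c j)⁻¹| * ‖rI A k j‖
                ≤ 1 * (10 * e) * 1 := by
                  apply mul_le_mul _ (norm_rI_le hA k j) (norm_nonneg _) (by positivity)
                  exact mul_le_mul (norm_rI_le hA' i k) (k3 k) (abs_nonneg _) (by norm_num)
              _ = 10 * e := by ring
      _ = _ := by simp; ring
  rw [h1, norm_mul]
  have h4 : ‖-(2 * I)‖ = 2 := by simp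
  rw [h4]
  calc 2 * ‖rI A' i j - rI A i j‖ ≤ 2 * (10 * (Fintype.card ι + 1) * e) :=
        mul_le_mul_of_nonneg_left h3 (by norm_num)
    _ = _ := by ring

end Vale.Agent.P156.H9
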