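import Vale.Agent.P156.H9.Proc4
import Vale.Agent.P156.H849.TargetFixed
import Vale.Agent.P156.FE.Limit

/-! # Convergence in law to the GOE bulk point process -/

open MeasureTheory Filter Topology Set

namespace Vale.Agent.P156.H9

/-- **The GOE bulk point process exists** (unconditional). -/
theorem goeBulk_exists :
    ∃ (P : Measure (ℕ → EReal)) (Ξ : (ℕ → EReal) → Measure ℝ), IsGOEBulk P Ξ :=
  exists_goeBulk fun _ f hf hcs Φ hΦ hC => FE.goe_limit_exists f hf hcs Φ hΦ hC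

/-- If `Ξ` is the limit in law of the unfolded GOE point measures, then it is the limit in law of
the unfolded point measures of random regular graphs at every fixed bulk energy. -/
theorem IsGOEBulk.graph {Ω : Type*} [MeasurableSpace Ω] {P : Measure Ω} {Ξ : Ω → Measure ℝ}
    (h : IsGOEBulk P Ξ) {d : ℕ} (hT : TargetFixed d) {E : ℝ}
    (hE : |E| < 2 * Real.sqrt ((d : ℝ) - 1)) {m : ℕ} (f : Fin m → ℝ → ℝ)
    (hf : ∀ j, Continuous (f j)) (hcs : ∀ j, HasCompactSupport (f j)) (Φ : (Fin m → ℝ) → ℝ)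
    (hΦ : Continuous Φ) (hC : ∃ C : ℝ, ∀ v, |Φ v| ≤ C) :
    Tendsto (fun n => avgGraph n d E f Φ) (atTop ⊓ 𝓟 {n : ℕ | d < n ∧ Even (n * d)})
      (𝓝 (∫ ω, Φ (fun j => ∫ t, f j t ∂(Ξ ω)) ∂P)) := by
  rw [abs_lt] at hE
  have h1 := hT E hE.1 hE.2 m f hf hcs Φ hΦ hC
  have h2 := (h.lim m f hf hcs Φ hΦ hC).mono_left
    (inf_le_left : atTop ⊓ 𝓟 {n : ℕ | d < n ∧ Even (n * d)} ≤ atTop)
  have h3 := h1.add h2
  rw [zero_add] at h3
  refine h3.congr fun n => ?_
  ring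

end Vale.Agent.P156.H9
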