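import Vale.Agent.P156.H9.GoeH

/-!
P156, GOE side (H2): the bordered matrix `R` in terms of `tau`.
-/

namespace Vale.Agent.P156.H9

open Matrix

/-- the perturbation of `R` in the first row and column -/
noncomputable def Pm {s : ℕ} (c a : ℝ) (γ : Fin s → ℝ) : Matrix (Fin (s + 1)) (Fin (s + 1)) ℝ :=
  Matrix.of fun i j => -c * (Fin.cases (Fin.cases a (fun j => γ j) j)
    (fun i => Fin.cases (γ i) (fun _ => 0) j) i : ℝ)

theorem Pm_00 {s : ℕ} (c a : ℝ) (γ : Fin s → ℝ) : Pm c a γ 0 0 = -c * a := rfl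
theorem Pm_0s {s : ℕ} (c a : ℝ) (γ : Fin s → ℝ) (j : Fin s) : Pm c a γ 0 j.succ = -c * γ j := rfl
theorem Pm_s0 {s : ℕ} (c a : ℝ) (γ : Fin s → ℝ) (i : Fin s) : Pm c a γ i.succ 0 = -c * γ i := rfl
theorem Pm_ss {s : ℕ} (c a : ℝ) (γ : Fin s → ℝ) (i j : Fin s) : Pm c a γ i.succ j.succ = 0 := by
  show -c * 0 = 0
  ring

theorem Pm_isSymm {s : ℕ} (c a : ℝ) (γ : Fin s → ℝ) : (Pm c a γ).IsSymm := by
  ext i j
  rw [transpose_apply]
  refine Fin.cases ?_ (fun i => ?_) i <;> refine Fin.cases ?_ (fun j => ?_) j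
  · rfl
  · rw [Pm_s0, Pm_0s]
  · rw [Pm_s0, Pm_0s]
  · rw [Pm_ss, Pm_ss]

theorem border_tau {n s : ℕ} {H' : Matrix (Fin (n + 1)) (Fin (n + 1)) ℝ} (hs : H'.IsSymm)
    (hu : IsUnit (H'.submatrix Fin.succ Fin.succ)) (h0 : sig H' ≠ 0) {c c' : ℝ} (hc : 0 < c)
    (hc' : 0 < c') (ρ : ℝ) (h : Fin s → Fin (n + 1) → ℝ) (a b : Fin (s + 1)) :
    Rv c' H' (Fin.cons (Fin.cons ρ (fun _ => 0)) h) a b
      = (Fin.cons (√(c' * c) * ρ) (fun _ => √(c' / c)) : Fin (s + 1) → ℝ) a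
        * (Fin.cons (√(c' * c) * ρ) (fun _ => √(c' / c)) : Fin (s + 1) → ℝ) b
        * tau 0 (Rv c (H'.submatrix Fin.succ Fin.succ)
            (Fin.cons (fun j => H' 0 j.succ) (fun a j => h a j.succ))
          + Pm c (H' 0 0) (fun a => h a 0)) a b := by
  obtain ⟨_, hb⟩ := border_solve hs hu h0
  have hc0 := hc.ne'
  set H := H'.submatrix Fin.succ Fin.succ with hH
  set w : Fin n → ℝ := fun j => H' 0 j.succ with hw
  have hHs : H.IsSymm := hs.submatrix _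
  have hsig : sig H' = H' 0 0 - w ⬝ᵥ (H⁻¹ *ᵥ w) := rfl
  set σ := sig H' with hσ
  rw [← hsig] at hb
  -- `r̃₀₀ = - c σ`
  set r := Rv c H (Fin.cons w (fun a j => h a j.succ)) with hr
  have r00 : (r + Pm c (H' 0 0) (fun a => h a 0)) 0 0 = -(c * σ) := by
    rw [Matrix.add_apply, Pm_00, hr, Rv_apply, hsig]
    simp only [Fin.cons_zero]
    ring
  have r0s : ∀ b : Fin s, (r + Pm c (H' 0 0) (fun a => h a 0)) 0 b.succ
      = -c * (h b 0 - w ⬝ᵥ (H⁻¹ *ᵥ fun j => h b j.succ)) := by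
    intro b
    rw [Matrix.add_apply, Pm_0s, hr, Rv_apply]
    simp only [Fin.cons_zero, Fin.cons_succ]
    ring
  have rs0 : ∀ b : Fin s, (r + Pm c (H' 0 0) (fun a => h a 0)) b.succ 0
      = -c * (h b 0 - w ⬝ᵥ (H⁻¹ *ᵥ fun j => h b j.succ)) := by
    intro b
    rw [Matrix.add_apply, Pm_s0, hr, Rv_apply, dot_inv_comm hHs]
    simp only [Fin.cons_zero, Fin.cons_succ]
    ring
  have rss : ∀ a b : Fin s, (r + Pm c (H' 0 0) (fun a => h a 0)) a.succ b.succ
      = c * ((fun j => h a j.succ) ⬝ᵥ (H⁻¹ *ᵥ fun j => h b j.succ)) := by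
    intro a b
    rw [Matrix.add_apply, Pm_ss, hr, Rv_apply, add_zero]
    simp only [Fin.cons_succ]
  have q1 : √(c' * c) * √(c' * c) = c' * c := Real.mul_self_sqrt (by positivity)
  have q2 : √(c' / c) * √(c' / c) = c' / c := Real.mul_self_sqrt (by positivity)
  have q3 : √(c' * c) * √(c' / c) = c' := by
    rw [← Real.sqrt_mul (by positivity)]
    have : c' * c * (c' / c) = c' ^ 2 := by field_simp
    rw [this, Real.sqrt_sq hc'.le]
  rw [Rv_apply, hb]
  refine Fin.cases ?_ (fun a => ?_) a <;> refine Fin.cases ?_ (fun b => ?_) b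
  · simp only [Fin.cons_zero, Fin.cons_succ, tau, of_apply, if_true, r00]
    have e0 : (fun _ : Fin n => (0 : ℝ)) = 0 := rfl
    rw [e0, mulVec_zero, dotProduct_zero, dotProduct_zero]
    have : -(-(c * σ))⁻¹ = (c * σ)⁻¹ := by rw [inv_neg, neg_neg]
    rw [this]
    have : √(c' * c) * ρ * (√(c' * c) * ρ) * (c * σ)⁻¹ = (√(c' * c) * √(c' * c)) * (ρ * ρ)
        * (c * σ)⁻¹ := by ring
    rw [this, q1]
    field_simp
    ring
  · simp only [Fin.cons_zero, Fin.cons_succ, tau, of_apply, if_true, r00, r0s, Fin.succ_ne_zero,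
      if_false]
    have e0 : (fun _ : Fin n => (0 : ℝ)) = 0 := rfl
    rw [e0, zero_dotProduct, mulVec_zero, dotProduct_zero]
    have : ∀ y : ℝ, √(c' * c) * ρ * √(c' / c) * y = (√(c' * c) * √(c' / c)) * ρ * y := by
      intro y; ring
    rw [this, q3]
    field_simp
    ring
  · simp only [Fin.cons_zero, Fin.cons_succ, tau, of_apply, if_true, r00, rs0, Fin.succ_ne_zero,
      if_false]
    have e0 : (fun _ : Fin n => (0 : ℝ)) = 0 := rfl
    rw [e0, mulVec_zero, dotProduct_zero, dotProduct_zero]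
    have : ∀ y : ℝ, √(c' / c) * (√(c' * c) * ρ) * y = (√(c' * c) * √(c' / c)) * ρ * y := by
      intro y; ring
    rw [this, q3]
    field_simp
    ring
  · simp only [Fin.cons_succ, tau, of_apply, r00, r0s, rs0, rss, Fin.succ_ne_zero, if_false]
    rw [q2]
    field_simp
    ring

theorem rt00_ne {n s : ℕ} {H' : Matrix (Fin (n + 1)) (Fin (n + 1)) ℝ}
    (h0 : sig H' ≠ 0) {c : ℝ} (hc : 0 < c) (h : Fin s → Fin (n + 1) → ℝ) :
    (Rv c (H'.submatrix Fin.succ Fin.succ)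
            (Fin.cons (fun j => H' 0 j.succ) (fun a j => h a j.succ))
          + Pm c (H' 0 0) (fun a => h a 0)) 0 0 ≠ 0 := by
  rw [Matrix.add_apply, Pm_00, Rv_apply]
  simp only [Fin.cons_zero]
  intro h1
  apply h0
  have : c * sig H' = 0 := by unfold sig; linarith
  exact (mul_eq_zero.1 this).resolve_left hc.ne'

end Vale.Agent.P156.H9
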