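import Vale.Agent.P156.H9.Cay3
import Mathlib.Analysis.SpecialFunctions.Sqrt
import Mathlib.LinearAlgebra.Matrix.ToLin

/-!
P156, GOE side (H2): deterministic bordering identities and the Householder reflection.
-/

namespace Vale.Agent.P156.H9

open Matrix

variable {ι ν : Type*} [Fintype ν] [DecidableEq ν]

/-- the matrix `R_{ab} = c g_aᵀ H⁻¹ g_b` -/
noncomputable def Rv (c : ℝ) (H : Matrix ν ν ℝ) (g : ι → ν → ℝ) : Matrix ι ι ℝ :=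
  Matrix.of fun a b => c * (g a ⬝ᵥ (H⁻¹ *ᵥ g b))

theorem Rv_apply (c : ℝ) (H : Matrix ν ν ℝ) (g : ι → ν → ℝ) (a b : ι) :
    Rv c H g a b = c * (g a ⬝ᵥ (H⁻¹ *ᵥ g b)) := rfl

theorem inv_isSymm {H : Matrix ν ν ℝ} (hH : H.IsSymm) : (H⁻¹).IsSymm := by
  rw [Matrix.IsSymm, Matrix.transpose_nonsing_inv, hH.eq]

theorem dot_inv_comm {H : Matrix ν ν ℝ} (hH : H.IsSymm) (x y : ν → ℝ) :
    x ⬝ᵥ (H⁻¹ *ᵥ y) = y ⬝ᵥ (H⁻¹ *ᵥ x) := by
  rw [dotProduct_mulVec, ← mulVec_transpose, (inv_isSymm hH).eq, dotProduct_comm]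

theorem Rv_isSymm (c : ℝ) {H : Matrix ν ν ℝ} (hH : H.IsSymm) (g : ι → ν → ℝ) :
    (Rv c H g).IsSymm := by
  ext a b
  rw [transpose_apply, Rv_apply, Rv_apply, dot_inv_comm hH]

/-- rotation invariance -/
theorem Rv_rot (c : ℝ) (H : Matrix ν ν ℝ) (g : ι → ν → ℝ) {Q : Matrix ν ν ℝ}
    (hQ : Q * Qᵀ = 1) : Rv c (Q * H * Qᵀ) (fun a => Q *ᵥ g a) = Rv c H g := by
  have hQ' : Qᵀ * Q = 1 := mul_eq_one_comm.1 hQ
  have h1 : Q⁻¹ = Qᵀ := Matrix.inv_eq_right_inv hQ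
  have h2 : (Qᵀ)⁻¹ = Q := Matrix.inv_eq_right_inv hQ'
  have h3 : (Q * H * Qᵀ)⁻¹ = Q * H⁻¹ * Qᵀ := by
    rw [Matrix.mul_inv_rev, Matrix.mul_inv_rev, h1, h2, mul_assoc]
  ext a b
  rw [Rv_apply, Rv_apply, h3]
  congr 1
  rw [mulVec_mulVec, mul_assoc, hQ', mul_one, ← mulVec_mulVec, dotProduct_mulVec,
    ← mulVec_transpose, mulVec_mulVec, hQ', one_mulVec]

/-! ### bordering -/

/-- solution of the bordered system -/
theorem border_solve {n : ℕ} {H' : Matrix (Fin (n + 1)) (Fin (n + 1)) ℝ} (hs : H'.IsSymm)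
    (hu : IsUnit (H'.submatrix Fin.succ Fin.succ))
    (h0 : H' 0 0 - (fun j : Fin n => H' 0 j.succ) ⬝ᵥ
      ((H'.submatrix Fin.succ Fin.succ)⁻¹ *ᵥ fun j : Fin n => H' 0 j.succ) ≠ 0) :
    IsUnit H' ∧ ∀ x y : Fin (n + 1) → ℝ,
      x ⬝ᵥ (H'⁻¹ *ᵥ y) =
        (fun j : Fin n => x j.succ) ⬝ᵥ ((H'.submatrix Fin.succ Fin.succ)⁻¹ *ᵥ fun j => y j.succ)
        + (x 0 - (fun j : Fin n => H' 0 j.succ) ⬝ᵥ
            ((H'.submatrix Fin.succ Fin.succ)⁻¹ *ᵥ fun j => x j.succ))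
          * (y 0 - (fun j : Fin n => H' 0 j.succ) ⬝ᵥ
            ((H'.submatrix Fin.succ Fin.succ)⁻¹ *ᵥ fun j => y j.succ))
          * (H' 0 0 - (fun j : Fin n => H' 0 j.succ) ⬝ᵥ
            ((H'.submatrix Fin.succ Fin.succ)⁻¹ *ᵥ fun j : Fin n => H' 0 j.succ))⁻¹ := by
  set H := H'.submatrix Fin.succ Fin.succ with hH
  set w : Fin n → ℝ := fun j => H' 0 j.succ with hw
  set σ := H' 0 0 - w ⬝ᵥ (H⁻¹ *ᵥ w) with hσ
  have hHs : H.IsSymm := hs.submatrix _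
  have hud : IsUnit H.det := (Matrix.isUnit_iff_isUnit_det _).1 hu
  have hHH : H * H⁻¹ = 1 := Matrix.mul_nonsing_inv _ hud
  -- the solution
  have sol : ∀ y : Fin (n + 1) → ℝ, H' *ᵥ (Fin.cons ((y 0 - w ⬝ᵥ (H⁻¹ *ᵥ fun j => y j.succ)) * σ⁻¹)
      (fun j => (H⁻¹ *ᵥ fun j => y j.succ) j
        - (y 0 - w ⬝ᵥ (H⁻¹ *ᵥ fun j => y j.succ)) * σ⁻¹ * (H⁻¹ *ᵥ w) j)) = y := by
    intro y
    set yv : Fin n → ℝ := fun j => y j.succ with hyv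
    set z0 := (y 0 - w ⬝ᵥ (H⁻¹ *ᵥ yv)) * σ⁻¹ with hz0
    have hz0' : z0 * σ = y 0 - w ⬝ᵥ (H⁻¹ *ᵥ yv) := by
      rw [hz0, mul_assoc, inv_mul_cancel₀ h0, mul_one]
    ext i
    rw [mulVec, dotProduct, Fin.sum_univ_succ]
    simp only [Fin.cons_zero, Fin.cons_succ]
    refine Fin.cases ?_ (fun i => ?_) i
    · have e : ∑ k : Fin n, H' 0 k.succ * ((H⁻¹ *ᵥ yv) k - z0 * (H⁻¹ *ᵥ w) k)
          = w ⬝ᵥ (H⁻¹ *ᵥ yv) - z0 * (w ⬝ᵥ (H⁻¹ *ᵥ w)) := by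
        rw [dotProduct, dotProduct, Finset.mul_sum, ← Finset.sum_sub_distrib]
        apply Finset.sum_congr rfl
        intro k _
        rw [hw]; ring
      rw [e]
      linear_combination hz0' + z0 * (-hσ)
    · have e1 : ∀ v : Fin n → ℝ, ∑ k : Fin n, H' i.succ k.succ * (H⁻¹ *ᵥ v) k = v i := by
        intro v
        have := congrFun (show H *ᵥ (H⁻¹ *ᵥ v) = v by rw [mulVec_mulVec, hHH, one_mulVec]) i
        rw [mulVec, dotProduct] at this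
        exact this
      have e : ∑ k : Fin n, H' i.succ k.succ * ((H⁻¹ *ᵥ yv) k - z0 * (H⁻¹ *ᵥ w) k)
          = yv i - z0 * w i := by
        rw [← e1 yv, ← e1 w, Finset.mul_sum, ← Finset.sum_sub_distrib]
        apply Finset.sum_congr rfl
        intro k _
        ring
      rw [e]
      have : H' i.succ 0 = w i := by rw [hw]; exact hs.apply _ _
      rw [this, hyv]; ring
  have hunit : IsUnit H' := by
    rw [← Matrix.mulVec_surjective_iff_isUnit]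
    exact fun y => ⟨_, sol y⟩
  refine ⟨hunit, fun x y => ?_⟩
  have hud' : IsUnit H'.det := (Matrix.isUnit_iff_isUnit_det _).1 hunit
  have hinv : H'⁻¹ *ᵥ y = (Fin.cons ((y 0 - w ⬝ᵥ (H⁻¹ *ᵥ fun j => y j.succ)) * σ⁻¹)
      (fun j => (H⁻¹ *ᵥ fun j => y j.succ) j
        - (y 0 - w ⬝ᵥ (H⁻¹ *ᵥ fun j => y j.succ)) * σ⁻¹ * (H⁻¹ *ᵥ w) j)) := by
    conv_lhs => rw [← sol y]
    rw [mulVec_mulVec, Matrix.nonsing_inv_mul _ hud', one_mulVec]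
  rw [hinv, dotProduct, Fin.sum_univ_succ]
  simp only [Fin.cons_zero, Fin.cons_succ]
  set yv : Fin n → ℝ := fun j => y j.succ with hyv
  set xv : Fin n → ℝ := fun j => x j.succ with hxv
  set z0 := (y 0 - w ⬝ᵥ (H⁻¹ *ᵥ yv)) * σ⁻¹ with hz0
  have e : ∑ k : Fin n, x k.succ * ((H⁻¹ *ᵥ yv) k - z0 * (H⁻¹ *ᵥ w) k)
      = xv ⬝ᵥ (H⁻¹ *ᵥ yv) - z0 * (xv ⬝ᵥ (H⁻¹ *ᵥ w)) := by
    rw [dotProduct, dotProduct, Finset.mul_sum, ← Finset.sum_sub_distrib]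
    apply Finset.sum_congr rfl
    intro k _
    rw [hxv]; ring
  rw [e, dot_inv_comm hHs xv w, hz0]
  ring

/-! ### Householder reflection -/

theorem householder {n : ℕ} (x : Fin (n + 1) → ℝ) :
    ∃ Q : Matrix (Fin (n + 1)) (Fin (n + 1)) ℝ, Q * Qᵀ = 1 ∧
      Q *ᵥ x = Fin.cons (Real.sqrt (∑ i, x i ^ 2)) (fun _ => 0) := by
  set ρ := Real.sqrt (∑ i, x i ^ 2) with hρ
  have hρ2 : ρ * ρ = x ⬝ᵥ x := by
    rw [hρ, Real.mul_self_sqrt (Finset.sum_nonneg fun i _ => sq_nonneg _), dotProduct]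
    simp only [sq]
  set e : Fin (n + 1) → ℝ := Fin.cons ρ (fun _ => 0) with he
  have hee : e ⬝ᵥ e = ρ * ρ := by
    rw [dotProduct, Fin.sum_univ_succ]; simp [he]
  set v := x - e with hv
  by_cases h0 : v ⬝ᵥ v = 0
  · have hv0 : v = 0 := dotProduct_self_eq_zero.1 h0
    refine ⟨1, by simp, ?_⟩
    rw [one_mulVec]
    exact sub_eq_zero.1 hv0
  · refine ⟨1 - (2 / (v ⬝ᵥ v)) • vecMulVec v v, ?_, ?_⟩
    · have ht : (vecMulVec v v)ᵀ = vecMulVec v v := by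
        ext i j; rw [transpose_apply, vecMulVec_apply, vecMulVec_apply, mul_comm]
      have hvv : vecMulVec v v * vecMulVec v v = (v ⬝ᵥ v) • vecMulVec v v := by
        ext i j
        rw [mul_apply, Matrix.smul_apply, vecMulVec_apply, smul_eq_mul, dotProduct,
          Finset.sum_mul]
        apply Finset.sum_congr rfl
        intro k _
        rw [vecMulVec_apply, vecMulVec_apply]; ring
      have hb : 2 / (v ⬝ᵥ v) * (2 / (v ⬝ᵥ v)) * (v ⬝ᵥ v) = 2 / (v ⬝ᵥ v) + 2 / (v ⬝ᵥ v) := by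
        field_simp; ring
      have hB : ((2 / (v ⬝ᵥ v)) • vecMulVec v v) * ((2 / (v ⬝ᵥ v)) • vecMulVec v v)
          = (2 / (v ⬝ᵥ v)) • vecMulVec v v + (2 / (v ⬝ᵥ v)) • vecMulVec v v := by
        rw [smul_mul_assoc, mul_smul_comm, hvv, smul_smul, smul_smul, hb, add_smul]
      rw [transpose_sub, transpose_one, transpose_smul, ht, sub_mul, one_mul, mul_sub, mul_one, hB]
      abel
    · have hxv : v ⬝ᵥ x = (v ⬝ᵥ v) / 2 := by
        have h1 : v ⬝ᵥ v = x ⬝ᵥ x - x ⬝ᵥ e - e ⬝ᵥ x + e ⬝ᵥ e := by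
          rw [hv, sub_dotProduct, dotProduct_sub, dotProduct_sub]; ring
        have h2 : v ⬝ᵥ x = x ⬝ᵥ x - e ⬝ᵥ x := by rw [hv, sub_dotProduct]
        rw [h1, h2, hee, hρ2, dotProduct_comm x e]; ring
      rw [sub_mulVec, one_mulVec, smul_mulVec]
      have h3 : vecMulVec v v *ᵥ x = (v ⬝ᵥ x) • v := by
        ext i
        rw [mulVec, dotProduct, Pi.smul_apply, smul_eq_mul, dotProduct, Finset.sum_mul]
        apply Finset.sum_congr rfl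
        intro k _
        rw [vecMulVec_apply]; ring
      rw [h3, hxv, smul_smul]
      have : 2 / (v ⬝ᵥ v) * ((v ⬝ᵥ v) / 2) = 1 := by field_simp
      rw [this, one_smul, hv, sub_sub_cancel]

end Vale.Agent.P156.H9
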