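import Mathlib.Analysis.CStarAlgebra.Matrix
import Mathlib.LinearAlgebra.Matrix.Hermitian
import Mathlib.LinearAlgebra.Matrix.NonsingularInverse
import Mathlib.LinearAlgebra.UnitaryGroup
import Mathlib.LinearAlgebra.Matrix.DotProduct

/-!
P156, GOE side (H2): the Cayley transform `S = (R - i)(R + i)⁻¹` of a real symmetric matrix.
-/

namespace Vale.Agent.P156.H9

open Matrix Complex
open scoped ComplexOrder

variable {ι : Type*} [Fintype ι] [DecidableEq ι]

/-- complexification of a real matrix -/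
def cx (R : Matrix ι ι ℝ) : Matrix ι ι ℂ := R.map (fun x => (x : ℂ))

omit [Fintype ι] [DecidableEq ι] in
@[simp] theorem cx_apply (R : Matrix ι ι ℝ) (i j : ι) : cx R i j = (R i j : ℂ) := rfl

omit [Fintype ι] [DecidableEq ι] in
theorem cx_conjTranspose (R : Matrix ι ι ℝ) : (cx R)ᴴ = cx Rᵀ := by
  ext i j; simp

omit [Fintype ι] [DecidableEq ι] in
theorem cx_transpose (R : Matrix ι ι ℝ) : (cx R)ᵀ = cx Rᵀ := by
  ext i j; simp

omit [DecidableEq ι] in
theorem cx_mul (R R' : Matrix ι ι ℝ) : cx (R * R') = cx R * cx R' := by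
  ext i j
  simp only [cx_apply, mul_apply, ofReal_sum, ofReal_mul]

omit [Fintype ι] in
theorem cx_one : cx (1 : Matrix ι ι ℝ) = 1 := by
  ext i j
  by_cases h : i = j <;> simp [h, Matrix.one_apply]

omit [Fintype ι] [DecidableEq ι] in
theorem cx_isHermitian {R : Matrix ι ι ℝ} (hR : R.IsSymm) : (cx R).IsHermitian := by
  rw [Matrix.IsHermitian, cx_conjTranspose, hR.eq]

/-- `A + i` -/
noncomputable def pI (A : Matrix ι ι ℂ) : Matrix ι ι ℂ := A + I • 1

/-- `A - i` -/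
noncomputable def mI (A : Matrix ι ι ℂ) : Matrix ι ι ℂ := A - I • 1

theorem dot_pI (A : Matrix ι ι ℂ) (hA : A.IsHermitian) (v : ι → ℂ) :
    (star (pI A *ᵥ v) ⬝ᵥ (pI A *ᵥ v)) = star (A *ᵥ v) ⬝ᵥ (A *ᵥ v) + star v ⬝ᵥ v := by
  have h1 : star (A *ᵥ v) ⬝ᵥ v = star v ⬝ᵥ (A *ᵥ v) := by
    rw [star_mulVec, hA.eq, dotProduct_mulVec]
  rw [pI, add_mulVec, smul_mulVec, one_mulVec, star_add, star_smul, add_dotProduct,
    dotProduct_add, dotProduct_add, smul_dotProduct, dotProduct_smul, smul_dotProduct,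
    dotProduct_smul, h1]
  simp only [smul_eq_mul, RCLike.star_def, conj_I]
  linear_combination (-(star v ⬝ᵥ v)) * I_mul_I

theorem pI_injective {A : Matrix ι ι ℂ} (hA : A.IsHermitian) :
    Function.Injective (pI A).mulVec := by
  rw [← Matrix.coe_mulVecLin, ← LinearMap.ker_eq_bot, LinearMap.ker_eq_bot']
  intro v hv
  rw [Matrix.mulVecLin_apply] at hv
  have h := dot_pI A hA v
  rw [hv, star_zero, zero_dotProduct] at h
  have h2 : (0 : ℂ) ≤ star (A *ᵥ v) ⬝ᵥ (A *ᵥ v) := dotProduct_star_self_nonneg _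
  have h3 : (0 : ℂ) ≤ star v ⬝ᵥ v := dotProduct_star_self_nonneg _
  have h4 : star v ⬝ᵥ v = 0 := by
    apply le_antisymm _ h3
    calc star v ⬝ᵥ v ≤ star (A *ᵥ v) ⬝ᵥ (A *ᵥ v) + star v ⬝ᵥ v := le_add_of_nonneg_left h2
      _ = 0 := h.symm
  exact dotProduct_star_self_eq_zero.1 h4

theorem isUnit_pI {A : Matrix ι ι ℂ} (hA : A.IsHermitian) : IsUnit (pI A) :=
  Matrix.mulVec_injective_iff_isUnit.1 (pI_injective hA)

theorem isUnit_det_pI {A : Matrix ι ι ℂ} (hA : A.IsHermitian) : IsUnit (pI A).det :=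
  (Matrix.isUnit_iff_isUnit_det _).1 (isUnit_pI hA)

/-- `(A + i)⁻¹` -/
noncomputable def rI (A : Matrix ι ι ℂ) : Matrix ι ι ℂ := (pI A)⁻¹

theorem pI_mul_rI {A : Matrix ι ι ℂ} (hA : A.IsHermitian) : pI A * rI A = 1 :=
  Matrix.mul_nonsing_inv _ (isUnit_det_pI hA)

theorem rI_mul_pI {A : Matrix ι ι ℂ} (hA : A.IsHermitian) : rI A * pI A = 1 :=
  Matrix.nonsing_inv_mul _ (isUnit_det_pI hA)

/-- the Cayley transform `(A - i)(A + i)⁻¹` -/
noncomputable def cay (A : Matrix ι ι ℂ) : Matrix ι ι ℂ := mI A * rI A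

theorem cay_eq {A : Matrix ι ι ℂ} (hA : A.IsHermitian) : cay A = 1 - (2 * I) • rI A := by
  have h1 : mI A = pI A - (2 * I) • 1 := by
    rw [mI, pI]
    ext i j
    simp only [Matrix.sub_apply, Matrix.add_apply, Matrix.smul_apply, smul_eq_mul]
    ring
  rw [cay, h1, sub_mul, pI_mul_rI hA, smul_mul_assoc, one_mul]

theorem cay_mul_pI {A : Matrix ι ι ℂ} (hA : A.IsHermitian) : cay A * pI A = mI A := by
  rw [cay, mul_assoc, rI_mul_pI hA, mul_one]

theorem eq_cay {A S : Matrix ι ι ℂ} (hA : A.IsHermitian) (h : S * pI A = mI A) : S = cay A := by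
  rw [cay, ← h, mul_assoc, pI_mul_rI hA, mul_one]

omit [Fintype ι] in
theorem conjTranspose_pI {A : Matrix ι ι ℂ} (hA : A.IsHermitian) : (pI A)ᴴ = mI A := by
  rw [pI, conjTranspose_add, hA.eq, conjTranspose_smul, conjTranspose_one, mI]
  simp [sub_eq_add_neg]

theorem conjTranspose_rI_mul {A : Matrix ι ι ℂ} (hA : A.IsHermitian) : (rI A)ᴴ * mI A = 1 := by
  rw [← conjTranspose_pI hA, ← conjTranspose_mul, pI_mul_rI hA, conjTranspose_one]

theorem mul_conjTranspose_rI {A : Matrix ι ι ℂ} (hA : A.IsHermitian) : mI A * (rI A)ᴴ = 1 := by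
  rw [← conjTranspose_pI hA, ← conjTranspose_mul, rI_mul_pI hA, conjTranspose_one]

omit [Fintype ι] in
theorem pI_sub_mI (A : Matrix ι ι ℂ) : pI A - mI A = (2 * I) • 1 := by
  rw [mI, pI]
  ext i j
  simp only [Matrix.sub_apply, Matrix.add_apply, Matrix.smul_apply, smul_eq_mul]
  ring

/-- resolvent identity `B* - B = 2 i B B*` -/
theorem rI_identity {A : Matrix ι ι ℂ} (hA : A.IsHermitian) :
    (rI A)ᴴ - rI A = (2 * I) • (rI A * (rI A)ᴴ) := by
  have h : rI A * (pI A - mI A) * (rI A)ᴴ = (rI A)ᴴ - rI A := by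
    rw [mul_sub, rI_mul_pI hA, sub_mul, one_mul, mul_assoc, mul_conjTranspose_rI hA, mul_one]
  rw [← h, pI_sub_mI, mul_smul_comm, mul_one, smul_mul_assoc]

theorem rI_identity' {A : Matrix ι ι ℂ} (hA : A.IsHermitian) :
    (rI A)ᴴ - rI A = (2 * I) • ((rI A)ᴴ * rI A) := by
  have h : (rI A)ᴴ * (pI A - mI A) * rI A = (rI A)ᴴ - rI A := by
    rw [mul_sub, sub_mul, mul_assoc, pI_mul_rI hA, mul_one, conjTranspose_rI_mul hA, one_mul]
  rw [← h, pI_sub_mI, mul_smul_comm, mul_one, smul_mul_assoc]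

theorem cay_mem_unitary {A : Matrix ι ι ℂ} (hA : A.IsHermitian) :
    cay A ∈ Matrix.unitaryGroup ι ℂ := by
  rw [Matrix.mem_unitaryGroup_iff, star_eq_conjTranspose, cay_eq hA, conjTranspose_sub,
    conjTranspose_one, conjTranspose_smul]
  have h := rI_identity hA
  have e : star (2 * I) = -(2 * I) := by simp
  rw [e]
  have h2 : (1 - (2 * I) • rI A) * (1 - (-(2 * I)) • (rI A)ᴴ)
      = 1 + (2 * I) • ((rI A)ᴴ - rI A) + (4 : ℂ) • (rI A * (rI A)ᴴ) := by
    have e3 : (2 * I) * (2 * I) = -4 := by linear_combination (4 : ℂ) * I_mul_I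
    rw [sub_mul, mul_sub, mul_sub, one_mul, mul_one, one_mul, smul_mul_assoc, mul_smul_comm,
      smul_smul, mul_neg, e3, neg_neg, smul_sub, neg_smul]
    abel
  rw [h2, h, smul_smul]
  have e3 : (2 * I) * (2 * I) = -4 := by linear_combination (4 : ℂ) * I_mul_I
  rw [e3, neg_smul]
  abel

theorem cay_transpose {A : Matrix ι ι ℂ} (hA : A.IsHermitian) (hs : Aᵀ = A) :
    (cay A)ᵀ = cay A := by
  have h1 : (pI A)ᵀ = pI A := by
    rw [pI, transpose_add, hs, transpose_smul, transpose_one]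
  have h2 : (rI A)ᵀ = rI A := by
    rw [rI, Matrix.transpose_nonsing_inv, h1]
  rw [cay_eq hA, transpose_sub, transpose_one, transpose_smul, h2]

/-- equivariance -/
theorem cay_conj {A U : Matrix ι ι ℂ} (hA : A.IsHermitian) (hU : U ∈ Matrix.unitaryGroup ι ℂ) :
    cay (U * A * Uᴴ) = U * cay A * Uᴴ := by
  have hU1 : Uᴴ * U = 1 := by
    rw [← star_eq_conjTranspose]; exact (Matrix.mem_unitaryGroup_iff').1 hU
  have hU2 : U * Uᴴ = 1 := by
    rw [← star_eq_conjTranspose]; exact (Matrix.mem_unitaryGroup_iff).1 hU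
  have hA' : (U * A * Uᴴ).IsHermitian := isHermitian_mul_mul_conjTranspose U hA
  symm
  apply eq_cay hA'
  have h1 : pI (U * A * Uᴴ) = U * pI A * Uᴴ := by
    rw [pI, pI, mul_add, add_mul, mul_smul_comm, mul_one, smul_mul_assoc, hU2]
  have h2 : mI (U * A * Uᴴ) = U * mI A * Uᴴ := by
    rw [mI, mI, mul_sub, sub_mul, mul_smul_comm, mul_one, smul_mul_assoc, hU2]
  rw [h1, h2]
  calc U * cay A * Uᴴ * (U * pI A * Uᴴ) = U * cay A * (Uᴴ * U) * pI A * Uᴴ := by
        simp only [mul_assoc]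
    _ = U * (cay A * pI A) * Uᴴ := by rw [hU1, mul_one]; simp only [mul_assoc]
    _ = _ := by rw [cay_mul_pI hA]

end Vale.Agent.P156.H9
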