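import Vale.Agent.P156.H9.Cay2
import Mathlib.Data.Matrix.Basic

/-!
P156, GOE side (H2): the transformation `h ↦ -1/h` in one channel and the Cayley transform;
dropping one lead.
-/

namespace Vale.Agent.P156.H9

open Matrix Complex

variable {ι : Type*} [Fintype ι] [DecidableEq ι]

/-- the transformation `h ↦ -1/h` in the channel `a` -/
noncomputable def tau (a : ι) (R : Matrix ι ι ℝ) : Matrix ι ι ℝ :=
  Matrix.of fun i j =>
    if i = a then (if j = a then -(R a a)⁻¹ else R a j * (R a a)⁻¹)
    else (if j = a then R i a * (R a a)⁻¹ else R i j - R i a * R a j * (R a a)⁻¹)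

omit [Fintype ι] in
theorem tau_symm (a : ι) {R : Matrix ι ι ℝ} (hR : R.IsSymm) : (tau a R).IsSymm := by
  have h : ∀ i j, R i j = R j i := fun i j => hR.apply j i
  rw [Matrix.IsSymm]
  ext i j
  rw [transpose_apply, tau, of_apply, of_apply]
  by_cases hi : i = a <;> by_cases hj : j = a <;> simp only [hi, hj, if_true, if_false]
  · rw [h j a]
  · rw [h i a]
  · rw [h i j, h i a, h a j]; ring

/-- the phase matrix `diag(-i, 1, .., 1)` -/
noncomputable def Dm (a : ι) : Matrix ι ι ℂ := Matrix.diagonal fun i => if i = a then -I else 1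

omit [Fintype ι] in
theorem Dm_transpose (a : ι) : (Dm a)ᵀ = Dm a := by rw [Dm, diagonal_transpose]

theorem Dm_mul_apply (a : ι) (M : Matrix ι ι ℂ) (i j : ι) :
    (Dm a * M) i j = (if i = a then -I else 1) * M i j := by
  rw [Dm, diagonal_mul]

theorem mul_Dm_apply (a : ι) (M : Matrix ι ι ℂ) (i j : ι) :
    (M * Dm a) i j = M i j * (if j = a then -I else 1) := by
  rw [Dm, mul_diagonal]

theorem cay_tau (a : ι) {R : Matrix ι ι ℝ} (hR : R.IsSymm) (h0 : R a a ≠ 0) :
    cay (cx (tau a R)) = Dm a * cay (cx R) * Dm a := by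
  symm
  have h0' : (R a a : ℂ) ≠ 0 := by exact_mod_cast h0
  apply eq_cay (cx_isHermitian (tau_symm a hR))
  -- the matrices `X : x ↦ x''` and `Y : x ↦ y''`
  set X : Matrix ι ι ℂ := Matrix.of fun i j => if i = a then (R a j : ℂ) else (if i = j then 1 else 0)
    with hX
  set Y : Matrix ι ι ℂ := Matrix.of fun i j =>
    if i = a then (if j = a then -1 else 0) else (R i j : ℂ) with hY
  set X' : Matrix ι ι ℂ := Matrix.of fun i j =>
    if i = a then (if j = a then (R a a : ℂ)⁻¹ else -((R a j : ℂ) * (R a a : ℂ)⁻¹))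
      else (if i = j then 1 else 0) with hX'
  have hXX' : X * X' = 1 := by
    ext i j
    rw [mul_apply, Matrix.one_apply]
    by_cases hi : i = a
    · subst hi
      simp only [hX, hX', of_apply, if_true]
      rw [← Finset.add_sum_erase _ _ (Finset.mem_univ i)]
      have e : ∑ k ∈ Finset.univ.erase i, (R i k : ℂ) * (if k = i then
          (if j = i then (R i i : ℂ)⁻¹ else -((R i j : ℂ) * (R i i : ℂ)⁻¹))
          else (if k = j then 1 else 0)) = if i = j then 0 else (R i j : ℂ) := by
        rw [Finset.sum_congr rfl (g := fun k => if k = j then (R i k : ℂ) else 0)]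
        · rw [Finset.sum_ite_eq']
          by_cases hij : i = j
          · simp [hij]
          · have : j ∈ Finset.univ.erase i := Finset.mem_erase.2 ⟨Ne.symm hij, Finset.mem_univ _⟩
            rw [if_pos this, if_neg hij]
        · intro k hk
          rw [if_neg (Finset.ne_of_mem_erase hk)]
          split_ifs <;> simp
      rw [e]
      by_cases hij : i = j
      · subst hij; simp [h0']
      · have hji : ¬ j = i := Ne.symm hij
        simp only [if_true, if_neg hji, if_neg hij]
        field_simp
        ring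
    · simp only [hX, hX', of_apply, if_neg hi]
      rw [Finset.sum_eq_single i]
      · simp [hi]
      · intro k _ hk
        rw [if_neg (Ne.symm hk), zero_mul]
      · intro h; exact absurd (Finset.mem_univ _) h
  have hτ : cx (tau a R) * X = Y := by
    ext i j
    rw [mul_apply, ← Finset.add_sum_erase _ _ (Finset.mem_univ a)]
    have e : ∑ k ∈ Finset.univ.erase a, cx (tau a R) i k * X k j
        = if a = j then 0 else cx (tau a R) i j := by
      rw [Finset.sum_congr rfl (g := fun k => if k = j then cx (tau a R) i k else 0)]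
      · rw [Finset.sum_ite_eq']
        by_cases hij : a = j
        · simp [hij]
        · have : j ∈ Finset.univ.erase a := Finset.mem_erase.2 ⟨Ne.symm hij, Finset.mem_univ _⟩
          rw [if_pos this, if_neg hij]
      · intro k hk
        rw [hX, of_apply, if_neg (Finset.ne_of_mem_erase hk)]
        split_ifs <;> simp
    rw [e]
    simp only [hX, hY, of_apply, if_true, cx_apply, tau]
    by_cases hi : i = a <;> by_cases hj : j = a
    · subst hi; subst hj; simp [h0']
    · subst hi
      simp only [if_true, if_neg hj, if_neg (Ne.symm hj)]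
      push_cast
      field_simp
      ring
    · subst hj
      simp only [if_true, if_neg hi]
      push_cast
      field_simp
      ring
    · simp only [if_neg hi, if_neg hj, if_neg (Ne.symm hj)]
      push_cast
      field_simp
      ring
  set E : Matrix ι ι ℂ := Matrix.diagonal fun i => if i = a then I else 1 with hE
  have hDE : Dm a * E = 1 := by
    rw [Dm, hE, diagonal_mul_diagonal, ← diagonal_one]
    congr 1
    ext i
    split_ifs <;> simp
  have h1 : pI (cx (tau a R)) * X = E * pI (cx R) := by
    rw [pI, add_mul, hτ, smul_mul_assoc, one_mul]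
    ext i j
    rw [hE, diagonal_mul]
    simp only [pI, Matrix.add_apply, Matrix.smul_apply, smul_eq_mul, hX, hY, of_apply, cx_apply,
      Matrix.one_apply]
    by_cases hi : i = a
    · subst hi
      by_cases hj : i = j
      · subst hj; simp; linear_combination (-1 : ℂ) * I_mul_I
      · simp [hj, Ne.symm hj]
    · by_cases hj : i = j
      · subst hj; simp [hi]
      · simp [hi, hj]
  have h2 : mI (cx (tau a R)) * X = Dm a * mI (cx R) := by
    rw [mI, sub_mul, hτ, smul_mul_assoc, one_mul]
    ext i j
    rw [Dm_mul_apply]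
    simp only [mI, Matrix.sub_apply, Matrix.smul_apply, smul_eq_mul, hX, hY, of_apply, cx_apply,
      Matrix.one_apply]
    by_cases hi : i = a
    · subst hi
      by_cases hj : i = j
      · subst hj; simp; linear_combination (-1 : ℂ) * I_mul_I
      · simp [hj, Ne.symm hj]
    · by_cases hj : i = j
      · subst hj; simp [hi]
      · simp [hi, hj]
  have h3 : Dm a * cay (cx R) * Dm a * pI (cx (tau a R)) * X = mI (cx (tau a R)) * X := by
    rw [mul_assoc _ (pI _) X, h1, h2]
    calc Dm a * cay (cx R) * Dm a * (E * pI (cx R))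
        = Dm a * cay (cx R) * (Dm a * E) * pI (cx R) := by simp only [mul_assoc]
      _ = Dm a * (cay (cx R) * pI (cx R)) := by rw [hDE, mul_one]; simp only [mul_assoc]
      _ = _ := by rw [cay_mul_pI (cx_isHermitian hR)]
  have h4 := congrArg (fun M => M * X') h3
  beta_reduce at h4
  rw [mul_assoc _ X X', hXX', mul_one, mul_assoc _ X X', hXX', mul_one] at h4
  exact h4

/-! ### dropping a lead -/

theorem rI_diag_ne_zero {A : Matrix ι ι ℂ} (hA : A.IsHermitian) (a : ι) : rI A a a ≠ 0 := by
  intro h
  have h1 := congrFun (congrFun (rI_identity hA) a) a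
  rw [Matrix.sub_apply, conjTranspose_apply, h, star_zero, sub_zero, Matrix.smul_apply,
    mul_apply, smul_eq_mul] at h1
  have h2 : ∑ k, rI A a k * (rI A)ᴴ k a = ((∑ k, ‖rI A a k‖ ^ 2 : ℝ) : ℂ) := by
    rw [ofReal_sum]
    apply Finset.sum_congr rfl
    intro k _
    rw [conjTranspose_apply, RCLike.star_def, mul_conj, normSq_eq_norm_sq]
  rw [h2] at h1
  have h3 : (∑ k, ‖rI A a k‖ ^ 2 : ℝ) = 0 := by
    have : (2 * I) ≠ 0 := by simp
    have := (mul_eq_zero.1 h1.symm).resolve_left this
    exact_mod_cast this
  have h4 : ∀ k, rI A a k = 0 := by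
    intro k
    have := (Finset.sum_eq_zero_iff_of_nonneg (fun k _ => by positivity)).1 h3 k (Finset.mem_univ k)
    simpa using this
  have h5 := congrFun (congrFun (rI_mul_pI hA) a) a
  rw [mul_apply, Matrix.one_apply_eq] at h5
  rw [Finset.sum_congr rfl (fun k _ => by rw [h4 k, zero_mul]), Finset.sum_const_zero] at h5
  exact zero_ne_one h5

theorem cay_diag_ne_one {A : Matrix ι ι ℂ} (hA : A.IsHermitian) (a : ι) : cay A a a ≠ 1 := by
  rw [cay_eq hA, Matrix.sub_apply, Matrix.one_apply_eq, Matrix.smul_apply, smul_eq_mul]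
  intro h
  have h2 : (2 * I) * rI A a a = 0 := by linear_combination -h
  have : (2 * I) ≠ 0 := by simp
  exact rI_diag_ne_zero hA a ((mul_eq_zero.1 h2).resolve_left this)

theorem isHermitian_drop {t : ℕ} {A : Matrix (Fin (t + 1)) (Fin (t + 1)) ℂ} (hA : A.IsHermitian) :
    (A.submatrix Fin.succ Fin.succ).IsHermitian := hA.submatrix _

theorem cay_drop {t : ℕ} {A : Matrix (Fin (t + 1)) (Fin (t + 1)) ℂ} (hA : A.IsHermitian)
    (i j : Fin t) :
    cay (A.submatrix Fin.succ Fin.succ) i j
      = cay A i.succ j.succ + cay A i.succ 0 * (1 - cay A 0 0)⁻¹ * cay A 0 j.succ := by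
  have hb := rI_diag_ne_zero hA 0
  set B := rI A with hB
  -- the Schur complement
  set T : Matrix (Fin t) (Fin t) ℂ := Matrix.of fun i j =>
    B i.succ j.succ - B i.succ 0 * B 0 j.succ * (B 0 0)⁻¹ with hT
  have hprod : ∀ (i : Fin (t + 1)) (j : Fin t), ∑ k : Fin t, B i k.succ * pI A k.succ j.succ
      = (if i = j.succ then 1 else 0) - B i 0 * pI A 0 j.succ := by
    intro i j
    have := congrFun (congrFun (rI_mul_pI hA) i) j.succ
    rw [mul_apply, Fin.sum_univ_succ, Matrix.one_apply] at this
    rw [← this]; ring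
  have hsub : pI (A.submatrix Fin.succ Fin.succ) = (pI A).submatrix Fin.succ Fin.succ := by
    ext i j
    simp [pI, Matrix.one_apply]
  have hTinv : T * pI (A.submatrix Fin.succ Fin.succ) = 1 := by
    ext i j
    rw [hsub, mul_apply, Matrix.one_apply]
    have e : ∀ k : Fin t, T i k * (pI A).submatrix Fin.succ Fin.succ k j
        = B i.succ k.succ * pI A k.succ j.succ
          - B i.succ 0 * (B 0 0)⁻¹ * (B 0 k.succ * pI A k.succ j.succ) := by
      intro k
      rw [hT, of_apply, submatrix_apply]; ring
    rw [Finset.sum_congr rfl (fun k _ => e k), Finset.sum_sub_distrib, ← Finset.mul_sum,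
      hprod, hprod]
    have e0 : ¬ ((0 : Fin (t + 1)) = j.succ) := (Fin.succ_ne_zero j).symm
    rw [if_neg e0]
    have e1 : ((i.succ : Fin (t + 1)) = j.succ) ↔ i = j := Fin.succ_inj
    simp only [e1]
    field_simp
    ring
  have hTr : T = rI (A.submatrix Fin.succ Fin.succ) := by
    have := pI_mul_rI (isHermitian_drop hA)
    calc T = T * (pI (A.submatrix Fin.succ Fin.succ) * rI (A.submatrix Fin.succ Fin.succ)) := by
          rw [this, mul_one]
      _ = _ := by rw [← mul_assoc, hTinv, one_mul]
  rw [cay_eq (isHermitian_drop hA), ← hTr, cay_eq hA]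
  simp only [Matrix.sub_apply, Matrix.smul_apply, smul_eq_mul, Matrix.one_apply, hT, of_apply,
    Fin.succ_inj, Fin.succ_ne_zero, if_false, if_true, ← hB]
  have e0 : ¬ ((0 : Fin (t + 1)) = j.succ) := (Fin.succ_ne_zero j).symm
  rw [if_neg e0]
  have hI : I ≠ 0 := I_ne_zero
  have h2 : (1 - (1 - 2 * I * B 0 0)) = 2 * I * B 0 0 := by ring
  rw [h2]
  field_simp
  ring

end Vale.Agent.P156.H9
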