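import Vale.Agent.P156.H801.Mat

/-! # FE13: the weak type bound on the microscopic scale, abstract form -/

open MeasureTheory Filter Topology Matrix Finset

namespace Vale.Agent.P156.H9

noncomputable section

open Vale.Agent.P156.H801

variable {ι : Type*} [Fintype ι] [DecidableEq ι]

/-- the near part -/
def nearW (w y : ι → ℝ) (L : ℝ) : ι → ℝ := fun i => if |y i| ≤ 2 * L then w i else 0

omit [DecidableEq ι] in
theorem sum_nearW_le {w y a b : ι → ℝ} (hab : ∀ i, |w i| ≤ (a i + b i) / 2)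
    (ha : ∀ i, 0 ≤ a i) (hb : ∀ i, 0 ≤ b i) {L T : ℝ} (hL : 0 < L)
    (hTa : ∑ i, a i * pk L (y i) ≤ T) (hTb : ∑ i, b i * pk L (y i) ≤ T) :
    ∑ i, |nearW w y L i| ≤ 5 * L * T := by
  have h1 : ∀ i, |nearW w y L i| ≤ 5 * L * ((a i * pk L (y i) + b i * pk L (y i)) / 2) := by
    intro i
    unfold nearW
    split_ifs with h
    · refine (hab i).trans ?_
      have h2 : 1 ≤ 5 * L * pk L (y i) := by
        unfold pk
        have h3 : (y i) ^ 2 ≤ (2 * L) ^ 2 := by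
          rw [← sq_abs]
          exact pow_le_pow_left₀ (abs_nonneg _) h 2
        rw [← mul_div_assoc, le_div_iff₀ (by positivity)]
        nlinarith
      have h4 : 0 ≤ (a i + b i) / 2 := by linarith [ha i, hb i]
      calc (a i + b i) / 2 = (a i + b i) / 2 * 1 := by ring
        _ ≤ (a i + b i) / 2 * (5 * L * pk L (y i)) := mul_le_mul_of_nonneg_left h2 h4
        _ = _ := by ring
    · rw [abs_zero]
      have := pk_nonneg hL.le (y i)
      have := ha i
      have := hb i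
      positivity
  calc ∑ i, |nearW w y L i| ≤ ∑ i, 5 * L * ((a i * pk L (y i) + b i * pk L (y i)) / 2) :=
        Finset.sum_le_sum fun i _ => h1 i
    _ = 5 * L * ((∑ i, a i * pk L (y i) + ∑ i, b i * pk L (y i)) / 2) := by
        rw [← Finset.mul_sum, ← Finset.sum_div, Finset.sum_add_distrib]
    _ ≤ 5 * L * T := by
        refine mul_le_mul_of_nonneg_left ?_ (by positivity)
        linarith

theorem norm_ofReal_sub_I (y L : ℝ) :
    ‖(y : ℂ) - (L : ℂ) * Complex.I‖ ^ 2 = y ^ 2 + L ^ 2 := by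
  rw [← Complex.normSq_eq_norm_sq, Complex.normSq_apply]
  simp
  ring

/-- the far part varies little -/
theorem far_term {y L s : ℝ} (hL : 0 < L) (hs : |s| ≤ L) (hy : 2 * L < |y|) :
    ‖1 / ((y : ℂ) - (s : ℂ)) - 1 / ((y : ℂ) - (L : ℂ) * Complex.I)‖ ≤ 5 * pk L y := by
  have hy0 : 0 < |y| := by linarith
  have h1 : |y| / 2 ≤ ‖(y : ℂ) - (s : ℂ)‖ := by
    rw [← Complex.ofReal_sub, Complex.norm_real, Real.norm_eq_abs]
    have := abs_sub_abs_le_abs_sub y s
    linarith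
  have h2 : |y| ≤ ‖(y : ℂ) - (L : ℂ) * Complex.I‖ := by
    have h3 : |y| ^ 2 ≤ ‖(y : ℂ) - (L : ℂ) * Complex.I‖ ^ 2 := by
      rw [norm_ofReal_sub_I, sq_abs]
      nlinarith [sq_nonneg L]
    exact (sq_le_sq₀ (abs_nonneg _) (norm_nonneg _)).1 h3
  have hne1 : (y : ℂ) - (s : ℂ) ≠ 0 := by
    intro h
    rw [h, norm_zero] at h1
    linarith
  have hne2 : (y : ℂ) - (L : ℂ) * Complex.I ≠ 0 := by
    intro h
    rw [h, norm_zero] at h2
    linarith
  have h3 : 1 / ((y : ℂ) - (s : ℂ)) - 1 / ((y : ℂ) - (L : ℂ) * Complex.I) =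
      ((s : ℂ) - (L : ℂ) * Complex.I) /
        (((y : ℂ) - (s : ℂ)) * ((y : ℂ) - (L : ℂ) * Complex.I)) := by
    field_simp
    ring
  have h4 : ‖(s : ℂ) - (L : ℂ) * Complex.I‖ ≤ 2 * L := by
    refine (norm_sub_le _ _).trans ?_
    rw [norm_mul, Complex.norm_I, mul_one, Complex.norm_real, Complex.norm_real, Real.norm_eq_abs,
      Real.norm_eq_abs, abs_of_pos hL]
    linarith
  rw [h3, norm_div, norm_mul]
  have h5 : |y| / 2 * |y| ≤ ‖(y : ℂ) - (s : ℂ)‖ * ‖(y : ℂ) - (L : ℂ) * Complex.I‖ :=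
    mul_le_mul h1 h2 (abs_nonneg _) (norm_nonneg _)
  calc _ ≤ 2 * L / (|y| / 2 * |y|) :=
        div_le_div₀ (by positivity) h4 (by positivity) h5
    _ ≤ 5 * pk L y := by
        unfold pk
        have h6 : |y| / 2 * |y| = y ^ 2 / 2 := by
          rw [← sq_abs y]; ring
        have h7 : (2 * L) ^ 2 < y ^ 2 := by
          rw [← sq_abs y]
          exact pow_lt_pow_left₀ hy (by positivity) (by norm_num)
        have h8 : 0 < y ^ 2 := lt_of_le_of_lt (sq_nonneg _) h7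
        rw [h6, ← mul_div_assoc, div_le_div_iff₀ (by positivity) (by positivity)]
        nlinarith

omit [DecidableEq ι] in
theorem hh_near_le {w y a b : ι → ℝ} (hab : ∀ i, |w i| ≤ (a i + b i) / 2)
    (ha : ∀ i, 0 ≤ a i) (hb : ∀ i, 0 ≤ b i) {L T : ℝ} (hL : 0 < L)
    (hTa : ∑ i, a i * pk L (y i) ≤ T) (hTb : ∑ i, b i * pk L (y i) ≤ T)
    (hT : ‖hh w y ((L : ℂ) * Complex.I)‖ ≤ T) {s : ℝ} (hs : |s| ≤ L) :
    ‖hh w y (s : ℂ)‖ ≤ ‖hh (nearW w y L) y (s : ℂ)‖ + 11 * T := by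
  have hnear := sum_nearW_le hab ha hb hL hTa hTb
  -- decomposition
  have h1 : hh w y (s : ℂ) = hh (nearW w y L) y (s : ℂ) + hh w y ((L : ℂ) * Complex.I) -
      hh (nearW w y L) y ((L : ℂ) * Complex.I) +
      ∑ i, (if |y i| ≤ 2 * L then 0 else
        (w i : ℂ) * (1 / ((y i : ℂ) - (s : ℂ)) - 1 / ((y i : ℂ) - (L : ℂ) * Complex.I))) := by
    unfold hh
    rw [← Finset.sum_add_distrib, ← Finset.sum_sub_distrib, ← Finset.sum_add_distrib]
    refine Finset.sum_congr rfl fun i _ => ?_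
    unfold nearW
    split_ifs with h
    · ring
    · push_cast
      ring
  have h2 : ‖hh (nearW w y L) y ((L : ℂ) * Complex.I)‖ ≤ 5 * T := by
    unfold hh
    refine (norm_sum_le _ _).trans ?_
    have h3 : ∀ i, ‖(nearW w y L i : ℂ) / ((y i : ℂ) - (L : ℂ) * Complex.I)‖ ≤
        |nearW w y L i| * L⁻¹ := by
      intro i
      rw [norm_div, Complex.norm_real, Real.norm_eq_abs, div_eq_mul_inv]
      refine mul_le_mul_of_nonneg_left ?_ (abs_nonneg _)
      refine inv_anti₀ hL ?_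
      have h4 : L ^ 2 ≤ ‖(y i : ℂ) - (L : ℂ) * Complex.I‖ ^ 2 := by
        rw [norm_ofReal_sub_I]
        nlinarith [sq_nonneg (y i)]
      exact (sq_le_sq₀ hL.le (norm_nonneg _)).1 h4
    calc _ ≤ ∑ i, |nearW w y L i| * L⁻¹ := Finset.sum_le_sum fun i _ => h3 i
      _ = (∑ i, |nearW w y L i|) * L⁻¹ := by rw [Finset.sum_mul]
      _ ≤ 5 * L * T * L⁻¹ := mul_le_mul_of_nonneg_right hnear (by positivity)
      _ = 5 * T := by field_simp
  have h5 : ‖∑ i, (if |y i| ≤ 2 * L then 0 else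
        (w i : ℂ) * (1 / ((y i : ℂ) - (s : ℂ)) - 1 / ((y i : ℂ) - (L : ℂ) * Complex.I)))‖ ≤
        5 * T := by
    refine (norm_sum_le _ _).trans ?_
    have h6 : ∀ i, ‖(if |y i| ≤ 2 * L then 0 else
        (w i : ℂ) * (1 / ((y i : ℂ) - (s : ℂ)) - 1 / ((y i : ℂ) - (L : ℂ) * Complex.I)))‖ ≤
        5 * ((a i * pk L (y i) + b i * pk L (y i)) / 2) := by
      intro i
      have hp := pk_nonneg hL.le (y i)
      have ha' := ha i
      have hb' := hb i
      split_ifs with h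
      · rw [norm_zero]
        positivity
      · rw [norm_mul, Complex.norm_real, Real.norm_eq_abs]
        calc |w i| * _ ≤ ((a i + b i) / 2) * (5 * pk L (y i)) :=
              mul_le_mul (hab i) (far_term hL hs (not_le.1 h)) (norm_nonneg _) (by positivity)
          _ = _ := by ring
    calc _ ≤ ∑ i, 5 * ((a i * pk L (y i) + b i * pk L (y i)) / 2) :=
          Finset.sum_le_sum fun i _ => h6 i
      _ = 5 * ((∑ i, a i * pk L (y i) + ∑ i, b i * pk L (y i)) / 2) := by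
          rw [← Finset.mul_sum, ← Finset.sum_div, Finset.sum_add_distrib]
      _ ≤ 5 * T := by linarith
  rw [h1]
  refine (norm_add_le _ _).trans ?_
  refine (add_le_add ((norm_sub_le _ _).trans (add_le_add (norm_add_le _ _) le_rfl)) le_rfl).trans ?_
  linarith

omit [DecidableEq ι] in
/-- **microscopic weak type bound** -/
theorem vol_mic {w y a b : ι → ℝ} (hab : ∀ i, |w i| ≤ (a i + b i) / 2)
    (ha : ∀ i, 0 ≤ a i) (hb : ∀ i, 0 ≤ b i) {L T : ℝ} (hL : 0 < L)
    (hTa : ∑ i, a i * pk L (y i) ≤ T) (hTb : ∑ i, b i * pk L (y i) ≤ T)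
    (hT : ‖hh w y ((L : ℂ) * Complex.I)‖ ≤ T) {B : ℝ} (hB : 0 < B) (hBT : 22 * T ≤ B) :
    volume {s : ℝ | |s| ≤ L ∧ B < ‖hh w y (s : ℂ)‖} ≤ ENNReal.ofReal (1600 * L * T / B) := by
  classical
  have hsub : {s : ℝ | |s| ≤ L ∧ B < ‖hh w y (s : ℂ)‖} ⊆
      {s : ℝ | B / 2 < ‖hh (nearW w y L) y ((s : ℂ) + ((0 : ℝ) : ℂ) * Complex.I)‖} := by
    rintro s ⟨hs, hs'⟩
    have h1 := hh_near_le hab ha hb hL hTa hTb hT hs
    show B / 2 < ‖hh (nearW w y L) y ((s : ℂ) + ((0 : ℝ) : ℂ) * Complex.I)‖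
    rw [Complex.ofReal_zero, zero_mul, add_zero]
    linarith
  refine (measure_mono hsub).trans ((weak_type_signed _ _ le_rfl (by positivity)).trans
    (ENNReal.ofReal_le_ofReal ?_))
  have h2 := sum_nearW_le hab ha hb hL hTa hTb
  calc 160 * (∑ i, |nearW w y L i|) / (B / 2) ≤ 160 * (5 * L * T) / (B / 2) := by gcongr
    _ = 1600 * L * T / B := by field_simp; ring

end

end Vale.Agent.P156.H9
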