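import Vale.Agent.P156.H9.FE13a
import Vale.Agent.P156.H490.Schur
import Vale.Agent.P156.H490.Prob
import Vale.Agent.P156.H801.Tight

/-! # FE13: the weak type bound on the microscopic scale for the lead matrix -/

open MeasureTheory Filter Topology Matrix Finset

namespace Vale.Agent.P156.H9

noncomputable section

open Vale.Agent.P156.H801

section resolvent

variable {V : Type*} [Fintype V] [DecidableEq V]

theorem resD_scaled {A : Matrix V V ℝ} (hA : A.IsHermitian) {D : Finset V} {x y : V}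
    (hx : x ∉ D) (hy : y ∉ D) (E : ℝ) {N : ℝ} (hN : 0 < N) {z : ℂ}
    (hz : ∀ i, ((N * ((zo_herm hA D).eigenvalues i - E) : ℝ) : ℂ) - z ≠ 0) :
    resD A D ((E : ℂ) + z / (N : ℂ)) x y =
      hh (fun i => N * (ev (zo_herm hA D) i x * ev (zo_herm hA D) i y))
        (fun i => N * ((zo_herm hA D).eigenvalues i - E)) z := by
  have hN' : (N : ℂ) ≠ 0 := by exact_mod_cast hN.ne'
  have hz' : ∀ i, ((zo_herm hA D).eigenvalues i : ℂ) - ((E : ℂ) + z / (N : ℂ)) ≠ 0 := by
    intro i h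
    refine hz i ?_
    have : ((N * ((zo_herm hA D).eigenvalues i - E) : ℝ) : ℂ) - z =
        (N : ℂ) * (((zo_herm hA D).eigenvalues i : ℂ) - ((E : ℂ) + z / (N : ℂ))) := by
      push_cast
      field_simp
      ring
    rw [this, h, mul_zero]
  rw [resD_apply hA hz' hx hy]
  unfold hh
  refine Finset.sum_congr rfl fun i _ => ?_
  have h1 : ((N * ((zo_herm hA D).eigenvalues i - E) : ℝ) : ℂ) - z =
      (N : ℂ) * (((zo_herm hA D).eigenvalues i : ℂ) - ((E : ℂ) + z / (N : ℂ))) := by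
    push_cast
    field_simp
    ring
  rw [h1, Complex.ofReal_mul N, mul_div_mul_left _ _ hN']

theorem ne_of_im {y : ℝ} {z : ℂ} (hz : z.im ≠ 0) : (y : ℂ) - z ≠ 0 := by
  intro h
  have := congrArg Complex.im h
  simp at this
  exact hz this

theorem vol_resD_mic {A : Matrix V V ℝ} (hA : A.IsHermitian) {D : Finset V} {x y : V}
    (hx : x ∉ D) (hy : y ∉ D) (E : ℝ) {N : ℝ} (hN : 0 < N) {L T B : ℝ} (hL : 0 < L)
    (hT : ∀ u ∈ ({x, y} : Finset V), ∀ v ∈ ({x, y} : Finset V),
      ‖resD A D ((E : ℂ) + ((L / N : ℝ) : ℂ) * Complex.I) u v‖ ≤ T) (hB : 0 < B)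
    (hBT : 22 * T ≤ B) :
    volume {s : ℝ | |s| ≤ L ∧ B < ‖resD A D ((E + s / N : ℝ) : ℂ) x y‖} ≤
      ENNReal.ofReal (1600 * L * T / B) := by
  have hA' := zo_herm hA D
  set lam := fun i => N * (hA'.eigenvalues i - E) with hlam
  have hLI : ((L : ℂ) * Complex.I).im ≠ 0 := by
    simp [hL.ne']
  have hpt : (E : ℂ) + ((L / N : ℝ) : ℂ) * Complex.I = (E : ℂ) + ((L : ℂ) * Complex.I) / (N : ℂ) := by
    push_cast
    ring
  have hres : ∀ u v : V, u ∉ D → v ∉ D →
      resD A D ((E : ℂ) + ((L / N : ℝ) : ℂ) * Complex.I) u v =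
        hh (fun i => N * (ev hA' i u * ev hA' i v)) lam ((L : ℂ) * Complex.I) := by
    intro u v hu hv
    rw [hpt]
    exact resD_scaled hA hu hv E hN fun i => ne_of_im hLI
  have hdiag : ∀ u : V, u ∉ D → ‖resD A D ((E : ℂ) + ((L / N : ℝ) : ℂ) * Complex.I) u u‖ ≤ T →
      ∑ i, (N * (ev hA' i u) ^ 2) * pk L (lam i) ≤ T := by
    intro u hu h
    have h1 := (Complex.im_le_norm _).trans h
    rw [hres u u hu hu] at h1
    have h2 : (hh (fun i => N * (ev hA' i u * ev hA' i u)) lam ((L : ℂ) * Complex.I)).im =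
        ∑ i, (N * (ev hA' i u) ^ 2) * pk L (lam i) := by
      have h3 := hh_im (fun i => N * (ev hA' i u * ev hA' i u)) lam 0 L
      rw [Complex.ofReal_zero, zero_add] at h3
      rw [h3]
      refine Finset.sum_congr rfl fun i _ => ?_
      rw [sub_zero, sq]
    rw [h2] at h1
    exact h1
  have hnull : volume (Set.range lam) = 0 := (Set.finite_range _).measure_zero _
  have hsub : {s : ℝ | |s| ≤ L ∧ B < ‖resD A D ((E + s / N : ℝ) : ℂ) x y‖} ⊆
      Set.range lam ∪ {s : ℝ | |s| ≤ L ∧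
        B < ‖hh (fun i => N * (ev hA' i x * ev hA' i y)) lam (s : ℂ)‖} := by
    rintro s ⟨hs, hs'⟩
    by_cases hr : s ∈ Set.range lam
    · exact Or.inl hr
    · right
      refine ⟨hs, ?_⟩
      have h1 : ((E + s / N : ℝ) : ℂ) = (E : ℂ) + (s : ℂ) / (N : ℂ) := by push_cast; ring
      rw [h1, resD_scaled hA hx hy E hN] at hs'
      · exact hs'
      · intro i h
        refine hr ⟨i, ?_⟩
        have h2 : (lam i : ℂ) - (s : ℂ) = 0 := h
        have h3 := congrArg Complex.re h2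
        simp at h3
        linarith
  refine (measure_mono hsub).trans ((measure_union_le _ _).trans ?_)
  rw [hnull, zero_add]
  refine vol_mic (a := fun i => N * (ev hA' i x) ^ 2) (b := fun i => N * (ev hA' i y) ^ 2) ?_ ?_ ?_
    hL (hdiag x hx (hT x (by simp) x (by simp))) (hdiag y hy (hT y (by simp) y (by simp))) ?_ hB hBT
  · intro i
    rw [abs_mul, abs_of_pos hN, abs_mul]
    have h4 := sq_nonneg (|ev hA' i x| - |ev hA' i y|)
    have h5 := sq_abs (ev hA' i x)
    have h6 := sq_abs (ev hA' i y)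
    nlinarith
  · intro i
    positivity
  · intro i
    positivity
  · rw [← hres x y hx hy]
    exact hT x (by simp) y (by simp)

end resolvent

/-- **microscopic weak type bound for the lead matrix** -/
theorem vol_lead_mic {n d K : ℕ} {ω : SimpleGraph (Fin n) × StarPos n d K} (hω : ω ∈ ZZs n d K)
    (hn : 0 < n) (E : ℝ) {L T B : ℝ} (hL : 0 < L)
    (hT : ∀ p r, ‖leadMat ω ((E : ℂ) + ((L / n : ℝ) : ℂ) * Complex.I) p r‖ ≤ T) (hB : 0 < B)
    (hBT : 22 * T ≤ B) :
    volume {s : ℝ | |s| ≤ L ∧ ∃ p r, B < ‖leadMat ω ((E + s / n : ℝ) : ℂ) p r‖} ≤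
      ENNReal.ofReal (((K : ℝ) * d) * (K * d) * (1600 * L * T / B)) := by
  have hn' : (0 : ℝ) < n := by exact_mod_cast hn
  have hsub : {s : ℝ | |s| ≤ L ∧ ∃ p r, B < ‖leadMat ω ((E + s / n : ℝ) : ℂ) p r‖} ⊆
      ⋃ p : (Fin K × Fin d) × (Fin K × Fin d),
        {s : ℝ | |s| ≤ L ∧ B < ‖resD (adj ω.1) (centres ω) ((E + s / n : ℝ) : ℂ)
          (lead ω p.1) (lead ω p.2)‖} := by
    rintro s ⟨hs, p, r, h⟩
    exact Set.mem_iUnion.2 ⟨(p, r), hs, h⟩
  calc volume {s : ℝ | |s| ≤ L ∧ ∃ p r, B < ‖leadMat ω ((E + s / n : ℝ) : ℂ) p r‖}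
      ≤ _ := measure_mono hsub
    _ ≤ ∑ p : (Fin K × Fin d) × (Fin K × Fin d), volume {s : ℝ | |s| ≤ L ∧
          B < ‖resD (adj ω.1) (centres ω) ((E + s / n : ℝ) : ℂ) (lead ω p.1) (lead ω p.2)‖} :=
        measure_iUnion_fintype_le _ _
    _ ≤ ∑ _p : (Fin K × Fin d) × (Fin K × Fin d), ENNReal.ofReal (1600 * L * T / B) := by
        refine Finset.sum_le_sum fun p _ => ?_
        refine vol_resD_mic (adj_isHermitian ω.1) (H490.lead_notMem hω p.1)
          (H490.lead_notMem hω p.2) E hn' hL ?_ hB hBT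
        intro u hu v hv
        simp only [Finset.mem_insert, Finset.mem_singleton] at hu hv
        rcases hu with rfl | rfl <;> rcases hv with rfl | rfl
        · exact hT p.1 p.1
        · exact hT p.1 p.2
        · exact hT p.2 p.1
        · exact hT p.2 p.2
    _ = ENNReal.ofReal (((K : ℝ) * d) * (K * d) * (1600 * L * T / B)) := by
        rw [Finset.sum_const, Finset.card_univ, nsmul_eq_mul]
        simp only [Fintype.card_prod, Fintype.card_fin]
        rw [← ENNReal.ofReal_natCast, ← ENNReal.ofReal_mul (by positivity)]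
        congr 1
        push_cast
        ring

end

end Vale.Agent.P156.H9
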