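import Vale.Agent.P156.H9.FE13b
import Vale.Agent.P156.FE.Spec
import Vale.Agent.P156.H520.Final
import Vale.Agent.P156.H992.Bridge

/-! # FE13: from the star matrix to a bound for the lead matrix -/

open MeasureTheory Filter Topology Matrix Finset

namespace Vale.Agent.P156.H9

noncomputable section

open Vale.Agent.P156.FE (Bulk Adm SpecEv SpecMic)

/-- inverse of a matrix close to a scalar matrix -/
theorem inv_le_of_near {K : ℕ} {M : Matrix (Fin K) (Fin K) ℂ} {m : ℂ} {δ : ℝ}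
    (hM : IsUnit M.det) (hm : 0 < ‖m‖)
    (hδ : ∀ i j, ‖M i j - (if i = j then m else 0)‖ ≤ δ) (hK : K * δ ≤ ‖m‖ / 2) (i j : Fin K) :
    ‖M⁻¹ i j‖ ≤ 2 / ‖m‖ := by
  set N := M⁻¹ with hN
  have hMN : M * N = 1 := Matrix.mul_nonsing_inv _ hM
  have hne : (Finset.univ : Finset (Fin K)).Nonempty := ⟨i, Finset.mem_univ i⟩
  obtain ⟨i₀, -, hi₀⟩ := Finset.exists_max_image Finset.univ (fun k => ‖N k j‖) hne
  have hδ0 : 0 ≤ δ := (norm_nonneg _).trans (hδ i i)
  have h1 : m * N i₀ j = (if i₀ = j then 1 else 0) -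
      ∑ k, (M i₀ k - (if i₀ = k then m else 0)) * N k j := by
    have h2 := congrFun (congrFun hMN i₀) j
    rw [Matrix.mul_apply, Matrix.one_apply] at h2
    rw [← h2, ← Finset.sum_sub_distrib]
    have h3 : ∀ k, M i₀ k * N k j - (M i₀ k - (if i₀ = k then m else 0)) * N k j =
        if i₀ = k then m * N k j else 0 := by
      intro k
      split_ifs <;> ring
    simp only [h3]
    rw [Finset.sum_ite_eq, if_pos (Finset.mem_univ _)]
  have h4 : ‖m‖ * ‖N i₀ j‖ ≤ 1 + K * δ * ‖N i₀ j‖ := by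
    rw [← norm_mul, h1]
    refine (norm_sub_le _ _).trans (add_le_add ?_ ?_)
    · split_ifs <;> simp
    · refine (norm_sum_le _ _).trans ?_
      calc ∑ k, ‖(M i₀ k - (if i₀ = k then m else 0)) * N k j‖ ≤ ∑ _k : Fin K, δ * ‖N i₀ j‖ := by
            refine Finset.sum_le_sum fun k _ => ?_
            rw [norm_mul]
            exact mul_le_mul (hδ i₀ k) (hi₀ k (Finset.mem_univ _)) (norm_nonneg _) hδ0
        _ = K * δ * ‖N i₀ j‖ := by
            rw [Finset.sum_const, Finset.card_univ, Fintype.card_fin, nsmul_eq_mul]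
            ring
  have h5 : K * δ * ‖N i₀ j‖ ≤ ‖m‖ / 2 * ‖N i₀ j‖ :=
    mul_le_mul_of_nonneg_right hK (norm_nonneg _)
  have h6 : ‖N i₀ j‖ ≤ 2 / ‖m‖ := by
    rw [le_div_iff₀ hm]
    nlinarith
  exact (hi₀ i (Finset.mem_univ _)).trans h6

theorem bulk_abs {d : ℕ} {a b E : ℝ} (h : Bulk d a b) (hE : E ∈ Set.Icc a b) :
    |E| < 2 * Real.sqrt ((d : ℝ) - 1) := by
  rw [abs_lt]
  exact ⟨lt_of_lt_of_le h.2.2.1 hE.1, lt_of_le_of_lt hE.2 h.2.2.2⟩

theorem continuousOn_mdE {d : ℕ} {a b : ℝ} (h : Bulk d a b) :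
    ContinuousOn (fun E : ℝ => mdE d E) (Set.Icc a b) := by
  unfold mdE
  refine ContinuousOn.div continuousOn_const ?_ ?_
  · have h1 : Continuous (fun E : ℝ => mE d E) := by
      unfold mE
      fun_prop
    fun_prop
  · intro E hE
    exact H520.Edm_ne h.1 (bulk_abs h hE)

theorem mdE_bounds {d : ℕ} {a b : ℝ} (h : Bulk d a b) : ∃ c > 0, ∃ C : ℝ, 1 ≤ C ∧
    ∀ E ∈ Set.Icc a b, c ≤ ‖mdE d E‖ ∧ ‖mdE d E‖ ≤ C := by
  have hne : (Set.Icc a b).Nonempty := ⟨a, le_rfl, h.2.1.le⟩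
  have hc : ContinuousOn (fun E : ℝ => ‖mdE d E‖) (Set.Icc a b) := (continuousOn_mdE h).norm
  obtain ⟨E₁, hE₁, h1⟩ := isCompact_Icc.exists_isMinOn hne hc
  obtain ⟨E₂, hE₂, h2⟩ := isCompact_Icc.exists_isMaxOn hne hc
  refine ⟨‖mdE d E₁‖, ?_, max 1 ‖mdE d E₂‖, le_max_left _ _, fun E hE => ⟨h1 hE, ?_⟩⟩
  · refine norm_pos_iff.2 ?_
    unfold mdE
    exact div_ne_zero (by norm_num) (H520.Edm_ne h.1 (bulk_abs h hE₁))
  · exact (h2 hE : ‖mdE d E‖ ≤ ‖mdE d E₂‖).trans (le_max_right _ _)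

theorem KE_le {d : ℕ} {a b C : ℝ} (h : Bulk d a b) {E : ℝ} (hE : E ∈ Set.Icc a b)
    (hC : ‖mdE d E‖ ≤ C) (K : ℕ) (x y : Fin K × Option (Fin d)) : ‖KE d E K x y‖ ≤ C := by
  have h1 : ‖mE d E‖ ≤ 1 := (_root_.P156.Gap.root_mE (by have := h.1; omega)
    (bulk_abs h hE)).norm_le_one
  unfold KE
  split_ifs
  · rw [norm_mul, norm_pow, norm_neg]
    calc ‖mdE d E‖ * ‖mE d E‖ ^ starDist x.2 y.2 ≤ ‖mdE d E‖ * 1 :=
          mul_le_mul_of_nonneg_left (pow_le_one₀ (norm_nonneg _) h1) (norm_nonneg _)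
      _ ≤ C := by rw [mul_one]; exact hC
  · rw [norm_zero]
    exact (norm_nonneg _).trans hC

/-- **bound for the lead matrix** -/
theorem leadMat_le {d : ℕ} {a b : ℝ} (h : Bulk d a b) (K : ℕ) : ∃ δ > 0, ∃ T : ℝ, 0 < T ∧
    ∀ (n : ℕ) (ω : SimpleGraph (Fin n) × StarPos n d K), ω ∈ ZZs n d K →
    ∀ E ∈ Set.Icc a b, ∀ z : ℂ, 0 < z.im →
      (∀ x y, ‖starMat ω z x y - KE d E K x y‖ ≤ δ) → ∀ p r, ‖leadMat ω z p r‖ ≤ T := by
  obtain ⟨c, hc, C, hC1, hcC⟩ := mdE_bounds h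
  set δ : ℝ := min 1 (c / 2 / (K + 1)) with hδ
  have hδ0 : 0 < δ := lt_min one_pos (by positivity)
  refine ⟨δ, hδ0, (C + 1) + (K : ℝ) * (K * ((C + 1) * (2 / c * (C + 1)))), by positivity, ?_⟩
  intro n ω hω E hE z hz hs p r
  have h0 := H520.isUnit_cut ω.1 ∅ hz.ne'
  have hD := H520.isUnit_cut ω.1 (centres ω) hz.ne'
  obtain ⟨hcE, hCE⟩ := hcC E hE
  have hstar : ∀ x y, ‖starMat ω z x y‖ ≤ C + 1 := by
    intro x y
    have h1 : starMat ω z x y = KE d E K x y + (starMat ω z x y - KE d E K x y) := by ring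
    rw [h1]
    refine (norm_add_le _ _).trans (add_le_add (KE_le h hE hCE K x y) ?_)
    exact (hs x y).trans (min_le_left _ _)
  have hcen : ∀ i j, ‖(centreMat ω z)⁻¹ i j‖ ≤ 2 / c := by
    intro i j
    have hm : 0 < ‖mdE d E‖ := lt_of_lt_of_le hc hcE
    refine (inv_le_of_near (δ := δ) (m := mdE d E) (H490.isUnit_centreMat hω h0 hD) hm ?_ ?_
      i j).trans ?_
    · intro i j
      have h2 := hs (i, none) (j, none)
      have h3 : KE d E K (i, none) (j, none) = if i = j then mdE d E else 0 := by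
        unfold KE starDist
        simp
      rw [h3] at h2
      exact h2
    · have h4 : δ ≤ c / 2 / (K + 1) := min_le_right _ _
      have h5 : (K : ℝ) * δ ≤ (K + 1) * δ := by nlinarith
      have h6 : (K + 1 : ℝ) * δ ≤ c / 2 := by
        rw [le_div_iff₀ (by positivity)] at h4
        linarith
      linarith
    · exact div_le_div_of_nonneg_left (by norm_num) hc hcE
  rw [H490.leadMat_eq hω h0 hD]
  refine (norm_sub_le _ _).trans (add_le_add (hstar _ _) ?_)
  refine (norm_sum_le _ _).trans ?_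
  calc ∑ j, ‖∑ k, starMat ω z (p.1, some p.2) (j, none) *
        ((centreMat ω z)⁻¹ j k * starMat ω z (k, none) (r.1, some r.2))‖
      ≤ ∑ _j : Fin K, (K : ℝ) * ((C + 1) * (2 / c * (C + 1))) := by
        refine Finset.sum_le_sum fun j _ => ?_
        refine (norm_sum_le _ _).trans ?_
        calc _ ≤ ∑ _k : Fin K, ((C + 1) * (2 / c * (C + 1))) := by
              refine Finset.sum_le_sum fun k _ => ?_
              rw [norm_mul, norm_mul]
              have h7 := hstar (p.1, some p.2) (j, none)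
              have h8 := hstar (k, none) (r.1, some r.2)
              have h9 := hcen j k
              have hC0 : 0 ≤ C + 1 := by linarith
              exact mul_le_mul h7 (mul_le_mul h9 h8 (norm_nonneg _) (by positivity))
                (by positivity) hC0
          _ = _ := by rw [Finset.sum_const, Finset.card_univ, Fintype.card_fin, nsmul_eq_mul]
    _ = _ := by rw [Finset.sum_const, Finset.card_univ, Fintype.card_fin, nsmul_eq_mul]

end

end Vale.Agent.P156.H9
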