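import Vale.Agent.P156.H9.FE13c
import Vale.Agent.P156.B.Bridge

/-! # FE13: `SpecMic` from `SpecEv` -/

open MeasureTheory Filter Topology Matrix Finset

namespace Vale.Agent.P156.H9

noncomputable section

open Vale.Agent.P156.FE (Bulk Adm SpecEv SpecMic)
open Vale.Agent.P156.H801 (measurable_prob measurable_avg avg_mono avg_nonneg prob_nonneg
  prob_le_one avg_add avg_const_mul)

/-- integral of a probability over a finite measure -/
theorem integral_prob_eq {α : Type*} (s : Finset α) {μ : Measure ℝ} [IsFiniteMeasure μ]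
    {P : α → ℝ → Prop} (hm : ∀ ω ∈ s, MeasurableSet {t | P ω t}) :
    ∫ t, prob s (fun ω => P ω t) ∂μ = avg s (fun ω => (μ {t | P ω t}).toReal) := by
  classical
  unfold prob avg
  rw [integral_div]
  congr 1
  have h1 : ∀ ω ∈ s, Integrable (fun t => if P ω t then (1 : ℝ) else 0) μ := by
    intro ω hω
    have h2 : (fun t => if P ω t then (1 : ℝ) else 0) = {t | P ω t}.indicator (fun _ => 1) := by
      funext t
      rw [Set.indicator_apply]
      simp only [Set.mem_ofPred_eq]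
    rw [h2]
    exact (integrable_const _).indicator (hm ω hω)
  rw [integral_finsetSum _ h1]
  refine Finset.sum_congr rfl fun ω hω => ?_
  have h2 : (fun t => if P ω t then (1 : ℝ) else 0) = {t | P ω t}.indicator (fun _ => 1) := by
    funext t
    rw [Set.indicator_apply]
    simp only [Set.mem_ofPred_eq]
  rw [h2, integral_indicator_const _ (hm ω hω), smul_eq_mul, mul_one]
  rfl

theorem xx_shift {n : ℕ} (hn : 0 < n) (E s : ℝ) (G : SimpleGraph (Fin n)) (i : Fin n) :
    xx (E + s / n) G i = xx E G i - s := by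
  have hn' : (n : ℝ) ≠ 0 := by positivity
  unfold xx
  field_simp
  ring

theorem adm_pos_ev (d : ℕ) : ∀ᶠ n : ℕ in admissible d, 0 < n :=
  (eventually_gt_atTop 0).filter_mono inf_le_left

theorem adm_ev (d : ℕ) : ∀ᶠ n : ℕ in admissible d, d < n ∧ Even (n * d) :=
  mem_inf_of_right (mem_principal_self _)

/-- **T2 in the microscopic average** -/
theorem mic_T2 {d : ℕ} {a b : ℝ} (h : SpecEv d a b) : ∀ S > 0, ∀ ε > 0, ∃ δ > 0,
    ∀ᶠ n : ℕ in admissible d, ∀ E ∈ Set.Icc a b,
    ∫ s in (-S)..S, prob (regularGraphs n d) (fun G => ∃ i, |xx (E + s / n) G i| ≤ δ) ≤ ε := by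
  classical
  intro S hS ε hε
  obtain ⟨C, hC⟩ := h.2.1 (S + 1)
  set C' : ℝ := |C| + 1 with hC'
  have hC'0 : 0 < C' := by positivity
  refine ⟨min 1 (ε / (2 * C')), lt_min one_pos (by positivity), ?_⟩
  set δ : ℝ := min 1 (ε / (2 * C')) with hδ
  have hδ0 : 0 < δ := lt_min one_pos (by positivity)
  have hδ1 : δ ≤ 1 := min_le_left _ _
  have hδ2 : δ ≤ ε / (2 * C') := min_le_right _ _
  filter_upwards [hC, adm_pos_ev d] with n hn hn0 E hE
  set μ : Measure ℝ := volume.restrict (Set.Ioc (-S) S) with hμ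
  have hfin : IsFiniteMeasure μ := by rw [hμ]; infer_instance
  rw [intervalIntegral.integral_of_le (by linarith), integral_prob_eq _ (fun G _ => by
    have h1 : Continuous (fun s : ℝ => E + s / (n : ℝ)) := by fun_prop
    exact (H801.measurableSet_T2 G δ).preimage h1.measurable)]
  have hkey : ∀ G : SimpleGraph (Fin n),
      (μ {t | ∃ i, |xx (E + t / n) G i| ≤ δ}).toReal ≤
        2 * δ * ∑ i, (if |xx E G i| ≤ S + 1 then (1 : ℝ) else 0) := by
    intro G
    have h2 : {t : ℝ | ∃ i, |xx (E + t / n) G i| ≤ δ} ∩ Set.Ioc (-S) S ⊆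
        ⋃ i ∈ Finset.univ.filter (fun i => |xx E G i| ≤ S + 1),
          Set.Icc (xx E G i - δ) (xx E G i + δ) := by
      rintro t ⟨⟨i, hi⟩, ht⟩
      rw [xx_shift hn0, abs_le] at hi
      refine Set.mem_biUnion (x := i) ?_ ⟨by linarith [hi.2], by linarith [hi.1]⟩
      simp only [Finset.coe_filter, Finset.mem_univ, true_and, Set.mem_ofPred_eq]
      rw [abs_le]
      constructor
      · linarith [hi.1, ht.1]
      · linarith [hi.2, ht.2]
    have h3 : μ {t : ℝ | ∃ i, |xx (E + t / n) G i| ≤ δ} ≤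
        ENNReal.ofReal (2 * δ * ∑ i, (if |xx E G i| ≤ S + 1 then (1 : ℝ) else 0)) := by
      rw [hμ, Measure.restrict_apply' measurableSet_Ioc]
      refine (measure_mono h2).trans ((measure_biUnion_finset_le _ _).trans ?_)
      have h4 : ∀ i, volume (Set.Icc (xx E G i - δ) (xx E G i + δ)) = ENNReal.ofReal (2 * δ) := by
        intro i
        rw [Real.volume_Icc]
        congr 1
        ring
      simp only [h4]
      rw [Finset.sum_const, nsmul_eq_mul, ← ENNReal.ofReal_natCast,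
        ← ENNReal.ofReal_mul (by positivity)]
      refine ENNReal.ofReal_le_ofReal (le_of_eq ?_)
      rw [Finset.sum_ite, Finset.sum_const_zero, add_zero, Finset.sum_const, nsmul_eq_mul]
      ring
    refine (ENNReal.toReal_mono ENNReal.ofReal_ne_top h3).trans (le_of_eq ?_)
    rw [ENNReal.toReal_ofReal]
    have : 0 ≤ ∑ i, (if |xx E G i| ≤ S + 1 then (1 : ℝ) else 0) :=
      Finset.sum_nonneg fun i _ => by positivity
    positivity
  calc avg (regularGraphs n d) (fun G => (μ {t | ∃ i, |xx (E + t / n) G i| ≤ δ}).toReal)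
      ≤ avg (regularGraphs n d) (fun G => 2 * δ *
          ∑ i, (if |xx E G i| ≤ S + 1 then (1 : ℝ) else 0)) := avg_mono fun G _ => hkey G
    _ = 2 * δ * avg (regularGraphs n d) (fun G =>
          ∑ i, (if |xx E G i| ≤ S + 1 then (1 : ℝ) else 0)) := avg_const_mul _ _ _
    _ ≤ 2 * δ * C' := by
        refine mul_le_mul_of_nonneg_left ?_ (by positivity)
        exact (hn E hE).trans ((le_abs_self C).trans (by linarith))
    _ ≤ ε := by
        rw [le_div_iff₀ (by positivity)] at hδ2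
        linarith

/-- tightness of the lead matrix at `E + iL/n` -/
theorem lead_tight {d : ℕ} {a b : ℝ} (hbk : Bulk d a b) (h : SpecEv d a b) (K : ℕ) :
    ∃ T : ℝ, 0 < T ∧ ∀ ε > 0, ∃ L₀ : ℝ, ∀ L ≥ L₀, 0 < L → ∀ᶠ n : ℕ in admissible d,
    ∀ E ∈ Set.Icc a b, prob (WW n d K) (fun ω => ¬ (ω ∈ ZZs n d K ∧
      ∀ p r, ‖leadMat ω ((E : ℂ) + ((L / n : ℝ) : ℂ) * Complex.I) p r‖ ≤ T)) ≤ ε := by
  obtain ⟨δ, hδ, T, hT, hlead⟩ := leadMat_le hbk K
  refine ⟨T, hT, fun ε hε => ?_⟩
  obtain ⟨L₀, hL₀⟩ := h.2.2.1 K (min δ (ε / 2)) (lt_min hδ (by positivity))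
  obtain ⟨C, hC⟩ := B.specZW d K
  refine ⟨L₀, fun L hL hLpos => ?_⟩
  have hlarge : ∀ᶠ n : ℕ in admissible d, C / (n : ℝ) ≤ ε / 2 := by
    have h1 : Tendsto (fun n : ℕ => C / (n : ℝ)) (admissible d) (𝓝 0) :=
      (tendsto_const_div_atTop_nhds_zero_nat C).mono_left inf_le_left
    exact h1.eventually (eventually_le_nhds (by positivity))
  filter_upwards [hL₀ L hL, hlarge, adm_pos_ev d, adm_ev d] with n hn1 hn2 hn0 hadm E hE
  have hn0' : (0 : ℝ) < n := by exact_mod_cast hn0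
  have h2 := hn1 E hE
  have h3 := (hC n hadm.1 hadm.2).trans hn2
  have hz : 0 < ((E : ℂ) + ((L / n : ℝ) : ℂ) * Complex.I).im := by
    have : ((E : ℂ) + ((L / n : ℝ) : ℂ) * Complex.I).im = L / n := by simp
    rw [this]
    positivity
  calc prob (WW n d K) (fun ω => ¬ (ω ∈ ZZs n d K ∧
        ∀ p r, ‖leadMat ω ((E : ℂ) + ((L / n : ℝ) : ℂ) * Complex.I) p r‖ ≤ T))
      ≤ prob (WW n d K) (fun ω => ω ∉ ZZs n d K ∨ ∃ x y, min δ (ε / 2) <
          ‖starMat ω ((E : ℂ) + ((L / n : ℝ) : ℂ) * Complex.I) x y - KE d E K x y‖) := by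
        refine H490.prob_mono fun ω _ hω => ?_
        by_cases hZ : ω ∈ ZZs n d K
        · right
          by_contra hcon
          push Not at hcon
          exact hω ⟨hZ, hlead n ω hZ E hE _ hz fun x y => (hcon x y).trans (min_le_left _ _)⟩
        · exact Or.inl hZ
    _ ≤ prob (WW n d K) (fun ω => ω ∉ ZZs n d K) + prob (WW n d K) (fun ω => ∃ x y,
          min δ (ε / 2) <
          ‖starMat ω ((E : ℂ) + ((L / n : ℝ) : ℂ) * Complex.I) x y - KE d E K x y‖) :=
        H490.prob_or_le _ _ _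
    _ ≤ ε / 2 + ε / 2 := add_le_add h3 (h2.trans (min_le_right _ _))
    _ = ε := by ring

/-- **T3 in the microscopic average** -/
theorem mic_T3 {d : ℕ} {a b : ℝ} (hbk : Bulk d a b) (h : SpecEv d a b) :
    ∀ S > 0, ∀ K : ℕ, ∀ ε > 0, ∃ B : ℝ, ∀ᶠ n : ℕ in admissible d, ∀ E ∈ Set.Icc a b,
    ∫ s in (-S)..S, prob (WW n d K)
      (fun ω => ∃ p r, B < ‖leadMat ω ((E + s / n : ℝ) : ℂ) p r‖) ≤ ε := by
  classical
  intro S hS K ε hε
  obtain ⟨T, hT, htight⟩ := lead_tight hbk h K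
  obtain ⟨L₀, hL₀⟩ := htight (ε / (4 * S)) (by positivity)
  set L : ℝ := max L₀ S with hLdef
  have hLS : S ≤ L := le_max_right _ _
  have hL : 0 < L := lt_of_lt_of_le hS hLS
  set Q : ℝ := ((K : ℝ) * d) * (K * d) * (1600 * L * T) with hQ
  have hQ0 : 0 ≤ Q := by positivity
  set B : ℝ := max (22 * T) (Q / (ε / 2)) with hB
  have hB0 : 0 < B := lt_of_lt_of_le (by positivity) (le_max_left _ _)
  have hQB : Q / B ≤ ε / 2 := by
    have h1 : Q / (ε / 2) ≤ B := le_max_right _ _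
    rw [div_le_iff₀ (by positivity)] at h1
    rw [div_le_iff₀ hB0]
    linarith
  refine ⟨B, ?_⟩
  filter_upwards [hL₀ L (le_max_left _ _) hL, adm_pos_ev d] with n hn hn0 E hE
  set μ : Measure ℝ := volume.restrict (Set.Ioc (-S) S) with hμ
  have hfin : IsFiniteMeasure μ := by rw [hμ]; infer_instance
  rw [intervalIntegral.integral_of_le (by linarith), integral_prob_eq _ (fun ω _ => by
    have h1 : Continuous (fun s : ℝ => E + s / (n : ℝ)) := by fun_prop
    exact (H801.measurableSet_T3 ω B).preimage h1.measurable)]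
  have hvol : (μ Set.univ).toReal = 2 * S := by
    rw [hμ, Measure.restrict_apply_univ, Real.volume_Ioc, ENNReal.toReal_ofReal (by linarith)]
    ring
  have hkey : ∀ ω : SimpleGraph (Fin n) × StarPos n d K,
      (μ {t | ∃ p r, B < ‖leadMat ω ((E + t / n : ℝ) : ℂ) p r‖}).toReal ≤
        ε / 2 + 2 * S * (if ¬ (ω ∈ ZZs n d K ∧
          ∀ p r, ‖leadMat ω ((E : ℂ) + ((L / n : ℝ) : ℂ) * Complex.I) p r‖ ≤ T)
          then (1 : ℝ) else 0) := by
    intro ω
    by_cases hω : ω ∈ ZZs n d K ∧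
          ∀ p r, ‖leadMat ω ((E : ℂ) + ((L / n : ℝ) : ℂ) * Complex.I) p r‖ ≤ T
    · rw [if_neg (not_not.2 hω), mul_zero, add_zero]
      have h2 := vol_lead_mic (B := B) hω.1 hn0 E hL hω.2 hB0 (le_max_left _ _)
      have h3 : μ {t | ∃ p r, B < ‖leadMat ω ((E + t / n : ℝ) : ℂ) p r‖} ≤
          ENNReal.ofReal (ε / 2) := by
        rw [hμ, Measure.restrict_apply' measurableSet_Ioc]
        refine (measure_mono ?_).trans (h2.trans (ENNReal.ofReal_le_ofReal ?_))
        · rintro t ⟨ht, ht'⟩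
          exact ⟨(abs_le.2 ⟨by linarith [ht'.1], by linarith [ht'.2]⟩), ht⟩
        · refine le_trans (le_of_eq ?_) hQB
          rw [hQ]
          ring
      refine (ENNReal.toReal_mono ENNReal.ofReal_ne_top h3).trans (le_of_eq ?_)
      rw [ENNReal.toReal_ofReal (by positivity)]
    · rw [if_pos hω, mul_one]
      have h4 : (μ {t | ∃ p r, B < ‖leadMat ω ((E + t / n : ℝ) : ℂ) p r‖}).toReal ≤
          (μ Set.univ).toReal :=
        ENNReal.toReal_mono (measure_ne_top _ _) (measure_mono (Set.subset_univ _))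
      rw [hvol] at h4
      linarith
  calc avg (WW n d K) (fun ω => (μ {t | ∃ p r,
        B < ‖leadMat ω ((E + t / n : ℝ) : ℂ) p r‖}).toReal)
      ≤ avg (WW n d K) (fun ω => ε / 2 + 2 * S * (if ¬ (ω ∈ ZZs n d K ∧
          ∀ p r, ‖leadMat ω ((E : ℂ) + ((L / n : ℝ) : ℂ) * Complex.I) p r‖ ≤ T)
          then (1 : ℝ) else 0)) := avg_mono fun ω _ => hkey ω
    _ = avg (WW n d K) (fun _ => ε / 2) + 2 * S * prob (WW n d K) (fun ω => ¬ (ω ∈ ZZs n d K ∧
          ∀ p r, ‖leadMat ω ((E : ℂ) + ((L / n : ℝ) : ℂ) * Complex.I) p r‖ ≤ T)) := by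
        rw [avg_add, avg_const_mul]
        unfold prob
        congr 2
        refine H490.avg_congr fun ω _ => ?_
        by_cases hω : ¬ (ω ∈ ZZs n d K ∧
          ∀ p r, ‖leadMat ω ((E : ℂ) + ((L / n : ℝ) : ℂ) * Complex.I) p r‖ ≤ T)
        · rw [if_pos hω]
          exact (if_pos hω).symm
        · rw [if_neg hω]
          exact (if_neg hω).symm
    _ ≤ ε / 2 + 2 * S * (ε / (4 * S)) := by
        refine add_le_add (H490.avg_const_le _ (by positivity)) ?_
        exact mul_le_mul_of_nonneg_left (hn E hE) (by positivity)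
    _ = ε := by field_simp; ring

theorem specMic_of_ev {d : ℕ} {a b : ℝ} (hbk : Bulk d a b) (h : SpecEv d a b) : SpecMic d a b :=
  ⟨mic_T2 h, mic_T3 hbk h⟩

end

end Vale.Agent.P156.H9
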