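import Vale.Agent.P156.H9.FE13d
import Vale.Agent.P156.G.GlueAux

/-! # FE13: comparison of the Laplace functionals at `E` and `E + s/n` -/

open MeasureTheory Filter Topology Matrix Finset

namespace Vale.Agent.P156.H9

noncomputable section

open Vale.Agent.P156.FE (Bulk Adm SpecEv SpecMic)
open Vale.Agent.P156.H801 (avg_mono avg_const_mul avg_sub)

theorem abs_exp_neg_sub_le {u v : ℝ} (hu : 0 ≤ u) (hv : 0 ≤ v) :
    |Real.exp (-u) - Real.exp (-v)| ≤ |u - v| := by
  wlog h : u ≤ v generalizing u v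
  · rw [abs_sub_comm, abs_sub_comm u v]
    exact this hv hu (le_of_not_ge h)
  have h1 : Real.exp (-v) ≤ Real.exp (-u) := Real.exp_le_exp.2 (by linarith)
  rw [abs_of_nonneg (by linarith), abs_of_nonpos (by linarith)]
  have h2 : Real.exp (-v) = Real.exp (-u) * Real.exp (-(v - u)) := by
    rw [← Real.exp_add]; congr 1; ring
  have h3 : 1 - (v - u) ≤ Real.exp (-(v - u)) := by
    have := Real.add_one_le_exp (-(v - u))
    linarith
  have h4 : Real.exp (-u) ≤ 1 := by
    rw [Real.exp_le_one_iff]; linarith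
  have h5 : 0 < Real.exp (-u) := Real.exp_pos _
  rw [h2]
  nlinarith

theorem continuousAt_rho {d : ℕ} (hd : 3 ≤ d) {E : ℝ}
    (hE : |E| < 2 * Real.sqrt ((d : ℝ) - 1)) : ContinuousAt (rho d) E := by
  have hd' : (3 : ℝ) ≤ d := by exact_mod_cast hd
  have hE2 : E ^ 2 < 4 * ((d : ℝ) - 1) := by
    have h1 : |E| ^ 2 < (2 * Real.sqrt ((d : ℝ) - 1)) ^ 2 :=
      pow_lt_pow_left₀ hE (abs_nonneg _) (by norm_num)
    rw [sq_abs, mul_pow, Real.sq_sqrt (by linarith)] at h1
    linarith
  have hdE : 0 < (d : ℝ) ^ 2 - E ^ 2 := by nlinarith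
  unfold rho
  refine ContinuousAt.div (by fun_prop) (by fun_prop) ?_
  have := Real.pi_pos
  positivity

/-- value of a linear statistic -/
theorem integral_Xi_eq {n d : ℕ} (E : ℝ) (Γ : SimpleGraph (Fin n)) {f : ℝ → ℝ}
    (hf : Continuous f) (hcs : HasCompactSupport f) :
    ∫ x, f x ∂(Xi n d E Γ) = ∑ i, f (rho d E * xx E Γ i) := by
  unfold Xi
  rw [G.integral_sum_dirac Finset.univ _ hf hcs]
  refine Finset.sum_congr rfl fun i _ => ?_
  unfold xx
  congr 1
  ring

/-- the Laplace functional of the graph -/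
def lapl (n d : ℕ) (f : ℝ → ℝ) (E : ℝ) : ℝ :=
  avg (regularGraphs n d) (fun Γ => Real.exp (-∫ x, f x ∂(Xi n d E Γ)))

/-- **comparison at the microscopic scale** -/
theorem lapl_compare {d : ℕ} (hd : 3 ≤ d) {E : ℝ} (hE : |E| < 2 * Real.sqrt ((d : ℝ) - 1))
    (hT : ∀ B : ℝ, ∃ C : ℝ, ∀ᶠ n : ℕ in admissible d,
      avg (regularGraphs n d) (fun Γ => ∑ i, if |xx E Γ i| ≤ B then 1 else 0) ≤ C)
    {f : ℝ → ℝ} (hf : Continuous f) (hcs : HasCompactSupport f) (hf0 : ∀ x, 0 ≤ f x)
    {ε : ℝ} (hε : 0 < ε) :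
    ∃ S > 0, ∀ᶠ n : ℕ in admissible d, ∀ s : ℝ, |s| ≤ S →
      |lapl n d f (E + s / n) - lapl n d f E| ≤ ε := by
  obtain ⟨R, hR, hRf⟩ := hcs.exists_pos_le_norm
  set c : ℝ := rho d E with hc
  have hc0 : 0 < c := G.rho_pos' hd hE
  set B : ℝ := 2 * R / c + 1 with hB
  have hB0 : 0 < B := by positivity
  obtain ⟨C, hC⟩ := hT B
  set C' : ℝ := |C| + 1 with hC'
  have hC'0 : 0 < C' := by positivity
  have huc : UniformContinuous f := hf.uniformContinuous_of_tendsto_cocompact (x := 0)
    hcs.is_zero_at_infty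
  obtain ⟨δ, hδ, hδf⟩ := Metric.uniformContinuous_iff.1 huc (ε / C') (by positivity)
  set κ : ℝ := min (δ / (4 * B)) (c / 2) with hκ
  have hκ0 : 0 < κ := lt_min (by positivity) (by positivity)
  set S : ℝ := min 1 (δ / (8 * c)) with hS
  have hS0 : 0 < S := lt_min one_pos (by positivity)
  refine ⟨S, hS0, ?_⟩
  obtain ⟨r, hr, hrr⟩ := Metric.continuousAt_iff.1 (continuousAt_rho hd hE) κ hκ0
  have hlarge : ∀ᶠ n : ℕ in admissible d, S / (n : ℝ) < r := by
    have h1 : Tendsto (fun n : ℕ => S / (n : ℝ)) (admissible d) (𝓝 0) :=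
      (tendsto_const_div_atTop_nhds_zero_nat S).mono_left inf_le_left
    exact h1.eventually (eventually_lt_nhds hr)
  filter_upwards [hC, hlarge, adm_pos_ev d] with n hn1 hn2 hn0 s hs
  have hn0' : (0 : ℝ) < n := by exact_mod_cast hn0
  set E' : ℝ := E + s / n with hE'
  have hdist : dist E' E < r := by
    rw [Real.dist_eq, hE', add_sub_cancel_left, abs_div, abs_of_pos hn0']
    exact lt_of_le_of_lt (div_le_div_of_nonneg_right hs hn0'.le) hn2
  have hrho : |rho d E' - c| < κ := hrr hdist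
  have hrho1 : |rho d E' - c| ≤ δ / (4 * B) := hrho.le.trans (min_le_left _ _)
  have hrho2 : |rho d E' - c| ≤ c / 2 := hrho.le.trans (min_le_right _ _)
  have hrlow : c / 2 ≤ rho d E' := by
    have := (abs_le.1 hrho2).1
    linarith
  have hrup : rho d E' ≤ 2 * c := by
    have := (abs_le.1 hrho2).2
    linarith
  have hs1 : |s| ≤ 1 := hs.trans (min_le_left _ _)
  have hs2 : |s| ≤ δ / (8 * c) := hs.trans (min_le_right _ _)
  -- one eigenvalue
  have hone : ∀ x : ℝ, |f (rho d E' * (x - s)) - f (c * x)| ≤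
      ε / C' * (if |x| ≤ B then 1 else 0) := by
    intro x
    split_ifs with hx
    · rw [mul_one]
      have h1 : dist (rho d E' * (x - s)) (c * x) < δ := by
        rw [Real.dist_eq]
        have h2 : rho d E' * (x - s) - c * x = (rho d E' - c) * x - rho d E' * s := by ring
        rw [h2]
        have h3 : |(rho d E' - c) * x| ≤ δ / (4 * B) * B := by
          rw [abs_mul]
          exact mul_le_mul hrho1 hx (abs_nonneg _) (by positivity)
        have h4 : |rho d E' * s| ≤ 2 * c * (δ / (8 * c)) := by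
          rw [abs_mul, abs_of_nonneg (by linarith : 0 ≤ rho d E')]
          exact mul_le_mul hrup hs2 (abs_nonneg _) (by positivity)
        have h5 : δ / (4 * B) * B = δ / 4 := by field_simp
        have h6 : 2 * c * (δ / (8 * c)) = δ / 4 := by field_simp; ring
        calc |(rho d E' - c) * x - rho d E' * s| ≤ |(rho d E' - c) * x| + |rho d E' * s| :=
              abs_sub _ _
          _ ≤ δ / 4 + δ / 4 := add_le_add (h3.trans h5.le) (h4.trans h6.le)
          _ < δ := by linarith
      have h7 := hδf h1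
      rw [Real.dist_eq] at h7
      exact h7.le
    · rw [mul_zero]
      have hx' : B < |x| := not_le.1 hx
      have h1 : f (c * x) = 0 := by
        apply hRf
        rw [Real.norm_eq_abs, abs_mul, abs_of_pos hc0]
        have h2 : c * B ≤ c * |x| := mul_le_mul_of_nonneg_left hx'.le hc0.le
        have h3 : c * B = 2 * R + c := by rw [hB]; field_simp
        linarith
      have h2 : f (rho d E' * (x - s)) = 0 := by
        apply hRf
        rw [Real.norm_eq_abs, abs_mul, abs_of_nonneg (by linarith : 0 ≤ rho d E')]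
        have h3 : 2 * R / c ≤ |x - s| := by
          have := abs_sub_abs_le_abs_sub x s
          linarith
        calc R = c / 2 * (2 * R / c) := by field_simp
          _ ≤ rho d E' * |x - s| := mul_le_mul hrlow h3 (by positivity) (by linarith)
      rw [h1, h2, sub_zero, abs_zero]
  have hG : ∀ Γ : SimpleGraph (Fin n),
      |Real.exp (-∫ x, f x ∂(Xi n d E' Γ)) - Real.exp (-∫ x, f x ∂(Xi n d E Γ))| ≤
        ε / C' * ∑ i, (if |xx E Γ i| ≤ B then 1 else 0) := by
    intro Γ
    refine (abs_exp_neg_sub_le (integral_nonneg hf0) (integral_nonneg hf0)).trans ?_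
    rw [integral_Xi_eq E' Γ hf hcs, integral_Xi_eq E Γ hf hcs, ← Finset.sum_sub_distrib,
      Finset.mul_sum]
    refine (Finset.abs_sum_le_sum_abs _ _).trans (Finset.sum_le_sum fun i _ => ?_)
    rw [hE', xx_shift hn0]
    exact hone (xx E Γ i)
  unfold lapl
  rw [← avg_sub]
  refine (H490.abs_avg_le _ _).trans ((avg_mono fun Γ _ => hG Γ).trans ?_)
  rw [avg_const_mul]
  calc ε / C' * avg (regularGraphs n d) (fun Γ => ∑ i, (if |xx E Γ i| ≤ B then (1 : ℝ) else 0))
      ≤ ε / C' * C' := by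
        refine mul_le_mul_of_nonneg_left ?_ (by positivity)
        exact hn1.trans ((le_abs_self C).trans (by linarith))
    _ = ε := by field_simp

end

end Vale.Agent.P156.H9
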