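import Vale.Agent.P156.H9.FE13e
import Vale.Agent.P156.H942.Select

/-! # FE13: selection of good sequences `E + s_n / n` and the fixed energy theorem -/

open MeasureTheory Filter Topology Matrix Finset

namespace Vale.Agent.P156.H9

noncomputable section

open Vale.Agent.P156.FE (Bulk Adm SpecEv SpecMic SpecFixed)
open Vale.Agent.P156.H942 (Sel mu mu_le mu_compl exists_inv_le inv_pos' admissible_le_atTop
  abs_sub_le_one)

/-- Markov inequality in `s` -/
theorem markov_mic {F : ℝ → ℝ} {S ε δ : ℝ} (hS : 0 < S) (hm : Measurable F) (h0 : ∀ s, 0 ≤ F s)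
    (h1 : ∀ s, F s ≤ 1) (hε : 0 < ε) (h : ∫ s in (-S)..S, F s ≤ ε * δ) :
    mu (-S) S {s | ε < F s} ≤ ENNReal.ofReal δ := by
  have hfin : IsFiniteMeasure (mu (-S) S) := by unfold mu; infer_instance
  rw [intervalIntegral.integral_of_le (by linarith)] at h
  have hint : Integrable F (mu (-S) S) := by
    refine Integrable.mono' (integrable_const (1 : ℝ)) hm.aestronglyMeasurable ?_
    refine Eventually.of_forall fun s => ?_
    rw [Real.norm_eq_abs, abs_of_nonneg (h0 s)]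
    exact h1 s
  have h2 := mul_meas_ge_le_integral_of_nonneg (μ := mu (-S) S) (Eventually.of_forall h0) hint ε
  have h3 : ε * (mu (-S) S).real {s | ε ≤ F s} ≤ ε * δ := h2.trans h
  have h4 : (mu (-S) S).real {s | ε ≤ F s} ≤ δ := le_of_mul_le_mul_left h3 hε
  have h5 : mu (-S) S {s | ε ≤ F s} ≤ ENNReal.ofReal δ := by
    rw [← ENNReal.ofReal_toReal (measure_ne_top (mu (-S) S) {s | ε ≤ F s})]
    exact ENNReal.ofReal_le_ofReal h4
  refine le_trans (measure_mono ?_) h5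
  intro s hs
  have hs' : ε < F s := hs
  exact hs'.le

/-- null sets of energies are null sets of microscopic shifts -/
theorem null_shift {N : Set ℝ} (hN : volume N = 0) (E : ℝ) {n : ℕ} (hn : 0 < n) :
    volume {s : ℝ | E + s / n ∈ N} = 0 := by
  have hn' : ((n : ℝ))⁻¹ ≠ 0 := by positivity
  have h1 : {s : ℝ | E + s / n ∈ N} = (fun s : ℝ => s * (n : ℝ)⁻¹) ⁻¹' ((fun x => E + x) ⁻¹' N) := by
    ext s
    simp only [Set.mem_ofPred_eq, Set.mem_preimage, div_eq_mul_inv]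
  rw [h1, Real.volume_preimage_mul_right hn', measure_preimage_add, hN, mul_zero]

section sel

variable {d : ℕ} {a b : ℝ} {E S : ℝ}

theorem sel_bd (S : ℝ) : Sel (mu (-S) S) (admissible d) (fun 𝒰 s => ∀ᶠ n in (𝒰 : Filter ℕ),
    |s n| ≤ S) := by
  refine (Sel.of_null (p := fun _ s => s ∈ Set.Icc (-S) S)
    (Eventually.of_forall fun n => mu_compl (-S) S)).mono fun 𝒰 s h => ?_
  filter_upwards [h] with n hn
  exact abs_le.2 hn

theorem sel_T2 (hS : 0 < S) (hE : E ∈ Set.Icc a b) (h : SpecMic d a b) :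
    Sel (mu (-S) S) (admissible d) (fun 𝒰 s => ∀ ε > 0, ∃ δ > 0, ∀ᶠ n in (𝒰 : Filter ℕ),
      prob (regularGraphs n d) (fun Γ => ∃ i, |xx (E + s n / n) Γ i| ≤ δ) ≤ ε) := by
  have h1 : ∀ k : ℕ, Sel (mu (-S) S) (admissible d) (fun 𝒰 s => ∃ δ > 0,
      ∀ᶠ n in (𝒰 : Filter ℕ), prob (regularGraphs n d)
        (fun Γ => ∃ i, |xx (E + s n / n) Γ i| ≤ δ) ≤ 1 / ((k : ℝ) + 1)) := by
    intro k
    refine Sel.of_bad fun δ hδ => ?_
    obtain ⟨δ', hδ', hB⟩ := h.1 S hS (1 / ((k : ℝ) + 1) * δ) (mul_pos (inv_pos' k) hδ)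
    refine ⟨fun n => {s | 1 / ((k : ℝ) + 1) < prob (regularGraphs n d)
      (fun Γ => ∃ i, |xx (E + s / n) Γ i| ≤ δ')}, ?_, fun 𝒰 s hs => ⟨δ', hδ', ?_⟩⟩
    · filter_upwards [hB] with n hn
      refine markov_mic hS ?_ (fun s => H801.prob_nonneg _ _) (fun s => H801.prob_le_one _ _)
        (inv_pos' k) (hn E hE)
      have h2 : Continuous (fun s : ℝ => E + s / (n : ℝ)) := by fun_prop
      exact (H801.measurable_T2 n d δ').comp h2.measurable
    · filter_upwards [hs] with n hn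
      exact not_lt.1 hn
  refine (Sel.all (admissible_le_atTop d) h1).mono fun 𝒰 s h ε hε => ?_
  obtain ⟨k, hk⟩ := exists_inv_le hε
  obtain ⟨δ', hδ', hB⟩ := h k
  refine ⟨δ', hδ', ?_⟩
  filter_upwards [hB] with n hn
  exact hn.trans hk

theorem sel_T3 (hS : 0 < S) (hE : E ∈ Set.Icc a b) (h : SpecMic d a b) :
    Sel (mu (-S) S) (admissible d) (fun 𝒰 s => ∀ K : ℕ, ∀ ε > 0, ∃ B : ℝ,
      ∀ᶠ n in (𝒰 : Filter ℕ), prob (WW n d K)
        (fun ω => ∃ x y, B < ‖leadMat ω ((E + s n / n : ℝ) : ℂ) x y‖) ≤ ε) := by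
  have h1 : ∀ p : ℕ × ℕ, Sel (mu (-S) S) (admissible d) (fun 𝒰 s => ∃ B : ℝ,
      ∀ᶠ n in (𝒰 : Filter ℕ), prob (WW n d p.1)
        (fun ω => ∃ x y, B < ‖leadMat ω ((E + s n / n : ℝ) : ℂ) x y‖) ≤
          1 / ((p.2 : ℝ) + 1)) := by
    rintro ⟨K, k⟩
    refine Sel.of_bad fun δ hδ => ?_
    obtain ⟨B, hB⟩ := h.2 S hS K (1 / ((k : ℝ) + 1) * δ) (mul_pos (inv_pos' k) hδ)
    refine ⟨fun n => {s | 1 / ((k : ℝ) + 1) < prob (WW n d K)
      (fun ω => ∃ x y, B < ‖leadMat ω ((E + s / n : ℝ) : ℂ) x y‖)}, ?_, fun 𝒰 s hs => ⟨B, ?_⟩⟩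
    · filter_upwards [hB] with n hn
      refine markov_mic hS ?_ (fun s => H801.prob_nonneg _ _) (fun s => H801.prob_le_one _ _)
        (inv_pos' k) (hn E hE)
      have h2 : Continuous (fun s : ℝ => E + s / (n : ℝ)) := by fun_prop
      exact (H801.measurable_T3 n d K B).comp h2.measurable
    · filter_upwards [hs] with n hn
      exact not_lt.1 hn
  refine (Sel.all (admissible_le_atTop d) h1).mono fun 𝒰 s h K ε hε => ?_
  obtain ⟨k, hk⟩ := exists_inv_le hε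
  obtain ⟨B, hB⟩ := h (K, k)
  refine ⟨B, ?_⟩
  filter_upwards [hB] with n hn
  exact hn.trans hk

theorem sel_nonsing (E S : ℝ) : Sel (mu (-S) S) (admissible d) (fun 𝒰 s =>
    ∀ᶠ n in (𝒰 : Filter ℕ), ∀ Γ ∈ regularGraphs n d, ∀ D : Finset (Fin n),
      IsUnit (cutMat (adj Γ) D ((E + s n / n : ℝ) : ℂ)).det) := by
  refine Sel.of_null (p := fun n (s : ℝ) => ∀ Γ ∈ regularGraphs n d, ∀ D : Finset (Fin n),
    IsUnit (cutMat (adj Γ) D ((E + s / n : ℝ) : ℂ)).det) ?_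
  filter_upwards [adm_pos_ev d] with n hn
  exact le_antisymm ((mu_le (-S) S _).trans (null_shift (H801.nonsing_null n d) E hn).le) zero_le

theorem sel_trans (E S : ℝ) : Sel (mu (-S) S) (admissible d) (fun 𝒰 s =>
    ∀ᶠ n in (𝒰 : Filter ℕ), Transcendental ℤ (E + s n / n)) := by
  refine Sel.of_null (p := fun n (s : ℝ) => Transcendental ℤ (E + s / n)) ?_
  filter_upwards [adm_pos_ev d] with n hn
  have h1 : volume {x : ℝ | ¬ Transcendental ℤ x} = 0 := by
    have h2 : {x : ℝ | ¬ Transcendental ℤ x} = {x : ℝ | IsAlgebraic ℤ x} := by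
      ext x
      simp [Transcendental]
    rw [h2]
    exact (Algebraic.countable ℤ ℝ).measure_zero volume
  exact le_antisymm ((mu_le (-S) S _).trans (null_shift h1 E hn).le) zero_le

theorem tendsto_shift {𝒰 : Ultrafilter ℕ} {s : ℕ → ℝ} (E S : ℝ) (h𝒰 : (𝒰 : Filter ℕ) ≤ admissible d)
    (hs : ∀ᶠ n in (𝒰 : Filter ℕ), |s n| ≤ S) : Tendsto (fun n => E + s n / n) 𝒰 (𝓝 E) := by
  have h1 : Tendsto (fun n : ℕ => S / (n : ℝ)) 𝒰 (𝓝 0) :=
    (tendsto_const_div_atTop_nhds_zero_nat S).mono_left (h𝒰.trans inf_le_left)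
  have h2 : Tendsto (fun n : ℕ => s n / (n : ℝ)) 𝒰 (𝓝 0) := by
    refine squeeze_zero_norm' ?_ h1
    filter_upwards [hs, h𝒰 (adm_pos_ev d)] with n hn hn0
    have hn0' : (0 : ℝ) < n := by exact_mod_cast hn0
    rw [Real.norm_eq_abs, abs_div, abs_of_pos hn0']
    exact div_le_div_of_nonneg_right hn hn0'.le
  have h3 := h2.const_add E
  rwa [add_zero] at h3

/-- **Selection at the microscopic scale.** -/
theorem sel_good_mic (hbk : Bulk d a b) (hEab : E ∈ Set.Ioo a b) (hS : 0 < S)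
    (hEv : SpecEv d a b) (hMic : SpecMic d a b) :
    Sel (mu (-S) S) (admissible d) (fun 𝒰 s => (𝒰 : Filter ℕ) ≤ admissible d →
      (∀ᶠ n in (𝒰 : Filter ℕ), |s n| ≤ S) ∧ GoodSeq d 𝒰 (fun n => E + s n / n) E) := by
  have hl := admissible_le_atTop d
  have hE : E ∈ Set.Icc a b := Set.Ioo_subset_Icc_self hEab
  refine ((sel_bd S).and hl ((sel_T2 hS hE hMic).and hl ((sel_T3 hS hE hMic).and hl
    ((sel_nonsing E S).and hl (sel_trans E S))))).mono ?_
  rintro 𝒰 s ⟨bd, t2, t3, ns, tr⟩ h𝒰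
  have hlim := tendsto_shift E S h𝒰 bd
  have hmem : ∀ᶠ n in (𝒰 : Filter ℕ), E + s n / n ∈ Set.Icc a b :=
    hlim.eventually (Icc_mem_nhds hEab.1 hEab.2)
  refine ⟨bd, ?_⟩
  exact
    { three := hbk.1
      atTop := h𝒰.trans hl
      even := by
        have : (𝒰 : Filter ℕ) ≤ 𝓟 {n : ℕ | d < n ∧ Even (n * d)} := h𝒰.trans inf_le_right
        exact le_principal_iff.1 this
      bulk := bulk_abs hbk hE
      lim := hlim
      nonsing := ns
      trans := tr
      T1 := by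
        intro ε hε
        obtain ⟨B, hB⟩ := hEv.1 ε hε
        refine ⟨B, ?_⟩
        filter_upwards [h𝒰 hB, hmem] with n hn hm
        exact hn _ hm
      T1' := by
        intro B
        obtain ⟨C, hC⟩ := hEv.2.1 B
        refine ⟨C, ?_⟩
        filter_upwards [h𝒰 hC, hmem] with n hn hm
        exact hn _ hm
      T2 := t2
      T3 := t3
      T4 := by
        intro K ε hε
        obtain ⟨L₀, hL₀⟩ := hEv.2.2.1 K ε hε
        refine ⟨L₀, fun L hL => ⟨L, le_rfl, ?_⟩⟩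
        filter_upwards [h𝒰 (hL₀ L hL), hmem] with n hn hm
        exact hn _ hm
      T5 := by
        intro B ε hε
        obtain ⟨M, hM⟩ := hEv.2.2.2 B ε hε
        refine ⟨M, ?_⟩
        filter_upwards [h𝒰 hM, hmem] with n hn hm
        exact hn _ hm }

end sel

/-- a compact bulk interval around a bulk energy -/
theorem exists_bulk {d : ℕ} (hd : 3 ≤ d) {E : ℝ} (hE : |E| < 2 * Real.sqrt ((d : ℝ) - 1)) :
    ∃ a b : ℝ, Bulk d a b ∧ E ∈ Set.Ioo a b := by
  rw [abs_lt] at hE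
  refine ⟨(-(2 * Real.sqrt ((d : ℝ) - 1)) + E) / 2, (2 * Real.sqrt ((d : ℝ) - 1) + E) / 2,
    ⟨hd, ?_, ?_, ?_⟩, ?_, ?_⟩ <;> linarith [hE.1, hE.2]

/-- **The fixed energy theorem** from the every-energy inputs and the limit along good
sequences. -/
theorem specFixed_of {d : ℕ} (hd : 3 ≤ d) (hEv : ∀ a b : ℝ, Bulk d a b → SpecEv d a b)
    (hMic : ∀ a b : ℝ, Bulk d a b → SpecMic d a b) (hG : SpecGoodLimit d) : SpecFixed d := by
  intro E hE f hfc hfs hf0
  obtain ⟨a, b, hbk, hEab⟩ := exists_bulk hd hE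
  set Y : ℕ → ℝ := fun n => ∫ w, Real.exp (-∫ x, f x ∂(XiGOE n w)) ∂(goeLaw n) with hY
  by_contra hcon
  obtain ⟨ε, hε, hfr⟩ : ∃ ε > 0, ∃ᶠ n in admissible d, 2 * ε ≤ |lapl n d f E - Y n| := by
    rw [Metric.tendsto_nhds] at hcon
    push Not at hcon
    obtain ⟨ε, hε, h⟩ := hcon
    refine ⟨ε / 2, by linarith, h.mono fun n hn => ?_⟩
    rw [dist_zero_right, Real.norm_eq_abs] at hn
    show 2 * (ε / 2) ≤ |lapl n d f E - Y n|
    unfold lapl
    linarith
  obtain ⟨S, hS, hcmp⟩ := lapl_compare hd hE (fun B => by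
    obtain ⟨C, hC⟩ := (hEv a b hbk).2.1 B
    refine ⟨C, ?_⟩
    filter_upwards [hC] with n hn
    exact hn E (Set.Ioo_subset_Icc_self hEab)) hfc hfs hf0 (half_pos hε)
  set D : ℕ → Set ℝ := fun n => {_s : ℝ | 2 * ε ≤ |lapl n d f E - Y n|} with hD
  have hDfr : ∃ᶠ n in admissible d, ENNReal.ofReal (2 * S) ≤ mu (-S) S (D n) := by
    refine hfr.mono fun n hn => ?_
    have h1 : D n = Set.univ := by
      ext s
      simp only [hD, Set.mem_ofPred_eq, Set.mem_univ, iff_true]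
      exact hn
    rw [h1]
    unfold mu
    rw [Measure.restrict_apply_univ, Real.volume_Ioc]
    exact ENNReal.ofReal_le_ofReal (by linarith)
  obtain ⟨𝒰, s, h𝒰, hsD, hgood⟩ := (sel_good_mic hbk hEab hS (hEv a b hbk) (hMic a b hbk)).exists
    D (by simpa using hS) hDfr 0
  obtain ⟨hbd, hgs⟩ := hgood h𝒰
  have hlim := hG 𝒰 (fun n => E + s n / n) E hgs f hfc hfs hf0
  have hlim' := (tendsto_order.1 hlim.abs).2 (ε / 2) (by simpa using hε)
  obtain ⟨n, ⟨hn1, hn2⟩, hn3, hn4⟩ :=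
    ((hsD.and hlim').and (hbd.and (h𝒰 hcmp))).exists
  have h5 := hn4 (s n) hn3
  have h6 : 2 * ε ≤ |lapl n d f E - Y n| := hn1
  have h7 : |lapl n d f (E + s n / n) - Y n| < ε / 2 := hn2
  have h8 : lapl n d f E - Y n = (lapl n d f (E + s n / n) - Y n) -
      (lapl n d f (E + s n / n) - lapl n d f E) := by ring
  rw [h8] at h6
  have h9 := abs_sub (lapl n d f (E + s n / n) - Y n) (lapl n d f (E + s n / n) - lapl n d f E)
  linarith

end

end Vale.Agent.P156.H9
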