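import Mathlib.Probability.Distributions.Gaussian.Multivariate
import Mathlib.Probability.Distributions.Gaussian.Real
import Mathlib.MeasureTheory.Measure.CharacteristicFunction.Basic

/-!
P156, GOE side (H2): the standard Gaussian measure on `κ → ℝ` and its images under matrices with
orthonormal rows.
-/

namespace Vale.Agent.P156.H9

open MeasureTheory ProbabilityTheory Matrix Complex
open scoped NNReal

/-- the standard Gaussian measure -/
noncomputable def gam (κ : Type*) [Fintype κ] : Measure (κ → ℝ) :=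
  Measure.pi fun _ => gaussianReal 0 1

variable {κ κ' : Type*} [Fintype κ] [Fintype κ']

instance : IsProbabilityMeasure (gam κ) := by
  unfold gam; infer_instance

theorem ext_of_exp {μ ν : Measure (κ → ℝ)} [IsFiniteMeasure μ] [IsFiniteMeasure ν]
    (h : ∀ t : κ → ℝ, ∫ x, cexp (((∑ k, t k * x k : ℝ) : ℂ) * I) ∂μ
      = ∫ x, cexp (((∑ k, t k * x k : ℝ) : ℂ) * I) ∂ν) : μ = ν := by
  classical
  apply Measure.ext_of_charFunDual
  ext L
  rw [charFunDual_apply, charFunDual_apply]
  have hL : ∀ x : κ → ℝ, L x = ∑ k, L (Pi.single k 1) * x k := by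
    intro x
    conv_lhs => rw [pi_eq_sum_univ' x]
    rw [map_sum]
    apply Finset.sum_congr rfl
    intro k _
    rw [map_smul, smul_eq_mul, mul_comm]
  have e : (fun x : κ → ℝ => cexp ((L x : ℂ) * I))
      = fun x => cexp (((∑ k, L (Pi.single k 1) * x k : ℝ) : ℂ) * I) := by
    ext x; rw [hL x]
  rw [e]
  exact h _

theorem exp_gam (t : κ → ℝ) :
    ∫ x, cexp (((∑ k, t k * x k : ℝ) : ℂ) * I) ∂(gam κ) = cexp (-((∑ k, t k ^ 2 : ℝ) : ℂ) / 2) := by
  have h1 : ∀ x : κ → ℝ, cexp (((∑ k, t k * x k : ℝ) : ℂ) * I)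
      = ∏ k, cexp ((t k * x k : ℂ) * I) := by
    intro x
    rw [← Complex.exp_sum, ofReal_sum, Finset.sum_mul]
    simp only [ofReal_mul]
  simp only [h1]
  rw [gam, integral_fintype_prod_eq_prod (f := fun k (x : ℝ) => cexp ((t k * x : ℂ) * I))]
  have h2 : ∀ k, ∫ x : ℝ, cexp ((t k * x : ℂ) * I) ∂(gaussianReal 0 1)
      = cexp (-(t k : ℂ) ^ 2 / 2) := by
    intro k
    have := charFun_gaussianReal (μ := 0) (v := 1) (t k)
    rw [charFun_apply_real] at this
    rw [this]
    simp [neg_div]
  rw [Finset.prod_congr rfl (fun k _ => h2 k), ← Complex.exp_sum]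
  congr 1
  rw [ofReal_sum, ← Finset.sum_neg_distrib, Finset.sum_div]
  simp

/-- images of the standard Gaussian measure under matrices with orthonormal rows -/
theorem gam_map [DecidableEq κ'] (L : Matrix κ' κ ℝ) (hL : L * Lᵀ = 1) :
    (gam κ).map (fun x => L *ᵥ x) = gam κ' := by
  have hm : Measurable (fun x : κ → ℝ => L *ᵥ x) := by
    apply measurable_pi_lambda
    intro i
    simp only [mulVec, dotProduct]
    fun_prop
  have : IsProbabilityMeasure ((gam κ).map (fun x => L *ᵥ x)) :=
    Measure.isProbabilityMeasure_map hm.aemeasurable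
  apply ext_of_exp
  intro t
  rw [integral_map hm.aemeasurable (by
    apply Measurable.aestronglyMeasurable
    fun_prop), exp_gam]
  have h1 : ∀ x : κ → ℝ, (∑ k, t k * (L *ᵥ x) k) = ∑ l, (t ᵥ* L) l * x l := by
    intro x
    have := dotProduct_mulVec t L x
    simpa [dotProduct] using this
  simp only [h1]
  rw [exp_gam]
  congr 4
  have h2 : (t ᵥ* L) ⬝ᵥ (t ᵥ* L) = t ⬝ᵥ t := by
    calc (t ᵥ* L) ⬝ᵥ (t ᵥ* L) = (t ᵥ* L) ⬝ᵥ (Lᵀ *ᵥ t) := by rw [mulVec_transpose]
      _ = t ⬝ᵥ t := by rw [dotProduct_mulVec, vecMul_vecMul, hL, vecMul_one]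
  simpa [dotProduct, sq] using h2

/-- coordinates `α x_p + β x_q` with distinct positions are again standard Gaussian -/
theorem gam_two [DecidableEq κ] (p q : κ' → κ) (α β : κ' → ℝ) (hn : ∀ r, α r ^ 2 + β r ^ 2 = 1)
    (hp : Function.Injective p) (hq : ∀ r r', β r ≠ 0 → β r' ≠ 0 → q r = q r' → r = r')
    (hpq : ∀ r r', β r' ≠ 0 → p r ≠ q r') :
    (gam κ).map (fun x r => α r * x (p r) + β r * x (q r)) = gam κ' := by
  classical
  set L : Matrix κ' κ ℝ := Matrix.of fun r m =>
    (if m = p r then α r else 0) + (if m = q r then β r else 0) with hL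
  have hx : (fun (x : κ → ℝ) r => α r * x (p r) + β r * x (q r)) = fun x => L *ᵥ x := by
    ext x r
    rw [mulVec, dotProduct]
    simp only [hL, of_apply, add_mul, ite_mul, zero_mul, Finset.sum_add_distrib,
      Finset.sum_ite_eq', Finset.mem_univ, if_true]
  rw [hx]
  apply gam_map
  ext r r'
  rw [mul_apply, Matrix.one_apply]
  have h1 : ∀ m, L r m * Lᵀ m r' = (if m = p r then α r * L r' m else 0)
      + (if m = q r then β r * L r' m else 0) := by
    intro m
    rw [transpose_apply]
    conv_lhs => rw [hL, of_apply]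
    rw [add_mul, ite_mul, ite_mul, zero_mul]
  rw [Finset.sum_congr rfl (fun m _ => h1 m), Finset.sum_add_distrib, Finset.sum_ite_eq',
    Finset.sum_ite_eq']
  simp only [Finset.mem_univ, if_true, hL, of_apply]
  have e1 : ∀ r r', (if p r = p r' then α r' else 0) = if r = r' then α r' else 0 := by
    intro r r'
    by_cases h : r = r'
    · simp [h]
    · rw [if_neg h, if_neg (fun h' => h (hp h'))]
  have e2 : ∀ r r', (if p r = q r' then β r' else 0) = 0 := by
    intro r r'
    by_cases hb : β r' = 0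
    · simp [hb]
    · rw [if_neg (hpq r r' hb)]
  have e3 : ∀ r r', β r * (if q r = p r' then α r' else 0) = 0 := by
    intro r r'
    by_cases hb : β r = 0
    · simp [hb]
    · rw [if_neg (fun h => hpq r' r hb h.symm), mul_zero]
  have e4 : ∀ r r', β r * (if q r = q r' then β r' else 0) = if r = r' then β r * β r' else 0 := by
    intro r r'
    by_cases hb : β r = 0
    · simp [hb]
    · by_cases hb' : β r' = 0
      · simp [hb']
      · by_cases h : r = r'
        · simp [h]
        · rw [if_neg h, if_neg (fun h' => h (hq r r' hb hb' h')), mul_zero]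
  rw [mul_add, mul_add, e1, e2, e3, e4]
  by_cases h : r = r'
  · subst h; simp only [if_true]; linarith [hn r]
  · simp [h]

theorem gam_comp [DecidableEq κ] (f : κ' → κ) (hf : Function.Injective f) :
    (gam κ).map (fun x r => x (f r)) = gam κ' := by
  have := gam_two f f (fun _ => 1) (fun _ => 0) (by simp) hf (by simp) (by simp)
  simpa using this

omit [Fintype κ] [Fintype κ'] in
theorem measurable_two (p q : κ' → κ) (α β : κ' → ℝ) :
    Measurable (fun (x : κ → ℝ) r => α r * x (p r) + β r * x (q r)) := by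
  apply measurable_pi_lambda
  intro r
  exact ((measurable_pi_apply _).const_mul _).add ((measurable_pi_apply _).const_mul _)

/-- Fubini for the standard Gaussian measure on a sum type -/
theorem gam_sum :
    (gam κ).prod (gam κ') = (gam (κ ⊕ κ')).map
      (fun x => ((fun k => x (Sum.inl k)), (fun k => x (Sum.inr k)))) := by
  have h := measurePreserving_sumPiEquivProdPi (X := fun _ : κ ⊕ κ' => ℝ)
    (fun _ => gaussianReal 0 1)
  exact h.map_eq.symm

theorem integral_gam_sum {f : (κ → ℝ) → (κ' → ℝ) → ℝ}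
    (hf : Measurable (fun p : (κ → ℝ) × (κ' → ℝ) => f p.1 p.2)) {M : ℝ}
    (hM : ∀ x y, |f x y| ≤ M) :
    ∫ x, f (fun k => x (Sum.inl k)) (fun k => x (Sum.inr k)) ∂(gam (κ ⊕ κ'))
      = ∫ x, ∫ y, f x y ∂(gam κ') ∂(gam κ) := by
  have hm : Measurable (fun x : κ ⊕ κ' → ℝ => ((fun k => x (Sum.inl k)), (fun k => x (Sum.inr k)))) := by
    fun_prop
  have hint : Integrable (fun p : (κ → ℝ) × (κ' → ℝ) => f p.1 p.2) ((gam κ).prod (gam κ')) := by
    apply Integrable.of_bound hf.aestronglyMeasurable M
    exact Filter.Eventually.of_forall fun p => by rw [Real.norm_eq_abs]; exact hM _ _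
  rw [← integral_prod _ hint, gam_sum, integral_map hm.aemeasurable hf.aestronglyMeasurable]

end Vale.Agent.P156.H9
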