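import Vale.Agent.P156.H9.Gauss
import Vale.Agent.P156.H9.Border
import Vale.Agent.P156.H9.Meas

/-!
P156, GOE side (H2): the unnormalized GOE matrix `H = (G + Gᵀ)/√2`, almost sure invertibility.
-/

namespace Vale.Agent.P156.H9

open MeasureTheory ProbabilityTheory Matrix

variable {κ κ' ν ι : Type*} [Fintype κ] [Fintype κ'] [Fintype ν] [DecidableEq ν] [Fintype ι]

/-- the unnormalized GOE matrix -/
noncomputable def Hm (G : ν × ν → ℝ) : Matrix ν ν ℝ :=
  Matrix.of fun i j => (G (i, j) + G (j, i)) / √2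

omit [Fintype ν] [DecidableEq ν] in
theorem Hm_apply (G : ν × ν → ℝ) (i j : ν) : Hm G i j = (G (i, j) + G (j, i)) / √2 := rfl

omit [Fintype ν] [DecidableEq ν] in
theorem Hm_isSymm (G : ν × ν → ℝ) : (Hm G).IsSymm := by
  ext i j
  rw [transpose_apply, Hm_apply, Hm_apply, add_comm]

omit [Fintype ν] [DecidableEq ν] in
theorem measurable_Hm {Ω : Type*} [MeasurableSpace Ω] {G : Ω → ν × ν → ℝ}
    (hG : ∀ p, Measurable fun ω => G ω p) (i j : ν) : Measurable fun ω => Hm (G ω) i j := by
  simp only [Hm_apply]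
  exact ((hG _).add (hG _)).div_const _

theorem gam_coord (k : κ) : (gam κ).map (fun x => x k) = gaussianReal 0 1 :=
  (measurePreserving_eval (fun _ : κ => gaussianReal 0 1) k).map_eq

theorem gam_coord_eq (k : κ) (c : ℝ) : gam κ {x | x k = c} = 0 := by
  have h : gam κ {x | x k = c} = (gam κ).map (fun x => x k) {c} := by
    rw [Measure.map_apply (measurable_pi_apply k) (measurableSet_singleton c)]
    rfl
  rw [h, gam_coord]
  have := nullSingletonClass_gaussianReal (μ := 0) (v := 1) (by norm_num)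
  exact measure_singleton c

theorem ae_last_ne {f : (κ → ℝ) → ℝ} (hf : Measurable f) {a : ℝ} (ha : a ≠ 0) :
    ∀ᵐ x ∂(gam (κ ⊕ Unit)), a * x (Sum.inr ()) ≠ f (fun k => x (Sum.inl k)) := by
  have hm : Measurable (fun x : κ ⊕ Unit → ℝ => ((fun k => x (Sum.inl k)),
      (fun k => x (Sum.inr k)))) := by
    fun_prop
  have hs : MeasurableSet {p : (κ → ℝ) × (Unit → ℝ) | a * p.2 () = f p.1} := by
    apply measurableSet_eq_fun
    · have : Measurable (fun p : (κ → ℝ) × (Unit → ℝ) => p.2 ()) := by fun_prop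
      exact this.const_mul a
    · exact hf.comp measurable_fst
  have h0 : ((gam κ).prod (gam Unit)) {p : (κ → ℝ) × (Unit → ℝ) | a * p.2 () = f p.1} = 0 := by
    rw [Measure.measure_prod_null hs]
    apply Filter.Eventually.of_forall
    intro x
    have : (Prod.mk x ⁻¹' {p : (κ → ℝ) × (Unit → ℝ) | a * p.2 () = f p.1})
        = {v : Unit → ℝ | v () = f x / a} := by
      ext v
      simp only [Set.mem_preimage, Set.mem_ofPred_eq]
      rw [eq_div_iff ha, mul_comm]
    beta_reduce
    rw [this]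
    exact gam_coord_eq _ _
  rw [gam_sum, Measure.map_apply hm hs] at h0
  rw [ae_iff]
  convert h0 using 2
  ext x
  simp

/-- the Schur complement of the bordered matrix -/
noncomputable def sig {n : ℕ} (H' : Matrix (Fin (n + 1)) (Fin (n + 1)) ℝ) : ℝ :=
  H' 0 0 - (fun j : Fin n => H' 0 j.succ) ⬝ᵥ
      ((H'.submatrix Fin.succ Fin.succ)⁻¹ *ᵥ fun j : Fin n => H' 0 j.succ)

theorem sqrt2_pos : (0 : ℝ) < √2 := Real.sqrt_pos.2 (by norm_num)

theorem ae_sig_ne {n : ℕ} : ∀ᵐ G ∂(gam (Fin (n + 1) × Fin (n + 1))), sig (Hm G) ≠ 0 := by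
  -- realize `G` on a larger space
  set κ := Fin (n + 1) × Fin (n + 1) with hκ
  set f : κ → κ ⊕ Unit := fun p => if p = (0, 0) then Sum.inr () else Sum.inl p with hf
  have hfi : Function.Injective f := by
    intro p p' h
    by_cases h1 : p = (0, 0) <;> by_cases h2 : p' = (0, 0)
    · rw [h1, h2]
    · simp [hf, h1, h2] at h
    · simp [hf, h1, h2] at h
    · simpa [hf, h1, h2] using h
  have hmap := gam_comp (κ := κ ⊕ Unit) (κ' := κ) f hfi
  have hmeas : Measurable (fun (x : κ ⊕ Unit → ℝ) r => x (f r)) := by fun_prop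
  have hH : ∀ i j, Measurable (fun G : κ → ℝ => Hm G i j) :=
    fun i j => measurable_Hm (fun p => measurable_pi_apply p) i j
  have hq : Measurable (fun G : κ → ℝ => (fun j : Fin n => Hm G 0 j.succ) ⬝ᵥ
      (((Hm G).submatrix Fin.succ Fin.succ)⁻¹ *ᵥ fun j : Fin n => Hm G 0 j.succ)) := by
    apply measurable_dot_inv
    · intro i j; exact hH _ _
    · intro i; exact hH _ _
    · intro i; exact hH _ _
  have hsig : Measurable (fun G : κ → ℝ => sig (Hm G)) := (hH 0 0).sub hq
  have hgoal : MeasurableSet {G : κ → ℝ | sig (Hm G) ≠ 0} :=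
    (measurableSet_eq_fun hsig measurable_const).compl
  rw [← hmap, ae_map_iff hmeas.aemeasurable hgoal]
  have h := ae_last_ne hq (a := √2) sqrt2_pos.ne'
  filter_upwards [h] with x hx
  intro h0
  apply hx
  have e1 : Hm (fun r => x (f r)) 0 0 = √2 * x (Sum.inr ()) := by
    rw [Hm_apply]
    have : f (0, 0) = Sum.inr () := by simp [hf]
    rw [this]
    have h2 : √2 * √2 = 2 := Real.mul_self_sqrt (by norm_num)
    field_simp
    rw [sq, h2]; ring
  have e2 : ∀ i j : Fin (n + 1), (i, j) ≠ ((0, 0) : κ) →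
      Hm (fun r => x (f r)) i j = Hm (fun k => x (Sum.inl k)) i j := by
    intro i j hij
    have hji : (j, i) ≠ ((0, 0) : κ) := by
      intro h; apply hij; rw [Prod.ext_iff] at h ⊢; exact ⟨h.2, h.1⟩
    rw [Hm_apply, Hm_apply]
    simp [hf, hij, hji]
  unfold sig at h0
  rw [e1] at h0
  have e3 : (Hm (fun r => x (f r))).submatrix (Fin.succ : Fin n → _) Fin.succ
      = (Hm (fun k => x (Sum.inl k))).submatrix Fin.succ Fin.succ := by
    ext i j
    rw [submatrix_apply, submatrix_apply]
    apply e2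
    intro h; exact Fin.succ_ne_zero _ (Prod.ext_iff.1 h).1
  have e4 : (fun j : Fin n => Hm (fun r => x (f r)) 0 j.succ)
      = fun j : Fin n => Hm (fun k => x (Sum.inl k)) 0 j.succ := by
    ext j
    apply e2
    intro h; exact Fin.succ_ne_zero _ (Prod.ext_iff.1 h).2
  rw [e3, e4] at h0
  linarith

theorem ae_isUnit : ∀ n : ℕ, ∀ᵐ G ∂(gam (Fin n × Fin n)), IsUnit (Hm G) := by
  intro n
  induction n with
  | zero =>
    apply Filter.Eventually.of_forall
    intro G
    rw [Matrix.isUnit_iff_isUnit_det]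
    simp
  | succ n ih =>
    have hmap := gam_comp (κ := Fin (n + 1) × Fin (n + 1)) (κ' := Fin n × Fin n)
      (fun p => (p.1.succ, p.2.succ)) (by
        intro p p' h
        rw [Prod.ext_iff] at h ⊢
        exact ⟨Fin.succ_injective _ h.1, Fin.succ_injective _ h.2⟩)
    rw [← hmap] at ih
    have hmeas : Measurable (fun (x : Fin (n + 1) × Fin (n + 1) → ℝ) (r : Fin n × Fin n) =>
      x (r.1.succ, r.2.succ)) := by fun_prop
    have ih' := ae_of_ae_map hmeas.aemeasurable ih
    filter_upwards [ih', ae_sig_ne] with G h1 h2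
    exact (border_solve (Hm_isSymm G) h1 h2).1

end Vale.Agent.P156.H9
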