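import Vale.Agent.P156.H9.Ultra2
import Vale.Agent.P156.F.Unique
import Vale.Agent.P156.G.Coe

/-!
P156, GOE side (H2): the law of the Cayley matrix of Gaussian leads tends to the circular
orthogonal ensemble.
-/

namespace Vale.Agent.P156.H9

open MeasureTheory ProbabilityTheory Matrix Filter Topology
open Vale.Agent.P156.F (InvBy IsReal OInv DInv SUInv clos closM)

variable {ι : Type} [Fintype ι] [DecidableEq ι]

/-- scalar unitary matrix -/
noncomputable def scal (ι : Type) [Fintype ι] [DecidableEq ι] (z : ℂ) (hz : ‖z‖ = 1) :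
    unitaryGroup ι ℂ := F.diagU (fun _ => z) (fun _ => hz)

theorem scal_comm (z : ℂ) (hz : ‖z‖ = 1) (U : unitaryGroup ι ℂ) :
    scal ι z hz * U = U * scal ι z hz := by
  apply Subtype.ext
  change (scal ι z hz).1 * U.1 = U.1 * (scal ι z hz).1
  ext i j
  rw [scal, F.coe_diagU, diagonal_mul, mul_diagonal, mul_comm]

theorem scal_smul_apply (z : ℂ) (hz : ‖z‖ = 1) (S : F.SymU ι) (i j : ι) :
    (scal ι z hz • S).1 i j = z ^ 2 * S.1 i j := by
  rw [scal, F.diagU_smul_apply]; ring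

theorem InvBy_map_scal {μ : Measure (F.SymU ι)} (z : ℂ) (hz : ‖z‖ = 1) {U : unitaryGroup ι ℂ}
    (h : InvBy μ U) : InvBy (μ.map (fun S => scal ι z hz • S)) U := by
  unfold InvBy at *
  rw [Measure.map_map (F.measurable_smul U) (F.measurable_smul _)]
  have : (fun S : F.SymU ι => U • S) ∘ (fun S => scal ι z hz • S)
      = (fun S => scal ι z hz • S) ∘ (fun S => U • S) := by
    ext1 S
    change U • scal ι z hz • S = scal ι z hz • U • S
    rw [← mul_smul, ← mul_smul, scal_comm]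
  rw [this, ← Measure.map_map (F.measurable_smul _) (F.measurable_smul U), h]

theorem clos_scal {t : ℕ} {z : ℂ} (hz : ‖z‖ = 1) {S : F.SymU (Fin (t + 1))}
    (h0 : S.1 0 0 ≠ 1) :
    clos ((z ^ 2)⁻¹) (scal (Fin (t + 1)) z hz • S) = scal (Fin t) z hz • clos 1 S := by
  have hz0 : z ≠ 0 := by
    intro h; rw [h, norm_zero] at hz; exact zero_ne_one hz
  have h1 : (scal (Fin (t + 1)) z hz • S).1 0 0 ≠ ((z ^ 2)⁻¹)⁻¹ := by
    rw [scal_smul_apply, inv_inv]
    intro h
    apply h0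
    have : z ^ 2 ≠ 0 := pow_ne_zero 2 hz0
    exact mul_left_cancel₀ this (by rw [h, mul_one])
  have h2 : S.1 0 0 ≠ (1 : ℂ)⁻¹ := by rw [inv_one]; exact h0
  apply Subtype.ext
  ext i j
  rw [F.coe_clos (by rw [norm_inv, norm_pow, hz]; simp) h1, scal_smul_apply,
    F.coe_clos (by simp) h2, F.closM_apply, F.closM_apply, scal_smul_apply, scal_smul_apply,
    scal_smul_apply, scal_smul_apply, inv_inv, inv_one]
  have h3 : (1 : ℂ) - S.1 0 0 ≠ 0 := sub_ne_zero.2 (Ne.symm h0)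
  have h4 : z ^ 2 - z ^ 2 * S.1 0 0 ≠ 0 := by
    have : z ^ 2 - z ^ 2 * S.1 0 0 = z ^ 2 * (1 - S.1 0 0) := by ring
    rw [this]
    exact mul_ne_zero (pow_ne_zero 2 hz0) h3
  field_simp

/-- a chain of `O`- and `D`-invariant laws is invariant under scalars -/
theorem scalar_inv {μ : ∀ t, Measure (F.SymU (Fin t))} {t0 : ℕ} (ht0 : 1 ≤ t0)
    (hprob : ∀ t, t0 ≤ t → IsProbabilityMeasure (μ t))
    (hO : ∀ t, t0 ≤ t → OInv (μ t)) (hD : ∀ t, t0 ≤ t → DInv (μ t))
    (hclos : ∀ t, t0 ≤ t → μ t = (μ (t + 1)).map (clos 1)) {t : ℕ} (ht : t0 ≤ t)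
    (z : ℂ) (hz : ‖z‖ = 1) : InvBy (μ t) (scal _ z hz) := by
  have h := F.F_unique t0 μ (fun t => (μ t).map (fun S => scal _ z hz • S)) hprob
    (fun t ht => by
      have := hprob t ht
      exact Measure.isProbabilityMeasure_map (F.measurable_smul _).aemeasurable)
    hO hD (fun t ht U hU => InvBy_map_scal z hz (hO t ht U hU))
    (fun t ht U hU hU' => InvBy_map_scal z hz (hD t ht U hU hU'))
    (fun _ => 1) (fun _ => (z ^ 2)⁻¹) (fun _ => by simp)
    (fun _ => by rw [norm_inv, norm_pow, hz]; simp) hclos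
    (fun t ht => by
      have hp := hprob (t + 1) (by omega)
      rw [hclos t ht, Measure.map_map (F.measurable_smul _) (F.measurable_clos 1),
        Measure.map_map (F.measurable_clos _) (F.measurable_smul _)]
      apply Measure.map_congr
      have hnull : (μ (t + 1)) {S | S.1 0 0 = 1} = 0 := by
        obtain ⟨t', rfl⟩ : ∃ t', t = t' + 1 := ⟨t - 1, by omega⟩
        exact F.measure_entry_eq (hD (t' + 1 + 1) (by omega)) (i0 := 0) (i1 := 1)
          (by simp) one_ne_zero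
      have hae : ∀ᵐ S ∂(μ (t + 1)), S.1 0 0 ≠ 1 := by
        rw [ae_iff]
        convert hnull using 2
        ext S
        simp
      filter_upwards [hae] with S hS
      exact (clos_scal hz hS).symm) ht
  exact h.symm

/-- every unitary matrix is a scalar times a matrix of determinant one -/
theorem full_inv {t : ℕ} {μ : Measure (F.SymU (Fin (t + 1)))} (hO : OInv μ) (hD : DInv μ)
    (hs : ∀ z hz, InvBy μ (scal _ z hz)) (U : unitaryGroup (Fin (t + 1)) ℂ) : InvBy μ U := by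
  have hSU := F.SUInv.of hO hD
  have hdet : ‖U.1.det‖ = 1 := F.norm_det_unitary U
  obtain ⟨z, hz⟩ : ∃ z : ℂ, z ^ (t + 1) = U.1.det :=
    IsAlgClosed.exists_pow_nat_eq _ (Nat.succ_pos t)
  have hz1 : ‖z‖ = 1 := by
    have : ‖z‖ ^ (t + 1) = 1 := by rw [← norm_pow, hz, hdet]
    exact (pow_eq_one_iff_of_nonneg (norm_nonneg _) (Nat.succ_ne_zero t)).1 this
  have hz0 : z ≠ 0 := by
    intro h; rw [h, norm_zero] at hz1; exact zero_ne_one hz1
  have hzi : ‖z⁻¹‖ = 1 := by rw [norm_inv, hz1, inv_one]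
  have hV : (scal (Fin (t + 1)) z⁻¹ hzi * U).1.det = 1 := by
    change ((scal (Fin (t + 1)) z⁻¹ hzi).1 * U.1).det = 1
    rw [det_mul, ← hz, scal, F.coe_diagU, det_diagonal]
    simp [hz0]
  have h1 := (hs z hz1).mul (hSU _ hV)
  have h2 : scal (Fin (t + 1)) z hz1 * (scal (Fin (t + 1)) z⁻¹ hzi * U) = U := by
    apply Subtype.ext
    change (scal (Fin (t + 1)) z hz1).1 * ((scal (Fin (t + 1)) z⁻¹ hzi).1 * U.1) = U.1
    ext i j
    rw [scal, F.coe_diagU, diagonal_mul, scal, F.coe_diagU, diagonal_mul]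
    field_simp
  rw [h2] at h1
  exact h1

/-! ### closing preserves full invariance -/

/-- extension of a unitary matrix by `1` in channel `0` -/
noncomputable def extM {t : ℕ} (U : Matrix (Fin t) (Fin t) ℂ) :
    Matrix (Fin (t + 1)) (Fin (t + 1)) ℂ :=
  Matrix.of fun i j => Fin.cases (Fin.cases 1 (fun _ => 0) j)
    (fun i => Fin.cases 0 (fun j => U i j) j) i

theorem extM_00 {t : ℕ} (U : Matrix (Fin t) (Fin t) ℂ) : extM U 0 0 = 1 := rfl
theorem extM_0s {t : ℕ} (U : Matrix (Fin t) (Fin t) ℂ) (j : Fin t) : extM U 0 j.succ = 0 := rfl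
theorem extM_s0 {t : ℕ} (U : Matrix (Fin t) (Fin t) ℂ) (i : Fin t) : extM U i.succ 0 = 0 := rfl
theorem extM_ss {t : ℕ} (U : Matrix (Fin t) (Fin t) ℂ) (i j : Fin t) :
    extM U i.succ j.succ = U i j := rfl

theorem extM_mem {t : ℕ} {U : Matrix (Fin t) (Fin t) ℂ} (hU : U ∈ unitaryGroup (Fin t) ℂ) :
    extM U ∈ unitaryGroup (Fin (t + 1)) ℂ := by
  have h := mem_unitaryGroup_iff.1 hU
  rw [star_eq_conjTranspose] at h
  rw [mem_unitaryGroup_iff, star_eq_conjTranspose]
  ext i j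
  rw [mul_apply, Fin.sum_univ_succ, Matrix.one_apply]
  simp only [conjTranspose_apply]
  refine Fin.cases ?_ (fun i => ?_) i <;> refine Fin.cases ?_ (fun j => ?_) j
  · simp [extM_00, extM_0s]
  · simp [extM_00, extM_0s, extM_s0, (Fin.succ_ne_zero j).symm]
  · simp [extM_00, extM_0s, extM_s0]
  · simp only [extM_s0, extM_ss, Fin.succ_inj, zero_mul, zero_add]
    have := congrFun (congrFun h i) j
    rw [mul_apply, Matrix.one_apply] at this
    rw [← this]
    rfl

/-- the extension as a unitary -/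
noncomputable def extU {t : ℕ} (U : unitaryGroup (Fin t) ℂ) : unitaryGroup (Fin (t + 1)) ℂ :=
  ⟨extM U.1, extM_mem U.2⟩

theorem extU_smul_00 {t : ℕ} (U : unitaryGroup (Fin t) ℂ) (S : F.SymU (Fin (t + 1))) :
    (extU U • S).1 0 0 = S.1 0 0 := by
  rw [F.coe_smul]
  change (extM U.1 * S.1 * (extM U.1)ᵀ) 0 0 = _
  rw [mul_apply, Fin.sum_univ_succ]
  simp only [transpose_apply, extM_00, extM_0s, mul_zero, Finset.sum_const_zero, add_zero, mul_one]
  rw [mul_apply, Fin.sum_univ_succ]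
  simp [extM_00, extM_0s]

theorem extU_smul_0s {t : ℕ} (U : unitaryGroup (Fin t) ℂ) (S : F.SymU (Fin (t + 1)))
    (j : Fin t) : (extU U • S).1 0 j.succ = ∑ l, S.1 0 l.succ * U.1 j l := by
  rw [F.coe_smul]
  change (extM U.1 * S.1 * (extM U.1)ᵀ) 0 j.succ = _
  rw [mul_apply, Fin.sum_univ_succ]
  simp only [transpose_apply, extM_s0, extM_ss, mul_zero, zero_add]
  apply Finset.sum_congr rfl
  intro l _
  rw [mul_apply, Fin.sum_univ_succ]
  simp [extM_00, extM_0s]

theorem extU_smul_s0 {t : ℕ} (U : unitaryGroup (Fin t) ℂ) (S : F.SymU (Fin (t + 1)))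
    (i : Fin t) : (extU U • S).1 i.succ 0 = ∑ l, U.1 i l * S.1 l.succ 0 := by
  rw [F.coe_smul]
  change (extM U.1 * S.1 * (extM U.1)ᵀ) i.succ 0 = _
  rw [mul_apply, Fin.sum_univ_succ]
  simp only [transpose_apply, extM_00, extM_0s, mul_zero, Finset.sum_const_zero, add_zero, mul_one]
  rw [mul_apply, Fin.sum_univ_succ]
  simp [extM_s0, extM_ss]

theorem extU_smul_ss {t : ℕ} (U : unitaryGroup (Fin t) ℂ) (S : F.SymU (Fin (t + 1)))
    (i j : Fin t) : (extU U • S).1 i.succ j.succ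
      = ∑ l, (∑ k, U.1 i k * S.1 k.succ l.succ) * U.1 j l := by
  rw [F.coe_smul]
  change (extM U.1 * S.1 * (extM U.1)ᵀ) i.succ j.succ = _
  rw [mul_apply, Fin.sum_univ_succ]
  simp only [transpose_apply, extM_s0, extM_ss, mul_zero, zero_add]
  apply Finset.sum_congr rfl
  intro l _
  rw [mul_apply, Fin.sum_univ_succ]
  simp [extM_s0, extM_ss]

theorem clos_ext {t : ℕ} (U : unitaryGroup (Fin t) ℂ) {S : F.SymU (Fin (t + 1))}
    (h0 : S.1 0 0 ≠ 1) : clos 1 (extU U • S) = U • clos 1 S := by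
  have h1 : (extU U • S).1 0 0 ≠ (1 : ℂ)⁻¹ := by rw [extU_smul_00, inv_one]; exact h0
  have h2 : S.1 0 0 ≠ (1 : ℂ)⁻¹ := by rw [inv_one]; exact h0
  apply Subtype.ext
  rw [F.coe_clos (by simp) h1, F.coe_smul U (clos 1 S), F.coe_clos (by simp) h2]
  ext i j
  rw [F.closM_apply, extU_smul_00, extU_smul_0s, extU_smul_s0, extU_smul_ss, mul_apply,
    Finset.mul_sum, ← Finset.sum_add_distrib]
  apply Finset.sum_congr rfl
  intro l _
  rw [mul_apply, transpose_apply, Finset.sum_mul, Finset.sum_mul, Finset.sum_mul, Finset.sum_mul,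
    ← Finset.sum_add_distrib]
  apply Finset.sum_congr rfl
  intro k _
  rw [F.closM_apply]
  ring

theorem inv_clos {t : ℕ} {μ : Measure (F.SymU (Fin (t + 1)))}
    (h : ∀ U, InvBy μ U) (h0 : μ {S | S.1 0 0 = 1} = 0) (U : unitaryGroup (Fin t) ℂ) :
    InvBy (μ.map (clos 1)) U := by
  unfold InvBy
  rw [Measure.map_map (F.measurable_smul U) (F.measurable_clos 1)]
  have hae : ∀ᵐ S ∂μ, S.1 0 0 ≠ 1 := by
    rw [ae_iff]
    convert h0 using 2
    ext S
    simp
  have h1 : μ.map ((fun S => U • S) ∘ clos 1) = μ.map (clos 1 ∘ fun S => extU U • S) := by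
    apply Measure.map_congr
    filter_upwards [hae] with S hS
    exact (clos_ext U hS).symm
  rw [h1, ← Measure.map_map (F.measurable_clos 1) (F.measurable_smul _), h (extU U)]

theorem null_of_full {t : ℕ} {μ : Measure (F.SymU (Fin (t + 2)))} [IsFiniteMeasure μ]
    (h : ∀ U, InvBy μ U) : μ {S | S.1 0 0 = 1} = 0 :=
  F.measure_entry_eq (fun U _ _ => h U) (i0 := 0) (i1 := 1) (by simp) one_ne_zero

/-! ### the limit -/

/-- the limit laws are invariant under the unitary group, `t ≥ 3` -/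
theorem full_limit_three (s : ℕ) {𝒰 : Ultrafilter ℕ} (h𝒰 : (𝒰 : Filter ℕ) ≤ atTop)
    {ν : ProbabilityMeasure (F.SymU (Fin (s + 3)))}
    (h : Tendsto (fun n => mug n (s + 3)) 𝒰 (𝓝 ν)) (U : unitaryGroup (Fin (s + 3)) ℂ) :
    InvBy (ν : Measure (F.SymU (Fin (s + 3)))) U := by
  choose μ hμ using fun t => Lim.exists_limit 𝒰 (fun n => mug n t)
  have hνμ : ν = μ (s + 3) := tendsto_nhds_unique h (hμ _)
  rw [hνμ]
  have hO : ∀ t, OInv (μ t : Measure (F.SymU (Fin t))) := fun t =>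
    OInv_limit (hμ t) fun n => OInv_mug n t
  have hD : ∀ t, 3 ≤ t → DInv (μ t : Measure (F.SymU (Fin t))) := by
    intro t ht
    obtain ⟨t', rfl⟩ : ∃ t', t = t' + 3 := ⟨t - 3, by omega⟩
    exact DInv_limit t' h𝒰 (hμ _)
  have hc : ∀ t, 3 ≤ t → (μ t : Measure (F.SymU (Fin t)))
      = (μ (t + 1) : Measure (F.SymU (Fin (t + 1)))).map (clos 1) := by
    intro t ht
    obtain ⟨t', rfl⟩ : ∃ t', t = t' + 1 := ⟨t - 1, by omega⟩
    exact chain_limit (t' + 1) (hμ _) (hμ _)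
      (F.measure_entry_eq (hD (t' + 1 + 1) (by omega)) (i0 := 0) (i1 := 1) (by simp) one_ne_zero)
  exact full_inv (hO _) (hD _ (by omega)) (fun z hz => scalar_inv (t0 := 3)
    (μ := fun t => (μ t : Measure (F.SymU (Fin t)))) (by norm_num)
    (fun t _ => inferInstance) (fun t _ => hO t) hD hc (by omega) z hz) U

theorem full_limit_step (t : ℕ) {𝒰 : Ultrafilter ℕ}
    (hstep : ∀ ν : ProbabilityMeasure (F.SymU (Fin (t + 2))),
      Tendsto (fun n => mug n (t + 2)) 𝒰 (𝓝 ν) → ∀ U, InvBy (ν : Measure (F.SymU (Fin (t + 2)))) U)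
    {ν : ProbabilityMeasure (F.SymU (Fin (t + 1)))}
    (h : Tendsto (fun n => mug n (t + 1)) 𝒰 (𝓝 ν)) (U : unitaryGroup (Fin (t + 1)) ℂ) :
    InvBy (ν : Measure (F.SymU (Fin (t + 1)))) U := by
  obtain ⟨ν', h'⟩ := Lim.exists_limit 𝒰 (fun n => mug n (t + 2))
  have hf := hstep ν' h'
  have h0 := null_of_full hf
  rw [chain_limit (t + 1) h h' h0]
  exact inv_clos hf h0 U

/-- the limit laws are invariant under the unitary group -/
theorem full_limit : ∀ (t : ℕ) {𝒰 : Ultrafilter ℕ}, (𝒰 : Filter ℕ) ≤ atTop →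
    ∀ {ν : ProbabilityMeasure (F.SymU (Fin t))}, Tendsto (fun n => mug n t) 𝒰 (𝓝 ν) →
    ∀ U : unitaryGroup (Fin t) ℂ, InvBy (ν : Measure (F.SymU (Fin t))) U
  | 0, 𝒰, h𝒰, ν, h, U => by
    have hU : (fun S : F.SymU (Fin 0) => U • S) = id := by
      ext1 S
      apply Subtype.ext
      ext i
      exact i.elim0
    unfold InvBy
    rw [hU, Measure.map_id]
  | 1, 𝒰, h𝒰, ν, h, U =>
    full_limit_step 0 (fun ν' h' => full_limit_step 1
      (fun ν'' h'' => full_limit_three 0 h𝒰 h'') h') h U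
  | 2, 𝒰, h𝒰, ν, h, U =>
    full_limit_step 1 (fun ν'' h'' => full_limit_three 0 h𝒰 h'') h U
  | s + 3, 𝒰, h𝒰, ν, h, U => full_limit_three s h𝒰 h U

/-- **GOE limit**: the law of the Cayley matrix of `t` Gaussian leads tends to the circular
orthogonal ensemble. -/
theorem goe_limit_mug {t : ℕ} {c : C(SymU (Fin t), ℝ) → ℝ} (hc : IsCOE c)
    (f : C(SymU (Fin t), ℝ)) :
    Tendsto (fun n => ∫ S, f (Vale.Agent.P156.G.ofF S) ∂(mug n t : Measure (F.SymU (Fin t))))
      atTop (𝓝 (c f)) := by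
  rw [tendsto_iff_ultrafilter]
  intro 𝒰 h𝒰
  obtain ⟨ν, hν⟩ := Lim.exists_limit 𝒰 (fun n => mug n t)
  have h1 := Vale.Agent.P156.G.integral_eq_of_isCOE (ν : Measure (F.SymU (Fin t)))
    (full_limit t h𝒰 hν) hc f
  rw [ProbabilityMeasure.tendsto_iff_forall_integral_tendsto] at hν
  have hcont : Continuous fun S : F.SymU (Fin t) => f (Vale.Agent.P156.G.ofF S) :=
    f.continuous.comp Vale.Agent.P156.G.continuous_ofF
  have h2 := hν (BoundedContinuousFunction.mkOfCompact ⟨_, hcont⟩)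
  rw [← h1]
  exact h2

/-- the same statement in terms of the Gaussian variables -/
theorem goe_limit_gam {t : ℕ} {c : C(SymU (Fin t), ℝ) → ℝ} (hc : IsCOE c)
    (f : C(SymU (Fin t), ℝ)) :
    Tendsto (fun n => ∫ x, f (Vale.Agent.P156.G.ofF (Sg n t x)) ∂(gam (KK n t)))
      atTop (𝓝 (c f)) := by
  refine (goe_limit_mug hc f).congr fun n => ?_
  have hcont : Continuous fun S : F.SymU (Fin t) => f (Vale.Agent.P156.G.ofF S) :=
    f.continuous.comp Vale.Agent.P156.G.continuous_ofF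
  exact integral_mug n t ⟨_, hcont⟩

end Vale.Agent.P156.H9
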