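import Vale.Agent.P156.H9.BTau
import Mathlib.Data.Matrix.Block
import Mathlib.LinearAlgebra.Matrix.Kronecker

/-!
P156, GOE side (H2): the law of the matrix `R = c gᵀ H⁻¹ g` for Gaussian leads: rotation of the
leads, rotation of the space, bordering.
-/

namespace Vale.Agent.P156.H9

open MeasureTheory ProbabilityTheory Matrix
open scoped Kronecker

variable {κ κ' ν ι : Type*} [Fintype κ] [Fintype κ'] [Fintype ν] [DecidableEq ν] [Fintype ι]

theorem integral_gam_map {T : (κ → ℝ) → (κ' → ℝ)} (hT : Measurable T)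
    (h : (gam κ).map T = gam κ') {Ψ : (κ' → ℝ) → ℝ} (hΨ : Measurable Ψ) :
    ∫ y, Ψ y ∂(gam κ') = ∫ x, Ψ (T x) ∂(gam κ) := by
  rw [← h, integral_map hT.aemeasurable hΨ.aestronglyMeasurable]

/-- measurability of a function of matrices, entrywise -/
def MM {ι : Type*} (Φ : Matrix ι ι ℝ → ℝ) : Prop :=
  Measurable fun r : ι → ι → ℝ => Φ (Matrix.of r)

omit [Fintype ι] in
theorem MM.comp {Φ : Matrix ι ι ℝ → ℝ} (hΦ : MM Φ) {Ω : Type*} [MeasurableSpace Ω]
    {R : Ω → Matrix ι ι ℝ} (hR : ∀ i j, Measurable fun ω => R ω i j) :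
    Measurable fun ω => Φ (R ω) := by
  have h : Measurable (fun ω => (fun i j => R ω i j : ι → ι → ℝ)) :=
    measurable_pi_lambda _ fun i => measurable_pi_lambda _ fun j => hR i j
  exact Measurable.comp hΦ h

omit [Fintype ι] in
theorem measurable_Rv (c : ℝ) {Ω : Type*} [MeasurableSpace Ω] {H : Ω → Matrix ν ν ℝ}
    (hH : ∀ i j, Measurable fun ω => H ω i j) {g : Ω → ι → ν → ℝ}
    (hg : ∀ a i, Measurable fun ω => g ω a i) (a b : ι) :
    Measurable fun ω => Rv c (H ω) (g ω) a b := by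
  simp only [Rv_apply]
  exact (measurable_dot_inv hH (hg a) (hg b)).const_mul c

/-- index set of the Gaussian variables: the matrix and the leads -/
abbrev KK (n t : ℕ) : Type := (Fin n × Fin n) ⊕ (Fin t × Fin n)

/-- the random matrix `R` of the leads -/
noncomputable def RR (c : ℝ) (n t : ℕ) (x : KK n t → ℝ) : Matrix (Fin t) (Fin t) ℝ :=
  Rv c (Hm fun p => x (Sum.inl p)) (fun a i => x (Sum.inr (a, i)))

theorem RR_isSymm (c : ℝ) (n t : ℕ) (x : KK n t → ℝ) : (RR c n t x).IsSymm :=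
  Rv_isSymm c (Hm_isSymm _) _

theorem measurable_RR (c : ℝ) (n t : ℕ) (a b : Fin t) :
    Measurable fun x : KK n t → ℝ => RR c n t x a b := by
  apply measurable_Rv
  · intro i j
    exact measurable_Hm (fun p => measurable_pi_apply _) i j
  · intro a i
    exact measurable_pi_apply _

omit [DecidableEq ν] in
/-- conjugation of the Gaussian matrix -/
theorem Hm_conj (Q : Matrix ν ν ℝ) (G : ν × ν → ℝ) :
    Hm (fun p => ∑ q : ν × ν, Q p.1 q.1 * Q p.2 q.2 * G q) = Q * Hm G * Qᵀ := by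
  ext i j
  rw [Hm_apply, mul_apply]
  have h1 : ∀ l, (Q * Hm G) i l * Qᵀ l j
      = ∑ k, (Q i k * Q j l * G (k, l) + Q i k * Q j l * G (l, k)) / √2 := by
    intro l
    rw [mul_apply, Finset.sum_mul]
    apply Finset.sum_congr rfl
    intro k _
    rw [Hm_apply, transpose_apply]; ring
  rw [Finset.sum_congr rfl (fun l _ => h1 l)]
  simp only [Fintype.sum_prod_type, ← Finset.sum_div, Finset.sum_add_distrib]
  congr 1
  congr 1
  · exact Finset.sum_comm
  · apply Finset.sum_congr rfl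
    intro k _
    apply Finset.sum_congr rfl
    intro l _
    ring

/-- the orthogonal map on the Gaussian variables -/
theorem gam_rot [DecidableEq ι] {O : Matrix ι ι ℝ} {Q : Matrix ν ν ℝ} (hO : O * Oᵀ = 1)
    (hQ : Q * Qᵀ = 1) :
    (gam ((ν × ν) ⊕ (ι × ν))).map (fun x => Sum.elim
      (fun p => ∑ q : ν × ν, Q p.1 q.1 * Q p.2 q.2 * x (Sum.inl q))
      (fun p => ∑ q : ι × ν, O p.1 q.1 * Q p.2 q.2 * x (Sum.inr q)))
      = gam ((ν × ν) ⊕ (ι × ν)) := by
  have h := gam_map (κ := (ν × ν) ⊕ (ι × ν)) (κ' := (ν × ν) ⊕ (ι × ν))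
    (Matrix.fromBlocks (Q ⊗ₖ Q) 0 0 (O ⊗ₖ Q)) (by
      have e1 : (Q ⊗ₖ Q) * (Q ⊗ₖ Q)ᵀ = 1 := by
        rw [← kroneckerMap_transpose, ← mul_kronecker_mul, hQ]
        simp
      have e2 : (O ⊗ₖ Q) * (O ⊗ₖ Q)ᵀ = 1 := by
        rw [← kroneckerMap_transpose, ← mul_kronecker_mul, hO, hQ]
        simp
      rw [fromBlocks_transpose, fromBlocks_multiply, e1, e2]
      simp [fromBlocks_one])
  convert h using 2
  ext x p
  rcases p with p | p
  · simp [mulVec, dotProduct, Fintype.sum_sum_type, kroneckerMap_apply]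
  · simp [mulVec, dotProduct, Fintype.sum_sum_type, kroneckerMap_apply]

omit [DecidableEq ν] in
theorem measurable_rot (O : Matrix ι ι ℝ) (Q : Matrix ν ν ℝ) :
    Measurable (fun x : (ν × ν) ⊕ (ι × ν) → ℝ => (Sum.elim
      (fun p => ∑ q : ν × ν, Q p.1 q.1 * Q p.2 q.2 * x (Sum.inl q))
      (fun p => ∑ q : ι × ν, O p.1 q.1 * Q p.2 q.2 * x (Sum.inr q)) : (ν × ν) ⊕ (ι × ν) → ℝ)) := by
  apply measurable_pi_lambda
  rintro (p | p)
  · simp only [Sum.elim_inl]; fun_prop
  · simp only [Sum.elim_inr]; fun_prop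

/-- invariance of the law of `R` under rotations of the leads -/
theorem law_OInv (c : ℝ) (n t : ℕ) {O : Matrix (Fin t) (Fin t) ℝ} (hO : O * Oᵀ = 1)
    {Φ : Matrix (Fin t) (Fin t) ℝ → ℝ} (hΦ : MM Φ) :
    ∫ x, Φ (RR c n t x) ∂(gam (KK n t)) = ∫ x, Φ (O * RR c n t x * Oᵀ) ∂(gam (KK n t)) := by
  have hm : Measurable fun x : KK n t → ℝ => Φ (RR c n t x) := hΦ.comp (measurable_RR c n t)
  rw [integral_gam_map (measurable_rot O (1 : Matrix (Fin n) (Fin n) ℝ))
    (gam_rot hO (by simp)) hm]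
  congr 1
  ext x
  congr 1
  ext a b
  have hG : Hm (fun p => ∑ q : Fin n × Fin n, (1 : Matrix (Fin n) (Fin n) ℝ) p.1 q.1
      * (1 : Matrix (Fin n) (Fin n) ℝ) p.2 q.2 * x (Sum.inl q)) = Hm (fun p => x (Sum.inl p)) := by
    rw [Hm_conj]; simp
  have hg : ∀ (a : Fin t), (fun i => ∑ q : Fin t × Fin n, O a q.1
      * (1 : Matrix (Fin n) (Fin n) ℝ) i q.2 * x (Sum.inr q))
      = ∑ a', O a a' • (fun i => x (Sum.inr (a', i))) := by
    intro a
    ext i
    rw [Fintype.sum_prod_type, Finset.sum_apply]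
    apply Finset.sum_congr rfl
    intro a' _
    simp [Matrix.one_apply]
  unfold RR
  simp only [Sum.elim_inl, Sum.elim_inr]
  rw [hG, Rv_apply, hg, hg, mul_apply, mulVec_sum, dotProduct_sum, Finset.mul_sum]
  apply Finset.sum_congr rfl
  intro b' _
  rw [sum_dotProduct, Finset.mul_sum, mul_apply, Finset.sum_mul]
  apply Finset.sum_congr rfl
  intro a' _
  rw [mulVec_smul, dotProduct_smul, smul_dotProduct, Rv_apply, transpose_apply]
  simp only [smul_eq_mul]
  ring

end Vale.Agent.P156.H9
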