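import Vale.Agent.P156.H9.Law

/-!
P156, GOE side (H2): reduction of the law of `R` at size `n+1` to the law at size `n`.
-/

namespace Vale.Agent.P156.H9

open MeasureTheory ProbabilityTheory Matrix

/-- conditioning on the first lead and rotating it to the first axis -/
theorem law_rot (c : ℝ) (n s : ℕ) {Φ : Matrix (Fin (s + 1)) (Fin (s + 1)) ℝ → ℝ} (hΦ : MM Φ)
    {M : ℝ} (hM : ∀ R, |Φ R| ≤ M) :
    ∫ x, Φ (RR c (n + 1) (s + 1) x) ∂(gam (KK (n + 1) (s + 1)))
      = ∫ x, ∫ y, Φ (Rv c (Hm fun p => y (Sum.inl p))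
          (Fin.cons (Fin.cons (√(∑ i, x i ^ 2)) (fun _ => 0)) (fun a i => y (Sum.inr (a, i)))))
        ∂(gam (KK (n + 1) s)) ∂(gam (Fin (n + 1))) := by
  -- reindexing
  set f : KK (n + 1) (s + 1) → Fin (n + 1) ⊕ KK (n + 1) s := Sum.elim (fun p => Sum.inr (Sum.inl p))
    (fun q => (Fin.cases (Sum.inl q.2) (fun a => Sum.inr (Sum.inr (a, q.2))) q.1 :
      Fin (n + 1) ⊕ KK (n + 1) s)) with hf
  have hf0 : ∀ i, f (Sum.inr (0, i)) = Sum.inl i := fun i => rfl
  have hfs : ∀ a i, f (Sum.inr (Fin.succ a, i)) = Sum.inr (Sum.inr (a, i)) := fun a i => rfl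
  have hfl : ∀ p, f (Sum.inl p) = Sum.inr (Sum.inl p) := fun p => rfl
  have hfi : Function.Injective f := by
    rintro (p | ⟨a, i⟩) (p' | ⟨a', i'⟩) h
    · rw [hfl, hfl] at h
      simpa using h
    · rw [hfl] at h
      revert h
      refine Fin.cases ?_ (fun a' => ?_) a'
      · rw [hf0]; simp
      · rw [hfs]; simp
    · rw [hfl] at h
      revert h
      refine Fin.cases ?_ (fun a => ?_) a
      · rw [hf0]; simp
      · rw [hfs]; simp
    · revert h
      refine Fin.cases ?_ (fun a => ?_) a <;> refine Fin.cases ?_ (fun a' => ?_) a'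
      · rw [hf0, hf0]; simp
      · rw [hf0, hfs]; simp
      · rw [hf0, hfs]; simp
      · rw [hfs, hfs]; simp
  have hT : Measurable (fun (x : Fin (n + 1) ⊕ KK (n + 1) s → ℝ) r => x (f r)) := by fun_prop
  rw [integral_gam_map hT (gam_comp f hfi) (hΦ.comp (measurable_RR c _ _))]
  -- Fubini
  set F : (Fin (n + 1) → ℝ) → (KK (n + 1) s → ℝ) → ℝ := fun x y =>
    Φ (Rv c (Hm fun p => y (Sum.inl p)) (Fin.cons x (fun a i => y (Sum.inr (a, i))))) with hF
  have hFm : Measurable (fun p : (Fin (n + 1) → ℝ) × (KK (n + 1) s → ℝ) => F p.1 p.2) := by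
    apply hΦ.comp
    apply measurable_Rv
    · intro i j
      exact measurable_Hm (fun p => (measurable_pi_apply _).comp measurable_snd) i j
    · intro a i
      refine Fin.cases ?_ (fun a => ?_) a
      · simp only [Fin.cons_zero]
        exact (measurable_pi_apply i).comp measurable_fst
      · simp only [Fin.cons_succ]
        exact (measurable_pi_apply (Sum.inr (a, i) : KK (n + 1) s)).comp measurable_snd
  have e1 : ∀ x : Fin (n + 1) ⊕ KK (n + 1) s → ℝ, Φ (RR c (n + 1) (s + 1) fun r => x (f r))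
      = F (fun k => x (Sum.inl k)) (fun k => x (Sum.inr k)) := by
    intro x
    rw [hF]
    unfold RR
    congr 2
    ext a i
    refine Fin.cases ?_ (fun a => ?_) a
    · rw [Fin.cons_zero]; beta_reduce; rw [hf0]
    · rw [Fin.cons_succ]; beta_reduce; rw [hfs]
  simp only [e1]
  rw [integral_gam_sum hFm (fun x y => hM _)]
  congr 1
  ext x
  -- rotation
  obtain ⟨Q, hQ, hQx⟩ := householder x
  have hm1 : Measurable (fun y : KK (n + 1) s → ℝ => Φ (Rv c (Hm fun p => y (Sum.inl p))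
          (Fin.cons (Fin.cons (√(∑ i, x i ^ 2)) (fun _ => 0)) (fun a i => y (Sum.inr (a, i)))))) := by
    apply hΦ.comp
    apply measurable_Rv
    · intro i j
      exact measurable_Hm (fun p => measurable_pi_apply _) i j
    · intro a i
      refine Fin.cases ?_ (fun a => ?_) a
      · simp only [Fin.cons_zero]
        exact measurable_const
      · simp only [Fin.cons_succ]
        exact measurable_pi_apply _
  rw [integral_gam_map (measurable_rot (1 : Matrix (Fin s) (Fin s) ℝ) Q)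
    (gam_rot (by simp) hQ) hm1]
  congr 1
  ext y
  rw [hF]
  simp only [Sum.elim_inl, Sum.elim_inr]
  rw [Hm_conj, ← Rv_rot c (Hm fun p => y (Sum.inl p)) _ hQ]
  congr 2
  ext a i
  refine Fin.cases ?_ (fun a => ?_) a
  · simp only [Fin.cons_zero]
    rw [hQx]
  · simp only [Fin.cons_succ]
    rw [Fintype.sum_prod_type]
    simp [Matrix.one_apply, mulVec, dotProduct]

/-- the law of `R` at size `n` on the space of size `n+1` -/
theorem law_mid (c : ℝ) (n s : ℕ) {Φ : Matrix (Fin (s + 1)) (Fin (s + 1)) ℝ → ℝ} (hΦ : MM Φ) :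
    ∫ x, Φ (RR c n (s + 1) x) ∂(gam (KK n (s + 1)))
      = ∫ y, Φ (Rv c ((Hm fun p => y (Sum.inl p)).submatrix Fin.succ Fin.succ)
          (Fin.cons (fun j => (Hm fun p => y (Sum.inl p)) 0 j.succ)
            (fun a j => y (Sum.inr (a, j.succ))))) ∂(gam (KK (n + 1) s)) := by
  have h2 : √2 * √2 = 2 := Real.mul_self_sqrt (by norm_num)
  set p : KK n (s + 1) → KK (n + 1) s := Sum.elim (fun p => Sum.inl (p.1.succ, p.2.succ))
    (fun q => (Fin.cases (Sum.inl (0, q.2.succ)) (fun a => Sum.inr (a, q.2.succ)) q.1 :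
      KK (n + 1) s)) with hp
  set q : KK n (s + 1) → KK (n + 1) s := Sum.elim (fun p => Sum.inl (p.1.succ, p.2.succ))
    (fun q => (Fin.cases (Sum.inl (q.2.succ, 0)) (fun a => Sum.inr (a, q.2.succ)) q.1 :
      KK (n + 1) s)) with hq
  set α : KK n (s + 1) → ℝ := Sum.elim (fun _ => 1)
    (fun q => (Fin.cases ((√2)⁻¹) (fun _ => 1) q.1 : ℝ)) with hα
  set β : KK n (s + 1) → ℝ := Sum.elim (fun _ => 0)
    (fun q => (Fin.cases ((√2)⁻¹) (fun _ => 0) q.1 : ℝ)) with hβ
  have h := gam_two p q α β ?_ ?_ ?_ ?_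
  · rw [integral_gam_map (measurable_two p q α β) h (hΦ.comp (measurable_RR c _ _))]
    congr 1
    ext y
    unfold RR
    congr 2
    · ext i j
      rw [submatrix_apply, Hm_apply, Hm_apply]
      simp [hp, hq, hα, hβ]
    · ext a i
      refine Fin.cases ?_ (fun a => ?_) a
      · simp only [Fin.cons_zero]
        rw [Hm_apply]
        simp only [hp, hq, hα, hβ, Sum.elim_inr, Fin.cases_zero]
        field_simp
      · simp only [Fin.cons_succ]
        simp [hp, hq, hα, hβ]
  · rintro (r | ⟨a, i⟩)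
    · simp [hα, hβ]
    · refine Fin.cases ?_ (fun a => ?_) a
      · simp only [hα, hβ, Sum.elim_inr, Fin.cases_zero]
        rw [inv_pow, sq, h2]; norm_num
      · simp [hα, hβ]
  · rintro (⟨k, l⟩ | ⟨a, i⟩) (⟨k', l'⟩ | ⟨a', i'⟩)
    · simp [hp]
    · refine Fin.cases ?_ (fun a' => ?_) a'
      · intro h
        simp [hp] at h
      · simp [hp]
    · refine Fin.cases ?_ (fun a => ?_) a
      · intro h
        simp [hp] at h
        exact absurd h.1.symm (Fin.succ_ne_zero _)
      · simp [hp]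
    · refine Fin.cases ?_ (fun a => ?_) a <;> refine Fin.cases ?_ (fun a' => ?_) a' <;> simp [hp]
  · rintro (⟨k, l⟩ | ⟨a, i⟩) (⟨k', l'⟩ | ⟨a', i'⟩)
    · simp [hβ]
    · simp [hβ]
    · simp [hβ]
    · refine Fin.cases ?_ (fun a => ?_) a <;> refine Fin.cases ?_ (fun a' => ?_) a' <;> simp [hβ, hq]
  · rintro (⟨k, l⟩ | ⟨a, i⟩) (⟨k', l'⟩ | ⟨a', i'⟩)
    · simp [hβ]
    · refine Fin.cases ?_ (fun a' => ?_) a'
      · intro _ h
        simp [hp, hq] at h
      · simp [hβ]
    · simp [hβ]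
    · refine Fin.cases ?_ (fun a' => ?_) a'
      · refine Fin.cases ?_ (fun a => ?_) a
        · intro _ h
          simp [hp, hq] at h
        · simp [hp, hq]
      · simp [hβ]

end Vale.Agent.P156.H9
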