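import Vale.Agent.P156.H9.Gauss
import Vale.Agent.P156.H9.GoeH
import Mathlib.Probability.Moments.Variance

/-!
P156, GOE side (H2): Chebyshev bounds for Gaussian coordinates and for the squared norm.
-/

namespace Vale.Agent.P156.H9

open MeasureTheory ProbabilityTheory Filter Topology
open scoped ENNReal NNReal

variable {κ : Type*} [Fintype κ]

theorem gauss_tail {a : ℝ} (ha : 0 < a) :
    (gaussianReal 0 1).real {x | a ≤ |x|} ≤ 1 / a ^ 2 := by
  have h := meas_ge_le_variance_div_sq (μ := gaussianReal 0 1) (X := id)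
    (memLp_id_gaussianReal 2) ha
  have h2 : ∫ x, id x ∂(gaussianReal 0 1) = 0 := by simp
  rw [h2, variance_id_gaussianReal] at h
  simp only [id, sub_zero] at h
  have h3 := ENNReal.toReal_mono (by simp) h
  rw [ENNReal.toReal_ofReal (by positivity)] at h3
  simpa [Measure.real] using h3

theorem gam_tail (k : κ) {a : ℝ} (ha : 0 < a) :
    (gam κ).real {x | a ≤ |x k|} ≤ 1 / a ^ 2 := by
  have h : (gam κ).real {x | a ≤ |x k|} = (gaussianReal 0 1).real {x | a ≤ |x|} := by
    rw [← gam_coord (κ := κ) k, Measure.real, Measure.real, Measure.map_apply (measurable_pi_apply k)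
      (measurableSet_le measurable_const (by fun_prop))]
    rfl
  rw [h]
  exact gauss_tail ha

/-- the variance of the square of a standard Gaussian -/
noncomputable def vsq : ℝ := Var[fun x : ℝ => x ^ 2; gaussianReal 0 1]

theorem memLp_sq : MemLp (fun x : ℝ => x ^ 2) 2 (gaussianReal 0 1) := by
  have h := (memLp_id_gaussianReal (μ := 0) (v := 1) 4).norm_rpow_div (q := 2)
  have e2 : ((2 : ℝ≥0∞).toReal) = 2 := by norm_num
  have e3 : (((4 : ℝ≥0) : ℝ≥0∞) / 2) = 2 := by
    have h1 : ((4 : ℝ≥0) : ℝ≥0∞) = 2 * 2 := by norm_num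
    rw [h1, ENNReal.mul_div_cancel_right (by norm_num) (by norm_num)]
  rw [e3, e2] at h
  convert h using 2 with x
  simp

theorem integral_sq_gauss : ∫ x : ℝ, x ^ 2 ∂(gaussianReal 0 1) = 1 := by
  have h := variance_id_gaussianReal (μ := 0) (v := 1)
  rw [variance_eq_sub (memLp_id_gaussianReal 2)] at h
  simpa using h

theorem norm_tail (n : ℕ) {a : ℝ} (ha : 0 < a) :
    (gam (Fin (n + 1))).real {x | a * (n + 1) ≤ |∑ i, x i ^ 2 - (n + 1)|}
      ≤ vsq / (a ^ 2 * (n + 1)) := by
  set X : (Fin (n + 1) → ℝ) → ℝ := ∑ i, fun x : Fin (n + 1) → ℝ => x i ^ 2 with hX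
  have hXe : ∀ x, X x = ∑ i, x i ^ 2 := by intro x; rw [hX, Finset.sum_apply]
  have hv : Var[X; gam (Fin (n + 1))] = (n + 1) * vsq := by
    have := variance_sum_pi (ι := Fin (n + 1)) (Ω := fun _ => ℝ) (μ := fun _ => gaussianReal 0 1)
      (X := fun _ x => x ^ 2) (fun i => memLp_sq)
    rw [hX, gam]
    rw [this]
    simp [vsq]
  have hmem : MemLp X 2 (gam (Fin (n + 1))) := by
    rw [hX]
    apply memLp_finsetSum'
    intro i _
    have := memLp_sq
    rw [← gam_coord (κ := Fin (n + 1)) i] at this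
    exact (memLp_map_measure_iff this.1 (measurable_pi_apply i).aemeasurable).1 this
  have hE : ∫ x, X x ∂(gam (Fin (n + 1))) = n + 1 := by
    simp only [hXe]
    rw [integral_finsetSum]
    · have : ∀ i : Fin (n + 1), ∫ x : Fin (n + 1) → ℝ, x i ^ 2 ∂(gam (Fin (n + 1))) = 1 := by
        intro i
        rw [← integral_sq_gauss, ← gam_coord (κ := Fin (n + 1)) i,
          integral_map (measurable_pi_apply i).aemeasurable (by fun_prop)]
      rw [Finset.sum_congr rfl (fun i _ => this i)]
      simp
    · intro i _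
      have := (memLp_sq.integrable (by norm_num))
      rw [← gam_coord (κ := Fin (n + 1)) i] at this
      exact (integrable_map_measure this.1 (measurable_pi_apply i).aemeasurable).1 this
  have hpos : 0 < a * (n + 1) := by positivity
  have h := meas_ge_le_variance_div_sq hmem hpos
  rw [hE, hv] at h
  have h3 := ENNReal.toReal_mono (by simp) h
  have hvs : 0 ≤ vsq := variance_nonneg _ _
  rw [ENNReal.toReal_ofReal (by positivity)] at h3
  have e : ((n : ℝ) + 1) * vsq / (a * (n + 1)) ^ 2 = vsq / (a ^ 2 * (n + 1)) := by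
    field_simp
  rw [e] at h3
  simpa only [Measure.real, hXe] using h3

end Vale.Agent.P156.H9
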