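import Vale.Agent.P156.H9.Law2
import Vale.Agent.P156.H9.Tail

/-!
P156, GOE side (H2): the Cayley matrix of the leads at size `n+1` and at size `n`.
-/

namespace Vale.Agent.P156.H9

open MeasureTheory ProbabilityTheory Matrix Filter Topology

/-- normalization of the leads -/
noncomputable def cc (n : ℕ) : ℝ := (√(n : ℝ))⁻¹

theorem cc_pos {n : ℕ} (hn : 0 < n) : 0 < cc n := by
  unfold cc
  have : (0 : ℝ) < n := by exact_mod_cast hn
  positivity

theorem tendsto_cc : Tendsto cc atTop (𝓝 0) := by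
  unfold cc
  apply Tendsto.inv_tendsto_atTop
  exact Real.tendsto_sqrt_atTop.comp tendsto_natCast_atTop_atTop

/-- `√((n+1)/n)` -/
noncomputable def kk (n : ℕ) : ℝ := √(((n : ℝ) + 1) / n)

theorem tendsto_kk : Tendsto kk atTop (𝓝 1) := by
  have h1 : Tendsto (fun n : ℕ => ((n : ℝ) + 1) / n) atTop (𝓝 1) := by
    have h2 : Tendsto (fun n : ℕ => 1 + 1 / (n : ℝ)) atTop (𝓝 (1 + 0)) :=
      tendsto_const_nhds.add tendsto_one_div_atTop_nhds_zero_nat
    rw [add_zero] at h2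
    apply h2.congr'
    filter_upwards [eventually_gt_atTop 0] with n hn
    have : (n : ℝ) ≠ 0 := by exact_mod_cast hn.ne'
    field_simp
  have h3 := (Real.continuous_sqrt.tendsto 1).comp h1
  rw [Real.sqrt_one] at h3
  exact h3

theorem cc_mul {n : ℕ} (hn : 0 < n) : cc (n + 1) * cc n = kk n / (n + 1) := by
  unfold cc kk
  have h0 : (0 : ℝ) < n := by exact_mod_cast hn
  rw [Real.sqrt_div (by positivity)]
  push_cast
  have h1 : √((n : ℝ) + 1) * √((n : ℝ) + 1) = n + 1 := Real.mul_self_sqrt (by positivity)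
  have h2 : √((n : ℝ) + 1) ≠ 0 := by positivity
  have h3 : √(n : ℝ) ≠ 0 := by positivity
  field_simp
  rw [sq, h1]

theorem cc_div {n : ℕ} (hn : 0 < n) : cc (n + 1) / cc n = (kk n)⁻¹ := by
  unfold cc kk
  have h0 : (0 : ℝ) < n := by exact_mod_cast hn
  rw [Real.sqrt_div (by positivity)]
  push_cast
  have h2 : √((n : ℝ) + 1) ≠ 0 := by positivity
  have h3 : √(n : ℝ) ≠ 0 := by positivity
  field_simp

/-- `S ↦ D S D` with `D = diag(-i, 1, .., 1)` -/
noncomputable def DD {s : ℕ} (S : Matrix (Fin (s + 1)) (Fin (s + 1)) ℂ) :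
    Matrix (Fin (s + 1)) (Fin (s + 1)) ℂ := Dm 0 * S * Dm 0

/-- pointwise comparison of the two Cayley matrices -/
theorem cay_compare {n s : ℕ} {H' : Matrix (Fin (n + 1)) (Fin (n + 1)) ℝ} (hs : H'.IsSymm)
    (hu : IsUnit (H'.submatrix Fin.succ Fin.succ)) (h0 : sig H' ≠ 0) {c c' : ℝ} (hc : 0 < c)
    (hc' : 0 < c') (ρ : ℝ) (h : Fin s → Fin (n + 1) → ℝ) {e : ℝ} (he : e ≤ 1 / 2)
    (h1 : |√(c' * c) * ρ - 1| ≤ e) (h2 : |√(c' / c) - 1| ≤ e)
    (h3 : ∀ a b, |Pm c (H' 0 0) (fun a => h a 0) a b| ≤ e) (a b : Fin (s + 1)) :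
    ‖cay (cx (Rv c' H' (Fin.cons (Fin.cons ρ (fun _ => 0)) h))) a b
      - DD (cay (cx (Rv c (H'.submatrix Fin.succ Fin.succ)
            (Fin.cons (fun j => H' 0 j.succ) (fun a j => h a j.succ))))) a b‖
      ≤ (20 * ((s + 1 : ℕ) + 1) + 2 * ((s + 1 : ℕ) : ℝ) ^ 2) * e := by
  set r := Rv c (H'.submatrix Fin.succ Fin.succ)
            (Fin.cons (fun j => H' 0 j.succ) (fun a j => h a j.succ)) with hr
  set P := Pm c (H' 0 0) (fun a => h a 0) with hP
  have hrs : r.IsSymm := Rv_isSymm c (hs.submatrix _) _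
  have hPs : P.IsSymm := Pm_isSymm _ _ _
  have hrP : (r + P).IsSymm := hrs.add hPs
  have hts := tau_symm 0 hrP
  have hne : (r + P) 0 0 ≠ 0 := rt00_ne h0 hc h
  set x : Fin (s + 1) → ℝ := Fin.cons (√(c' * c) * ρ) (fun _ => √(c' / c)) with hx
  have hxe : ∀ i, |x i - 1| ≤ e := by
    intro i
    refine Fin.cases ?_ (fun i => ?_) i
    · exact h1
    · exact h2
  have hA : (Rv c' H' (Fin.cons (Fin.cons ρ (fun _ => 0)) h) : Matrix (Fin (s+1)) (Fin (s+1)) ℝ).IsSymm :=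
    Rv_isSymm c' hs _
  -- first comparison
  have k1 := norm_cay_congr_le (cx_isHermitian hts) he hxe (cx_isHermitian hA) (by
    intro i j
    rw [cx_apply, cx_apply, border_tau hs hu h0 hc hc' ρ h i j]
    push_cast
    ring) a b
  -- second comparison
  have k2 := norm_cay_sub_le (cx_isHermitian hrs) (cx_isHermitian hrP) (e := e) (by
    intro i j
    rw [cx_apply, cx_apply, ← Complex.ofReal_sub, Complex.norm_real, Matrix.add_apply,
      add_sub_cancel_left, Real.norm_eq_abs]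
    exact h3 i j) a b
  have kt : cay (cx (tau 0 (r + P))) = DD (cay (cx (r + P))) := cay_tau 0 hrP hne
  rw [kt] at k1
  have k3 : ‖DD (cay (cx (r + P))) a b - DD (cay (cx r)) a b‖
      = ‖cay (cx (r + P)) a b - cay (cx r) a b‖ := by
    rw [DD, DD, mul_Dm_apply, mul_Dm_apply, Dm_mul_apply, Dm_mul_apply, ← sub_mul, ← mul_sub, norm_mul,
      norm_mul]
    have : ∀ i : Fin (s + 1), ‖(if i = 0 then -Complex.I else 1 : ℂ)‖ = 1 := by
      intro i; split_ifs <;> simp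
    rw [this, this, one_mul, mul_one]
  rw [Fintype.card_fin] at k1 k2
  calc _ ≤ ‖cay (cx (Rv c' H' (Fin.cons (Fin.cons ρ (fun _ => 0)) h))) a b
        - DD (cay (cx (r + P))) a b‖
        + ‖DD (cay (cx (r + P))) a b - DD (cay (cx r)) a b‖ :=
        norm_sub_le_norm_sub_add_norm_sub _ _ _
    _ ≤ 20 * ((s + 1 : ℕ) + 1) * e + 2 * ((s + 1 : ℕ) : ℝ) ^ 2 * e := by
        rw [k3]; exact add_le_add k1 k2
    _ = _ := by ring

end Vale.Agent.P156.H9
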