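import Vale.Agent.P156.H9.Lim

/-!
P156, GOE side (H2): the law of the Cayley matrix at size `n+1` is asymptotically the image of
the law at size `n` under `S ↦ D S D`.
-/

namespace Vale.Agent.P156.H9

open MeasureTheory ProbabilityTheory Matrix Filter Topology

/-- entrywise measurability of a function of complex matrices -/
def MC {ι : Type*} (F : Matrix ι ι ℂ → ℝ) : Prop :=
  Measurable fun r : ι → ι → ℂ => F (Matrix.of r)

theorem MC.comp {ι : Type*} {F : Matrix ι ι ℂ → ℝ} (hF : MC F) {Ω : Type*} [MeasurableSpace Ω]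
    {S : Ω → Matrix ι ι ℂ} (hS : ∀ i j, Measurable fun ω => S ω i j) :
    Measurable fun ω => F (S ω) := by
  have h : Measurable (fun ω => (fun i j => S ω i j : ι → ι → ℂ)) :=
    measurable_pi_lambda _ fun i => measurable_pi_lambda _ fun j => hS i j
  exact Measurable.comp hF h

theorem measurable_cay {ι : Type*} [Fintype ι] [DecidableEq ι] {Ω : Type*} [MeasurableSpace Ω]
    {A : Ω → Matrix ι ι ℂ} (hA : ∀ i j, Measurable fun ω => A ω i j) (i j : ι) :
    Measurable fun ω => cay (A ω) i j := by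
  have h1 : ∀ i j, Measurable fun ω => pI (A ω) i j := by
    intro i j
    simp only [pI, Matrix.add_apply]
    exact (hA i j).add measurable_const
  have h2 : ∀ i j, Measurable fun ω => mI (A ω) i j := by
    intro i j
    simp only [mI, Matrix.sub_apply]
    exact (hA i j).sub measurable_const
  have h3 : ∀ i j, Measurable fun ω => rI (A ω) i j := fun i j => measurable_inv h1 i j
  simp only [cay, mul_apply]
  exact Finset.measurable_sum _ fun k _ => (h2 i k).mul (h3 k j)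

theorem measurable_cx {ι : Type*} {Ω : Type*} [MeasurableSpace Ω]
    {R : Ω → Matrix ι ι ℝ} (hR : ∀ i j, Measurable fun ω => R ω i j) (i j : ι) :
    Measurable fun ω => cx (R ω) i j := by
  simp only [cx_apply]
  exact Complex.measurable_ofReal.comp (hR i j)

theorem measurable_DD {s : ℕ} {Ω : Type*} [MeasurableSpace Ω]
    {S : Ω → Matrix (Fin (s + 1)) (Fin (s + 1)) ℂ} (hS : ∀ i j, Measurable fun ω => S ω i j)
    (i j : Fin (s + 1)) : Measurable fun ω => DD (S ω) i j := by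
  simp only [DD, mul_Dm_apply, Dm_mul_apply]
  exact ((hS i j).const_mul _).mul_const _

theorem mm_cay {ι : Type*} [Fintype ι] [DecidableEq ι] {F : Matrix ι ι ℂ → ℝ} (hF : MC F) :
    MM fun R => F (cay (cx R)) := by
  apply hF.comp
  intro i j
  apply measurable_cay
  intro i j
  apply measurable_cx
  intro i j
  exact (measurable_pi_apply j).comp (measurable_pi_apply i)

theorem mm_DD_cay {s : ℕ} {F : Matrix (Fin (s + 1)) (Fin (s + 1)) ℂ → ℝ} (hF : MC F) :
    MM fun R => F (DD (cay (cx R))) := by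
  apply hF.comp
  intro i j
  apply measurable_DD
  intro i j
  apply measurable_cay
  intro i j
  apply measurable_cx
  intro i j
  exact (measurable_pi_apply j).comp (measurable_pi_apply i)

theorem Dm_mem {ι : Type*} [Fintype ι] [DecidableEq ι] (a : ι) :
    Dm a ∈ Matrix.unitaryGroup ι ℂ := by
  rw [Matrix.mem_unitaryGroup_iff, star_eq_conjTranspose, Dm, diagonal_conjTranspose,
    diagonal_mul_diagonal, ← diagonal_one]
  congr 1
  ext i
  simp only [Pi.star_apply]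
  split_ifs <;> simp

theorem DD_mem {s : ℕ} {S : Matrix (Fin (s + 1)) (Fin (s + 1)) ℂ}
    (hS : S ∈ Matrix.unitaryGroup (Fin (s + 1)) ℂ ∧ Sᵀ = S) :
    DD S ∈ Matrix.unitaryGroup (Fin (s + 1)) ℂ ∧ (DD S)ᵀ = DD S := by
  refine ⟨mul_mem (mul_mem (Dm_mem 0) hS.1) (Dm_mem 0), ?_⟩
  rw [DD, transpose_mul, transpose_mul, Dm_transpose, hS.2, mul_assoc]

/-- uniform continuity on symmetric unitary matrices, entrywise -/
def UC {ι : Type*} [Fintype ι] [DecidableEq ι] (F : Matrix ι ι ℂ → ℝ) : Prop :=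
  ∀ ε > 0, ∃ δ > 0, ∀ S S' : Matrix ι ι ℂ, (S ∈ Matrix.unitaryGroup ι ℂ ∧ Sᵀ = S) →
    (S' ∈ Matrix.unitaryGroup ι ℂ ∧ S'ᵀ = S') → (∀ i j, ‖S i j - S' i j‖ ≤ δ) → |F S - F S'| ≤ ε

theorem abs_sub_one_le {y : ℝ} (hy : 0 ≤ y) : |y - 1| ≤ |y ^ 2 - 1| := by
  have : y ^ 2 - 1 = (y - 1) * (y + 1) := by ring
  rw [this, abs_mul]
  have h2 : 1 ≤ |y + 1| := by rw [abs_of_nonneg (by linarith)]; linarith
  calc |y - 1| = |y - 1| * 1 := (mul_one _).symm
    _ ≤ |y - 1| * |y + 1| := mul_le_mul_of_nonneg_left h2 (abs_nonneg _)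

/-- the matrix of the leads at size `n+1` after rotation of the first lead -/
noncomputable def Amat (n s : ℕ) (x : Fin (n + 1) → ℝ) (y : KK (n + 1) s → ℝ) :
    Matrix (Fin (s + 1)) (Fin (s + 1)) ℝ :=
  Rv (cc (n + 1)) (Hm fun p => y (Sum.inl p))
      (Fin.cons (Fin.cons (√(∑ i, x i ^ 2)) (fun _ => 0)) (fun a i => y (Sum.inr (a, i))))

/-- the matrix of the leads at size `n` -/
noncomputable def Bmat (n s : ℕ) (y : KK (n + 1) s → ℝ) : Matrix (Fin (s + 1)) (Fin (s + 1)) ℝ :=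
  Rv (cc n) ((Hm fun p => y (Sum.inl p)).submatrix Fin.succ Fin.succ)
          (Fin.cons (fun j => (Hm fun p => y (Sum.inl p)) 0 j.succ)
            (fun a j => y (Sum.inr (a, j.succ))))

theorem measurable_Amat (n s : ℕ) (i j : Fin (s + 1)) :
    Measurable (fun p : (Fin (n + 1) → ℝ) × (KK (n + 1) s → ℝ) => Amat n s p.1 p.2 i j) := by
  apply measurable_Rv
  · intro i j
    exact measurable_Hm (fun p => (measurable_pi_apply _).comp measurable_snd) i j
  · intro a i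
    refine Fin.cases ?_ (fun a => ?_) a
    · simp only [Fin.cons_zero]
      refine Fin.cases ?_ (fun i => ?_) i
      · simp only [Fin.cons_zero]
        apply Real.continuous_sqrt.measurable.comp
        apply Finset.measurable_sum
        intro i _
        exact ((measurable_pi_apply i).comp measurable_fst).pow_const 2
      · simp only [Fin.cons_succ]
        exact measurable_const
    · simp only [Fin.cons_succ]
      exact (measurable_pi_apply (Sum.inr (a, i) : KK (n + 1) s)).comp measurable_snd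

theorem measurable_Bmat (n s : ℕ) (i j : Fin (s + 1)) :
    Measurable (fun y : KK (n + 1) s → ℝ => Bmat n s y i j) := by
  have hH : ∀ i j, Measurable (fun y : KK (n + 1) s → ℝ => Hm (fun p => y (Sum.inl p)) i j) :=
    fun i j => measurable_Hm (fun p => measurable_pi_apply _) i j
  apply measurable_Rv
  · intro i j
    exact hH _ _
  · intro a i
    refine Fin.cases ?_ (fun a => ?_) a
    · simp only [Fin.cons_zero]
      exact hH _ _
    · simp only [Fin.cons_succ]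
      exact measurable_pi_apply _

theorem Amat_isSymm (n s : ℕ) (x : Fin (n + 1) → ℝ) (y : KK (n + 1) s → ℝ) :
    (Amat n s x y).IsSymm := Rv_isSymm _ (Hm_isSymm _) _

theorem Bmat_isSymm (n s : ℕ) (y : KK (n + 1) s → ℝ) : (Bmat n s y).IsSymm :=
  Rv_isSymm _ ((Hm_isSymm _).submatrix _) _

theorem cay_cx_mem {ι : Type*} [Fintype ι] [DecidableEq ι] {R : Matrix ι ι ℝ} (hR : R.IsSymm) :
    cay (cx R) ∈ Matrix.unitaryGroup ι ℂ ∧ (cay (cx R))ᵀ = cay (cx R) :=
  ⟨cay_mem_unitary (cx_isHermitian hR),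
    cay_transpose (cx_isHermitian hR) (by rw [cx_transpose, hR.eq])⟩

/-- bad set for the matrix entries -/
def B1 (n s : ℕ) (a : ℝ) : Set (KK (n + 1) s → ℝ) := {y | a ≤ |y (Sum.inl (0, 0))|} ∪
    ⋃ i : Fin s, {y | a ≤ |y (Sum.inr (i, 0))|}

/-- bad set for the norm of the lead -/
def B2 (n : ℕ) (e : ℝ) : Set (Fin (n + 1) → ℝ) :=
  {x | e / 4 * (n + 1) ≤ |∑ i, x i ^ 2 - (n + 1)|}

theorem measurableSet_B1 (n s : ℕ) (a : ℝ) : MeasurableSet (B1 n s a) := by
  apply MeasurableSet.union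
  · exact measurableSet_le measurable_const (by fun_prop)
  · apply MeasurableSet.iUnion
    intro i
    exact measurableSet_le measurable_const (by fun_prop)

theorem measurableSet_B2 (n : ℕ) (e : ℝ) : MeasurableSet (B2 n e) := by
  apply measurableSet_le measurable_const
  fun_prop

theorem gam_B1 (n s : ℕ) {a : ℝ} (ha : 0 < a) :
    (gam (KK (n + 1) s)).real (B1 n s a) ≤ (s + 1) * (1 / a ^ 2) := by
  calc (gam (KK (n + 1) s)).real (B1 n s a)
      ≤ (gam (KK (n + 1) s)).real {y | a ≤ |y (Sum.inl (0, 0))|}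
        + (gam (KK (n + 1) s)).real (⋃ i : Fin s, {y | a ≤ |y (Sum.inr (i, 0))|}) :=
        measureReal_union_le _ _
    _ ≤ 1 / a ^ 2 + ∑ i : Fin s, (gam (KK (n + 1) s)).real {y | a ≤ |y (Sum.inr (i, 0))|} := by
        apply add_le_add (gam_tail _ ha)
        exact measureReal_iUnion_fintype_le _
    _ ≤ 1 / a ^ 2 + ∑ i : Fin s, 1 / a ^ 2 := by
        gcongr
        exact gam_tail _ ha
    _ = _ := by simp; ring

theorem gam_B2 (n : ℕ) {e : ℝ} (he : 0 < e) :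
    (gam (Fin (n + 1))).real (B2 n e) ≤ vsq / ((e / 4) ^ 2 * (n + 1)) :=
  norm_tail n (by positivity)

theorem ae_good (n s : ℕ) : ∀ᵐ y ∂(gam (KK (n + 1) s)),
      IsUnit ((Hm fun p => y (Sum.inl p)).submatrix (Fin.succ : Fin n → _) Fin.succ) ∧
        sig (Hm fun p => y (Sum.inl p)) ≠ 0 := by
  have hmap := gam_comp (κ := KK (n + 1) s) (κ' := Fin (n + 1) × Fin (n + 1)) Sum.inl
    Sum.inl_injective
  have hmeas : Measurable (fun (y : KK (n + 1) s → ℝ) (r : Fin (n + 1) × Fin (n + 1)) =>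
    y (Sum.inl r)) := by fun_prop
  have h2 := ae_sig_ne (n := n)
  rw [← hmap] at h2
  have h2' := ae_of_ae_map hmeas.aemeasurable h2
  have hmap3 := gam_comp (κ := KK (n + 1) s) (κ' := Fin n × Fin n)
    (fun p => Sum.inl (p.1.succ, p.2.succ)) (by
      intro p p' h
      have h := Sum.inl_injective h
      rw [Prod.ext_iff] at h ⊢
      exact ⟨Fin.succ_injective _ h.1, Fin.succ_injective _ h.2⟩)
  have hmeas3 : Measurable (fun (y : KK (n + 1) s → ℝ) (r : Fin n × Fin n) =>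
    y (Sum.inl (r.1.succ, r.2.succ))) := by fun_prop
  have h3 := ae_isUnit n
  rw [← hmap3] at h3
  have h3' := ae_of_ae_map hmeas3.aemeasurable h3
  filter_upwards [h2', h3'] with y k1 k2
  exact ⟨k2, k1⟩

theorem norm_lead_bound {n : ℕ} (hn : 0 < n) {e : ℝ} (hk1 : |kk n - 1| ≤ e / 4) (he : 0 < e)
    (hk2 : kk n ≤ 2) {x : Fin (n + 1) → ℝ} (hx : x ∉ B2 n e) :
    |√(cc (n + 1) * cc n) * √(∑ i, x i ^ 2) - 1| ≤ e := by
  have hc : 0 < cc n := cc_pos hn
  have hc' : 0 < cc (n + 1) := cc_pos (Nat.succ_pos n)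
  have hS0 : 0 ≤ ∑ i, x i ^ 2 := Finset.sum_nonneg fun i _ => sq_nonneg _
  have hy0 : 0 ≤ √(cc (n + 1) * cc n) * √(∑ i, x i ^ 2) := by positivity
  refine (abs_sub_one_le hy0).trans ?_
  have e1 : (√(cc (n + 1) * cc n) * √(∑ i, x i ^ 2)) ^ 2
      = kk n * ((∑ i, x i ^ 2) / (n + 1)) := by
    rw [mul_pow, Real.sq_sqrt (by positivity), Real.sq_sqrt hS0, cc_mul hn]
    ring
  rw [e1]
  have hn1 : (0 : ℝ) < n + 1 := by positivity
  have h5 : |(∑ i, x i ^ 2) / (n + 1) - 1| ≤ e / 4 := by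
    have h6 : ¬ (e / 4 * (n + 1) ≤ |∑ i, x i ^ 2 - (n + 1)|) := hx
    have h7 := (not_le.1 h6).le
    have h8 : (∑ i, x i ^ 2) / ((n : ℝ) + 1) - 1 = (∑ i, x i ^ 2 - (n + 1)) / (n + 1) := by
      field_simp
    rw [h8, abs_div, abs_of_pos hn1, div_le_iff₀ hn1]
    exact h7
  have h9 : kk n * ((∑ i, x i ^ 2) / (n + 1)) - 1
      = kk n * ((∑ i, x i ^ 2) / (n + 1) - 1) + (kk n - 1) := by ring
  rw [h9]
  have hkk0 : 0 ≤ kk n := Real.sqrt_nonneg _
  calc |kk n * ((∑ i, x i ^ 2) / (n + 1) - 1) + (kk n - 1)|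
      ≤ |kk n * ((∑ i, x i ^ 2) / (n + 1) - 1)| + |kk n - 1| := abs_add_le _ _
    _ ≤ 2 * (e / 4) + e / 4 := by
        rw [abs_mul, abs_of_nonneg hkk0]
        exact add_le_add (mul_le_mul hk2 h5 (abs_nonneg _) (by norm_num)) hk1
    _ ≤ e := by linarith

theorem Hm_diag {ν : Type*} (G : ν × ν → ℝ) (i : ν) : Hm G i i = √2 * G (i, i) := by
  rw [Hm_apply]
  have h2 : √2 * √2 = 2 := Real.mul_self_sqrt (by norm_num)
  field_simp
  rw [sq, h2]; ring

theorem Pm_bound {n s : ℕ} (hn : 0 < n) {e : ℝ} (he : 0 < e) {y : KK (n + 1) s → ℝ}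
    (hy : y ∉ B1 n s (e / (√2 * cc n))) (i j : Fin (s + 1)) :
    |Pm (cc n) ((Hm fun p => y (Sum.inl p)) 0 0) (fun a => y (Sum.inr (a, 0))) i j| ≤ e := by
  have hc : 0 < cc n := cc_pos hn
  set a := e / (√2 * cc n) with ha
  have h00 : |cc n * (Hm (fun p => y (Sum.inl p)) 0 0)| ≤ e := by
    have h6 : ¬ (a ≤ |y (Sum.inl (0, 0))|) := fun h => hy (Or.inl h)
    have h7 := (not_le.1 h6).le
    rw [Hm_diag, abs_mul, abs_mul, abs_of_pos hc, abs_of_pos sqrt2_pos]
    have h8 : cc n * (√2 * |y (Sum.inl (0, 0))|) = (√2 * cc n) * |y (Sum.inl (0, 0))| := by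
      ring
    rw [h8]
    have h9 : 0 < √2 * cc n := mul_pos sqrt2_pos hc
    calc (√2 * cc n) * |y (Sum.inl (0, 0))| ≤ (√2 * cc n) * a :=
          mul_le_mul_of_nonneg_left h7 h9.le
      _ = e := by rw [ha]; field_simp
  have h0s : ∀ k : Fin s, |cc n * y (Sum.inr (k, 0))| ≤ e := by
    intro k
    have h6 : ¬ (a ≤ |y (Sum.inr (k, 0))|) := fun h =>
      hy (Or.inr (Set.mem_iUnion.2 ⟨k, h⟩))
    have h7 := (not_le.1 h6).le
    rw [abs_mul, abs_of_pos hc]
    have h8 : (1 : ℝ) ≤ √2 := Real.one_le_sqrt.2 (by norm_num)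
    calc cc n * |y (Sum.inr (k, 0))| ≤ cc n * a := mul_le_mul_of_nonneg_left h7 hc.le
      _ = e / √2 := by rw [ha]; field_simp
      _ ≤ e := div_le_self he.le h8
  refine Fin.cases ?_ (fun i => ?_) i <;> refine Fin.cases ?_ (fun j => ?_) j
  · rw [Pm_00, neg_mul, abs_neg]; exact h00
  · rw [Pm_0s, neg_mul, abs_neg]; exact h0s j
  · rw [Pm_s0, neg_mul, abs_neg]; exact h0s i
  · rw [Pm_ss, abs_zero]; exact he.le

theorem good_bound {s n : ℕ} (hn : 0 < n) {F : Matrix (Fin (s + 1)) (Fin (s + 1)) ℂ → ℝ}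
    {ε δ e : ℝ} (he0 : 0 < e) (he : e ≤ 1 / 2)
    (heδ : (20 * ((s + 1 : ℕ) + 1) + 2 * ((s + 1 : ℕ) : ℝ) ^ 2) * e ≤ δ)
    (hUC : ∀ S S' : Matrix (Fin (s + 1)) (Fin (s + 1)) ℂ,
      (S ∈ Matrix.unitaryGroup (Fin (s + 1)) ℂ ∧ Sᵀ = S) →
      (S' ∈ Matrix.unitaryGroup (Fin (s + 1)) ℂ ∧ S'ᵀ = S') → (∀ i j, ‖S i j - S' i j‖ ≤ δ) →
      |F S - F S'| ≤ ε)
    (hk1 : |kk n - 1| ≤ e / 4) (hk2 : kk n ≤ 2) (hk3 : |√((kk n)⁻¹) - 1| ≤ e)
    {x : Fin (n + 1) → ℝ} {y : KK (n + 1) s → ℝ} (hx : x ∉ B2 n e)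
    (hy : y ∉ B1 n s (e / (√2 * cc n)))
    (h1 : IsUnit ((Hm fun p => y (Sum.inl p)).submatrix (Fin.succ : Fin n → _) Fin.succ))
    (h2 : sig (Hm fun p => y (Sum.inl p)) ≠ 0) :
    |F (cay (cx (Amat n s x y))) - F (DD (cay (cx (Bmat n s y))))| ≤ ε := by
  apply hUC
  · exact cay_cx_mem (Amat_isSymm n s x y)
  · exact DD_mem (cay_cx_mem (Bmat_isSymm n s y))
  · intro i j
    refine le_trans (cay_compare (Hm_isSymm _) h1 h2 (cc_pos hn) (cc_pos (Nat.succ_pos n))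
      (√(∑ i, x i ^ 2)) (fun a i => y (Sum.inr (a, i))) he ?_ ?_ ?_ i j) heδ
    · exact norm_lead_bound hn hk1 he0 hk2 hx
    · rw [cc_div hn]; exact hk3
    · exact Pm_bound hn he0 hy

theorem pt_bound {s n : ℕ} (hn : 0 < n) {F : Matrix (Fin (s + 1)) (Fin (s + 1)) ℂ → ℝ}
    {M : ℝ} (hM : ∀ S, |F S| ≤ M) {ε δ e : ℝ} (he0 : 0 < e) (he : e ≤ 1 / 2)
    (heδ : (20 * ((s + 1 : ℕ) + 1) + 2 * ((s + 1 : ℕ) : ℝ) ^ 2) * e ≤ δ)
    (hUC : ∀ S S' : Matrix (Fin (s + 1)) (Fin (s + 1)) ℂ,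
      (S ∈ Matrix.unitaryGroup (Fin (s + 1)) ℂ ∧ Sᵀ = S) →
      (S' ∈ Matrix.unitaryGroup (Fin (s + 1)) ℂ ∧ S'ᵀ = S') → (∀ i j, ‖S i j - S' i j‖ ≤ δ) →
      |F S - F S'| ≤ ε)
    (hk1 : |kk n - 1| ≤ e / 4) (hk2 : kk n ≤ 2) (hk3 : |√((kk n)⁻¹) - 1| ≤ e) (hε : 0 ≤ ε)
    (x : Fin (n + 1) → ℝ) :
    ∀ᵐ y ∂(gam (KK (n + 1) s)), ‖F (cay (cx (Amat n s x y))) - F (DD (cay (cx (Bmat n s y))))‖
      ≤ ε + 2 * M * (B1 n s (e / (√2 * cc n))).indicator (fun _ => (1 : ℝ)) y + 2 * M * (B2 n e).indicator (fun _ => (1 : ℝ)) x := by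
  have hM0 : 0 ≤ M := le_trans (abs_nonneg _) (hM 0)
  filter_upwards [ae_good n s] with y hy
  have htriv : |F (cay (cx (Amat n s x y))) - F (DD (cay (cx (Bmat n s y))))| ≤ 2 * M := by
    have := abs_sub (F (cay (cx (Amat n s x y)))) (F (DD (cay (cx (Bmat n s y)))))
    linarith [hM (cay (cx (Amat n s x y))), hM (DD (cay (cx (Bmat n s y))))]
  rw [Real.norm_eq_abs]
  by_cases h1 : y ∈ B1 n s (e / (√2 * cc n))
  · have h0 : (B1 n s (e / (√2 * cc n))).indicator (fun _ => (1 : ℝ)) y = 1 := by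
      rw [Set.indicator_of_mem h1]
    rw [h0]
    have h2 : 0 ≤ (B2 n e).indicator (fun _ => (1 : ℝ)) x :=
      Set.indicator_nonneg (fun _ _ => zero_le_one) _
    nlinarith
  · by_cases h2 : x ∈ B2 n e
    · have h0 : (B2 n e).indicator (fun _ => (1 : ℝ)) x = 1 := by rw [Set.indicator_of_mem h2]
      rw [h0]
      have h3 : 0 ≤ (B1 n s (e / (√2 * cc n))).indicator (fun _ => (1 : ℝ)) y :=
        Set.indicator_nonneg (fun _ _ => zero_le_one) _
      nlinarith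
    · rw [Set.indicator_of_notMem h1, Set.indicator_of_notMem h2, mul_zero, add_zero, add_zero]
      exact good_bound hn he0 he heδ hUC hk1 hk2 hk3 h2 h1 hy.1 hy.2

theorem k1_eq (n s : ℕ) {F : Matrix (Fin (s + 1)) (Fin (s + 1)) ℂ → ℝ}
    (hF : MC F) {M : ℝ} (hM : ∀ S, |F S| ≤ M) :
    ∫ x, F (cay (cx (RR (cc (n + 1)) (n + 1) (s + 1) x))) ∂(gam (KK (n + 1) (s + 1)))
      = ∫ x, ∫ y, F (cay (cx (Amat n s x y))) ∂(gam (KK (n + 1) s)) ∂(gam (Fin (n + 1))) :=
  law_rot (cc (n + 1)) n s (Φ := fun R => F (cay (cx R))) (mm_cay hF) (M := M) (fun _ => hM _)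

theorem k2_eq (n s : ℕ) {F : Matrix (Fin (s + 1)) (Fin (s + 1)) ℂ → ℝ}
    (hF : MC F) :
    ∫ x, F (DD (cay (cx (RR (cc n) n (s + 1) x)))) ∂(gam (KK n (s + 1)))
      = ∫ y, F (DD (cay (cx (Bmat n s y)))) ∂(gam (KK (n + 1) s)) :=
  law_mid (cc n) n s (Φ := fun R => F (DD (cay (cx R)))) (mm_DD_cay hF)

theorem meas_FA (n s : ℕ) {F : Matrix (Fin (s + 1)) (Fin (s + 1)) ℂ → ℝ}
    (hF : MC F) : Measurable (fun p : (Fin (n + 1) → ℝ) × (KK (n + 1) s → ℝ) =>
      F (cay (cx (Amat n s p.1 p.2)))) := (mm_cay hF).comp (measurable_Amat n s)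

theorem meas_FB (n s : ℕ) {F : Matrix (Fin (s + 1)) (Fin (s + 1)) ℂ → ℝ}
    (hF : MC F) : Measurable (fun y : KK (n + 1) s → ℝ => F (DD (cay (cx (Bmat n s y))))) :=
  (mm_DD_cay hF).comp (measurable_Bmat n s)

theorem diff_gen {α β : Type*} [MeasurableSpace α] [MeasurableSpace β] {μ : Measure α}
    {ν : Measure β} [IsProbabilityMeasure μ] [IsProbabilityMeasure ν] {f : α → β → ℝ} {g : β → ℝ}
    (hf : Measurable (fun p : α × β => f p.1 p.2)) (hg : Measurable g) {M : ℝ}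
    (hfM : ∀ x y, |f x y| ≤ M) (hgM : ∀ y, |g y| ≤ M) :
    ∫ x, ∫ y, f x y ∂ν ∂μ - ∫ y, g y ∂ν = ∫ x, ∫ y, (f x y - g y) ∂ν ∂μ := by
  have iA : ∀ x, Integrable (fun y => f x y) ν := fun x =>
    Integrable.of_bound (hf.comp measurable_prodMk_left).aestronglyMeasurable M
      (Eventually.of_forall fun y => by rw [Real.norm_eq_abs]; exact hfM _ _)
  have iB : Integrable g ν := Integrable.of_bound hg.aestronglyMeasurable M
      (Eventually.of_forall fun y => by rw [Real.norm_eq_abs]; exact hgM _)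
  have iAA : Integrable (fun p : α × β => f p.1 p.2) (μ.prod ν) :=
    Integrable.of_bound hf.aestronglyMeasurable M
      (Eventually.of_forall fun y => by rw [Real.norm_eq_abs]; exact hfM _ _)
  have iA2 : Integrable (fun x => ∫ y, f x y ∂ν) μ := iAA.integral_prod_left
  have e1 : ∀ x, ∫ y, (f x y - g y) ∂ν = ∫ y, f x y ∂ν - ∫ y, g y ∂ν := fun x =>
    integral_sub (iA x) iB
  rw [integral_congr_ae (Eventually.of_forall e1), integral_sub iA2 (integrable_const _),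
    integral_const, probReal_univ, one_smul]

/-- the difference of the two laws as a double integral -/
theorem diff_eq (n s : ℕ) {F : Matrix (Fin (s + 1)) (Fin (s + 1)) ℂ → ℝ}
    (hF : MC F) {M : ℝ} (hM : ∀ S, |F S| ≤ M) :
    ∫ x, F (cay (cx (RR (cc (n + 1)) (n + 1) (s + 1) x))) ∂(gam (KK (n + 1) (s + 1)))
      - ∫ x, F (DD (cay (cx (RR (cc n) n (s + 1) x)))) ∂(gam (KK n (s + 1)))
      = ∫ x, ∫ y, (F (cay (cx (Amat n s x y))) - F (DD (cay (cx (Bmat n s y)))))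
          ∂(gam (KK (n + 1) s)) ∂(gam (Fin (n + 1))) := by
  rw [k1_eq n s hF hM, k2_eq n s hF]
  exact diff_gen (meas_FA n s hF) (meas_FB n s hF) (fun _ _ => hM _) (fun _ => hM _)

/-- bound of a double integral by indicator functions of bad sets -/
theorem bound_gen {α β : Type*} [MeasurableSpace α] [MeasurableSpace β] {μ : Measure α}
    {ν : Measure β} [IsProbabilityMeasure μ] [IsProbabilityMeasure ν] {f : α → β → ℝ}
    {A : Set α} {B : Set β} (hA : MeasurableSet A) (hB : MeasurableSet B) {ε M : ℝ}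
    (h : ∀ x, ∀ᵐ y ∂ν, ‖f x y‖ ≤ ε + M * B.indicator (fun _ => (1 : ℝ)) y
      + M * A.indicator (fun _ => (1 : ℝ)) x) :
    |∫ x, ∫ y, f x y ∂ν ∂μ| ≤ ε + M * ν.real B + M * μ.real A := by
  have i1 : Integrable (B.indicator (fun _ => (1 : ℝ))) ν := (integrable_const (1 : ℝ)).indicator hB
  have i2 : Integrable (A.indicator (fun _ => (1 : ℝ))) μ := (integrable_const (1 : ℝ)).indicator hA
  have hin : ∀ x, ‖∫ y, f x y ∂ν‖ ≤ (ε + M * ν.real B) + M * A.indicator (fun _ => (1 : ℝ)) x := by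
    intro x
    have hg : Integrable (fun y => (ε + M * A.indicator (fun _ => (1 : ℝ)) x)
        + M * B.indicator (fun _ => (1 : ℝ)) y) ν := (integrable_const _).add (i1.const_mul _)
    have h1 := norm_integral_le_of_norm_le hg ((h x).mono fun y hy => by linarith)
    refine h1.trans ?_
    rw [integral_add (integrable_const _) (i1.const_mul _), integral_const,
      integral_const_mul, integral_indicator_const _ hB]
    simp only [probReal_univ, smul_eq_mul, mul_one]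
    linarith
  have hg2 : Integrable (fun x => (ε + M * ν.real B) + M * A.indicator (fun _ => (1 : ℝ)) x) μ :=
    (integrable_const _).add (i2.const_mul _)
  have h1 := norm_integral_le_of_norm_le hg2 (Eventually.of_forall hin)
  rw [← Real.norm_eq_abs]
  refine h1.trans ?_
  rw [integral_add (integrable_const _) (i2.const_mul _), integral_const,
    integral_const_mul, integral_indicator_const _ hA]
  simp only [probReal_univ, smul_eq_mul, mul_one]
  linarith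

theorem border_bound {s n : ℕ} (hn : 0 < n) {F : Matrix (Fin (s + 1)) (Fin (s + 1)) ℂ → ℝ}
    (hF : MC F) {M : ℝ} (hM : ∀ S, |F S| ≤ M) {ε δ e : ℝ} (he0 : 0 < e) (he : e ≤ 1 / 2)
    (heδ : (20 * ((s + 1 : ℕ) + 1) + 2 * ((s + 1 : ℕ) : ℝ) ^ 2) * e ≤ δ)
    (hUC : ∀ S S' : Matrix (Fin (s + 1)) (Fin (s + 1)) ℂ,
      (S ∈ Matrix.unitaryGroup (Fin (s + 1)) ℂ ∧ Sᵀ = S) →
      (S' ∈ Matrix.unitaryGroup (Fin (s + 1)) ℂ ∧ S'ᵀ = S') → (∀ i j, ‖S i j - S' i j‖ ≤ δ) →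
      |F S - F S'| ≤ ε)
    (hk1 : |kk n - 1| ≤ e / 4) (hk2 : kk n ≤ 2) (hk3 : |√((kk n)⁻¹) - 1| ≤ e) (hε : 0 ≤ ε) :
    |∫ x, F (cay (cx (RR (cc (n + 1)) (n + 1) (s + 1) x))) ∂(gam (KK (n + 1) (s + 1)))
      - ∫ x, F (DD (cay (cx (RR (cc n) n (s + 1) x)))) ∂(gam (KK n (s + 1)))|
      ≤ ε + 2 * M * ((s + 1) * (2 * cc n ^ 2 / e ^ 2)) + 2 * M * (vsq / ((e / 4) ^ 2 * (n + 1))) := by
  have hM0 : 0 ≤ M := le_trans (abs_nonneg _) (hM 0)
  have hc : 0 < cc n := cc_pos hn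
  rw [diff_eq n s hF hM]
  set a := e / (√2 * cc n) with ha
  have hapos : 0 < a := by
    have := sqrt2_pos
    positivity
  have ha2 : 1 / a ^ 2 = 2 * cc n ^ 2 / e ^ 2 := by
    have h2 : √2 ^ 2 = 2 := Real.sq_sqrt (by norm_num)
    rw [ha, div_pow, mul_pow, h2]
    field_simp
  have hp1 := gam_B1 n s hapos
  rw [ha2] at hp1
  have hp2 := gam_B2 n he0
  have h1 := bound_gen (μ := gam (Fin (n + 1))) (ν := gam (KK (n + 1) s)) (measurableSet_B2 n e)
    (measurableSet_B1 n s a) (pt_bound hn hM he0 he heδ hUC hk1 hk2 hk3 hε)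
  have q1 := mul_le_mul_of_nonneg_left hp1 (show 0 ≤ 2 * M by linarith)
  have q2 := mul_le_mul_of_nonneg_left hp2 (show 0 ≤ 2 * M by linarith)
  linarith

theorem border_lim {s : ℕ} {F : Matrix (Fin (s + 1)) (Fin (s + 1)) ℂ → ℝ}
    (hF : MC F) {M : ℝ} (hM : ∀ S, |F S| ≤ M) (hU : UC F) :
    Tendsto (fun n => ∫ x, F (cay (cx (RR (cc (n + 1)) (n + 1) (s + 1) x)))
        ∂(gam (KK (n + 1) (s + 1)))
      - ∫ x, F (DD (cay (cx (RR (cc n) n (s + 1) x)))) ∂(gam (KK n (s + 1)))) atTop (𝓝 0) := by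
  rw [Metric.tendsto_atTop]
  intro ε hε
  obtain ⟨δ, hδ, hδ'⟩ := hU (ε / 2) (by positivity)
  set C : ℝ := 20 * ((s + 1 : ℕ) + 1) + 2 * ((s + 1 : ℕ) : ℝ) ^ 2 with hC
  have hCpos : 0 < C := by rw [hC]; positivity
  set e := min (1 / 2) (δ / C) with he
  have he0 : 0 < e := lt_min (by norm_num) (by positivity)
  have he1 : e ≤ 1 / 2 := min_le_left _ _
  have he2 : C * e ≤ δ := by
    calc C * e ≤ C * (δ / C) := mul_le_mul_of_nonneg_left (min_le_right _ _) hCpos.le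
      _ = δ := by field_simp
  have t1 : Tendsto (fun n : ℕ => |kk n - 1|) atTop (𝓝 0) := by
    have := (tendsto_kk.sub_const 1).abs
    simpa using this
  have t2 : Tendsto (fun n : ℕ => |√((kk n)⁻¹) - 1|) atTop (𝓝 0) := by
    have h1 := tendsto_kk.inv₀ one_ne_zero
    rw [inv_one] at h1
    have h2 := (Real.continuous_sqrt.tendsto 1).comp h1
    rw [Real.sqrt_one] at h2
    have := (h2.sub_const 1).abs
    simpa using this
  have t3 : Tendsto (fun n : ℕ => 2 * M * ((s + 1) * (2 * cc n ^ 2 / e ^ 2))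
      + 2 * M * (vsq / ((e / 4) ^ 2 * (n + 1)))) atTop (𝓝 0) := by
    have h1 : Tendsto (fun n : ℕ => 2 * M * ((s + 1) * (2 * cc n ^ 2 / e ^ 2))) atTop (𝓝 0) := by
      have := ((((tendsto_cc.pow 2).const_mul 2).div_const (e ^ 2)).const_mul
        ((s : ℝ) + 1)).const_mul (2 * M)
      simpa using this
    have h2 : Tendsto (fun n : ℕ => 2 * M * (vsq / ((e / 4) ^ 2 * (n + 1)))) atTop (𝓝 0) := by
      have h3 : Tendsto (fun n : ℕ => (e / 4) ^ 2 * ((n : ℝ) + 1)) atTop atTop := by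
        apply Tendsto.const_mul_atTop (by positivity)
        exact tendsto_atTop_add_const_right _ _ tendsto_natCast_atTop_atTop
      have h4 := (h3.const_div_atTop vsq).const_mul (2 * M)
      simpa using h4
    simpa using h1.add h2
  obtain ⟨N, hN⟩ := (((t1.eventually (ge_mem_nhds (show (0:ℝ) < min (e / 4) 1 by positivity))).and
    (t2.eventually (ge_mem_nhds he0))).and ((t3.eventually (gt_mem_nhds
      (show (0:ℝ) < ε / 2 by positivity))).and (eventually_gt_atTop 0))).exists_forall_of_atTop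
  refine ⟨N, fun n hn => ?_⟩
  obtain ⟨⟨k1, k2⟩, k3, k4⟩ := hN n hn
  rw [Real.dist_eq, sub_zero]
  have hb := border_bound k4 hF hM he0 he1 he2 hδ' (k1.trans (min_le_left _ _)) (by
    have := (abs_le.1 (k1.trans (min_le_right _ _))).2
    linarith) k2 (by positivity)
  linarith

end Vale.Agent.P156.H9
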