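import Vale.Agent.P156.H266.Limit
import Mathlib.Data.Fin.Tuple.Sort

/-! # The limit point process: point measures of sequences in `[-∞, ∞]` -/

open MeasureTheory Filter Topology Set

namespace Vale.Agent.P156.H9

noncomputable section

/-- The point measure of the finite terms of a sequence in `[-∞, ∞]`. -/
def ptm (y : ℕ → EReal) : Measure ℝ :=
  Measure.sum fun k => if y k = ⊤ ∨ y k = ⊥ then 0 else Measure.dirac (y k).toReal

/-- extension of a function by `0` at `±∞` -/
def extz (f : ℝ → ℝ) (y : EReal) : ℝ := if y = ⊤ ∨ y = ⊥ then 0 else f y.toReal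

theorem extz_coe (f : ℝ → ℝ) (x : ℝ) : extz f (x : EReal) = f x := by
  unfold extz
  rw [if_neg (by simp)]
  simp

theorem extz_top (f : ℝ → ℝ) : extz f ⊤ = 0 := by
  unfold extz
  rw [if_pos (Or.inl rfl)]

theorem extz_bot (f : ℝ → ℝ) : extz f ⊥ = 0 := by
  unfold extz
  rw [if_pos (Or.inr rfl)]

theorem extz_nonneg {f : ℝ → ℝ} (hf : ∀ x, 0 ≤ f x) (y : EReal) : 0 ≤ extz f y := by
  unfold extz
  split_ifs
  · exact le_rfl
  · exact hf _

theorem continuous_extz {f : ℝ → ℝ} (hf : Continuous f) {B : ℝ} (hB : ∀ x, B < |x| → f x = 0) :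
    Continuous (extz f) := by
  rw [continuous_iff_continuousAt]
  intro y
  induction y using EReal.rec with
  | bot =>
    have h1 : ∀ᶠ y in 𝓝 (⊥ : EReal), extz f y = 0 := by
      filter_upwards [Iio_mem_nhds (EReal.bot_lt_coe (-|B|))] with y hy
      induction y using EReal.rec with
      | bot => exact extz_bot f
      | top => exact extz_top f
      | coe x =>
        rw [extz_coe]
        have h2 : x < -|B| := EReal.coe_lt_coe_iff.1 hy
        refine hB x ?_
        have h3 := neg_le_abs x
        have h4 := le_abs_self B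
        linarith
    have h2 : ContinuousAt (fun _ : EReal => (0 : ℝ)) ⊥ := continuousAt_const
    exact h2.congr (h1.mono fun y hy => hy.symm)
  | top =>
    have h1 : ∀ᶠ y in 𝓝 (⊤ : EReal), extz f y = 0 := by
      filter_upwards [Ioi_mem_nhds (EReal.coe_lt_top |B|)] with y hy
      induction y using EReal.rec with
      | bot => exact extz_bot f
      | top => exact extz_top f
      | coe x =>
        rw [extz_coe]
        have h2 : |B| < x := EReal.coe_lt_coe_iff.1 hy
        refine hB x ?_
        have h3 := le_abs_self x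
        have h4 := le_abs_self B
        linarith
    have h2 : ContinuousAt (fun _ : EReal => (0 : ℝ)) ⊤ := continuousAt_const
    exact h2.congr (h1.mono fun y hy => hy.symm)
  | coe x =>
    unfold ContinuousAt
    rw [EReal.nhds_coe, tendsto_map'_iff, extz_coe]
    exact (hf.tendsto x).congr fun t => (extz_coe f t).symm

/-! ### Sorted sequences -/

/-- the points in the order of their absolute values, followed by `∞` -/
def srt {N : ℕ} (x : Fin N → ℝ) (k : ℕ) : EReal :=
  if h : k < N then ((x (Tuple.sort (fun i => |x i|) ⟨k, h⟩) : ℝ) : EReal) else ⊤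

theorem srt_ge {N : ℕ} (x : Fin N → ℝ) {k : ℕ} (h : N ≤ k) : srt x k = ⊤ := by
  unfold srt
  rw [dif_neg (not_lt.2 h)]

theorem sum_srt {N : ℕ} (x : Fin N → ℝ) (g : ℝ → ℝ) {M : ℕ} (hM : N ≤ M) :
    ∑ k ∈ Finset.range M, extz g (srt x k) = ∑ i, g (x i) := by
  have h1 : ∑ k ∈ Finset.range M, extz g (srt x k) = ∑ k ∈ Finset.range N, extz g (srt x k) := by
    symm
    refine Finset.sum_subset (Finset.range_subset_range.2 hM) fun k _ hk => ?_
    rw [Finset.mem_range, not_lt] at hk
    rw [srt_ge x hk, extz_top]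
  rw [h1, ← Fin.sum_univ_eq_sum_range (fun k => extz g (srt x k)) N]
  rw [← Equiv.sum_comp (Tuple.sort fun i => |x i|) (fun i => g (x i))]
  refine Finset.sum_congr rfl fun k _ => ?_
  unfold srt
  rw [dif_pos k.2, extz_coe]

/-- the truncated sums of nonnegative functions are bounded by the full sum -/
theorem sum_srt_le {N : ℕ} (x : Fin N → ℝ) {g : ℝ → ℝ} (hg : ∀ t, 0 ≤ g t) (M : ℕ) :
    ∑ k ∈ Finset.range M, extz g (srt x k) ≤ ∑ i, g (x i) := by
  rw [← sum_srt x g (le_max_right M N)]
  exact Finset.sum_le_sum_of_subset_of_nonneg (Finset.range_subset_range.2 (le_max_left M N))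
    fun k _ _ => extz_nonneg hg _

open Classical in
/-- few points in the window: the truncated sum is the full sum -/
theorem sum_srt_eq {N : ℕ} (x : Fin N → ℝ) {g : ℝ → ℝ} {B : ℝ} (hB : ∀ t, B < |t| → g t = 0)
    {M : ℕ} (hM : (∑ i, if |x i| ≤ B then (1 : ℝ) else 0) ≤ M) :
    ∑ k ∈ Finset.range M, extz g (srt x k) = ∑ i, g (x i) := by
  rw [← sum_srt x g (le_max_right M N)]
  refine Finset.sum_subset (Finset.range_subset_range.2 (le_max_left M N)) fun k _ hk => ?_
  rw [Finset.mem_range, not_lt] at hk
  by_cases hkN : k < N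
  · unfold srt
    rw [dif_pos hkN, extz_coe]
    refine hB _ ?_
    by_contra hcon
    rw [not_lt] at hcon
    -- all smaller indices are in the window
    set σ := Tuple.sort (fun i => |x i|) with hσ
    have hmono : Monotone (fun j : Fin N => |x (σ j)|) := Tuple.monotone_sort (fun i => |x i|)
    have h1 : ∀ j : Fin (k + 1), |x (σ ⟨j, lt_of_le_of_lt (Nat.lt_succ_iff.1 j.2) hkN⟩)| ≤ B :=
      fun j => (hmono (show (⟨j, _⟩ : Fin N) ≤ ⟨k, hkN⟩ from Nat.lt_succ_iff.1 j.2)).trans hcon
    have h2 : k + 1 ≤ (Finset.univ.filter (fun i => |x i| ≤ B)).card := by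
      have h3 : (Finset.univ : Finset (Fin (k + 1))).card ≤
          (Finset.univ.filter (fun i => |x i| ≤ B)).card := by
        refine Finset.card_le_card_of_injOn
          (fun j => σ ⟨j, lt_of_le_of_lt (Nat.lt_succ_iff.1 j.2) hkN⟩) ?_ ?_
        · intro j _
          simp only [Finset.coe_filter, Finset.mem_univ, true_and, Set.mem_ofPred_eq]
          exact h1 j
        · intro j _ j' _ hjj
          have h4 := σ.injective hjj
          rw [Fin.mk.injEq] at h4
          exact Fin.ext h4
      rwa [Finset.card_univ, Fintype.card_fin] at h3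
    have h5 : (∑ i, if |x i| ≤ B then (1 : ℝ) else 0) =
        ((Finset.univ.filter (fun i => |x i| ≤ B)).card : ℝ) := by
      rw [Finset.sum_ite, Finset.sum_const_zero, add_zero, Finset.sum_const, nsmul_eq_mul, mul_one]
    rw [h5] at hM
    have h6 : (Finset.univ.filter (fun i => |x i| ≤ B)).card ≤ M := by exact_mod_cast hM
    omega
  · rw [srt_ge x (not_lt.1 hkN), extz_top]

/-! ### The point measure -/

theorem ptm_apply (y : ℕ → EReal) {s : Set ℝ} (hs : MeasurableSet s) :
    ptm y s = ∑' k, (if y k = ⊤ ∨ y k = ⊥ then 0 else s.indicator 1 (y k).toReal) := by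
  unfold ptm
  rw [Measure.sum_apply _ hs]
  congr 1
  funext k
  split_ifs
  · rfl
  · rw [Measure.dirac_apply' _ hs]

theorem measurable_ptm : Measurable ptm := by
  refine Measure.measurable_of_measurable_coe _ fun s hs => ?_
  simp only [ptm_apply _ hs]
  refine Measurable.ennreal_tsum fun k => ?_
  have h1 : Measurable fun y : ℕ → EReal => y k := measurable_pi_apply k
  refine Measurable.ite ?_ measurable_const ?_
  · have h2 : {y : ℕ → EReal | y k = ⊤ ∨ y k = ⊥} = (fun y => y k) ⁻¹' {⊤, ⊥} := by
      ext y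
      simp
    rw [h2]
    exact h1 ((Set.toFinite _).measurableSet)
  · exact (measurable_one.indicator hs).comp (h1.ereal_toReal)

/-- linear statistics of the point measure -/
theorem tendsto_ptm {y : ℕ → EReal} (hy : IsLocallyFiniteMeasure (ptm y)) {f : ℝ → ℝ}
    (hf : Continuous f) (hcs : HasCompactSupport f) :
    Tendsto (fun M => ∑ k ∈ Finset.range M, extz f (y k)) atTop (𝓝 (∫ t, f t ∂(ptm y))) := by
  have hint : Integrable f (ptm y) := hf.integrable_of_hasCompactSupport hcs
  have h1 := (hasSum_integral_measure (μ := fun k => if y k = ⊤ ∨ y k = ⊥ then 0 else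
    Measure.dirac (y k).toReal) hint).tendsto_sum_nat
  refine h1.congr fun M => ?_
  refine Finset.sum_congr rfl fun k _ => ?_
  unfold extz
  split_ifs
  · exact integral_zero_measure _
  · exact integral_dirac _ _

end

end Vale.Agent.P156.H9
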