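import Vale.Agent.P156.H9.Proc1

/-! # The limit point process along an ultrafilter -/

open MeasureTheory Filter Topology Set

namespace Vale.Agent.P156.H9

noncomputable section

/-- the hat function -/
def hat (B t : ℝ) : ℝ := max 0 (min 1 (B + 1 - |t|))

theorem hat_nonneg (B t : ℝ) : 0 ≤ hat B t := le_max_left _ _

theorem hat_le (B t : ℝ) : hat B t ≤ if |t| ≤ B + 1 then 1 else 0 := by
  unfold hat
  split_ifs with h
  · exact max_le zero_le_one (min_le_left _ _)
  · refine max_le le_rfl ((min_le_right _ _).trans ?_)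
    linarith [not_le.1 h]

theorem hat_eq_one {B t : ℝ} (h : |t| ≤ B) : hat B t = 1 := by
  unfold hat
  rw [min_eq_left (by linarith), max_eq_right zero_le_one]

theorem continuous_hat (B : ℝ) : Continuous (hat B) := by
  unfold hat
  fun_prop

theorem hat_zero {B t : ℝ} (h : B + 1 < |t|) : hat B t = 0 := by
  have h1 := hat_le B t
  rw [if_neg (not_le.2 h)] at h1
  exact le_antisymm h1 (hat_nonneg _ _)

theorem continuous_sum_extz {f : ℝ → ℝ} (hf : Continuous f) {B : ℝ}
    (hB : ∀ x, B < |x| → f x = 0) (M : ℕ) :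
    Continuous fun y : ℕ → EReal => ∑ k ∈ Finset.range M, extz f (y k) :=
  continuous_finsetSum _ fun k _ => (continuous_extz hf hB).comp (continuous_apply k)

/-- finiteness on bounded intervals implies local finiteness -/
theorem locallyFinite_of {μ : Measure ℝ} (h : ∀ B : ℕ, μ (Icc (-(B : ℝ)) B) < ⊤) :
    IsLocallyFiniteMeasure μ := by
  constructor
  intro t
  obtain ⟨B, hB⟩ := exists_nat_gt |t|
  rw [abs_lt] at hB
  exact ⟨Icc (-(B : ℝ)) B, Icc_mem_nhds hB.1 hB.2, h B⟩

/-! ### Measurability of the sorted sequence -/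

theorem measurableSet_sort {Ω : Type*} [MeasurableSpace Ω] {N : ℕ} {a : Ω → Fin N → ℝ}
    (ha : ∀ i, Measurable fun ω => a ω i) (σ : Equiv.Perm (Fin N)) :
    MeasurableSet {ω | Tuple.sort (a ω) = σ} := by
  have h1 : {ω | Tuple.sort (a ω) = σ} =
      (⋂ i, ⋂ j, {ω | i ≤ j → a ω (σ i) ≤ a ω (σ j)}) ∩
        ⋂ i, ⋂ j, {ω | i < j → a ω (σ i) = a ω (σ j) → σ i < σ j} := by
    ext ω
    simp only [Set.mem_inter_iff, Set.mem_iInter, Set.mem_ofPred_eq]
    rw [eq_comm, Tuple.eq_sort_iff]
    rfl
  rw [h1]
  refine MeasurableSet.inter (MeasurableSet.iInter fun i => MeasurableSet.iInter fun j => ?_)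
    (MeasurableSet.iInter fun i => MeasurableSet.iInter fun j => ?_)
  · by_cases h : i ≤ j
    · simp only [h, true_imp_iff]
      exact measurableSet_le (ha _) (ha _)
    · simp only [h, false_imp_iff]
      exact MeasurableSet.univ
  · by_cases h : i < j
    · by_cases h' : σ i < σ j
      · simp only [h', implies_true]
        exact MeasurableSet.univ
      · simp only [h, h', true_imp_iff, imp_false]
        exact (measurableSet_eq_fun (ha _) (ha _)).compl
    · simp only [h, false_imp_iff]
      exact MeasurableSet.univ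

theorem measurable_srt {Ω : Type*} [MeasurableSpace Ω] {N : ℕ} {x : Ω → Fin N → ℝ}
    (hx : ∀ i, Measurable fun ω => x ω i) : Measurable fun ω => srt (x ω) := by
  refine measurable_pi_iff.2 fun k => ?_
  by_cases hk : k < N
  · have h1 : (fun ω => srt (x ω) k) = fun ω =>
        ((x ω (Tuple.sort (fun i => |x ω i|) ⟨k, hk⟩) : ℝ) : EReal) := by
      funext ω
      unfold srt
      rw [dif_pos hk]
    rw [h1]
    refine measurable_coe_real_ereal.comp ?_
    have h2 : (fun ω => x ω (Tuple.sort (fun i => |x ω i|) ⟨k, hk⟩)) = fun ω =>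
        ∑ σ : Equiv.Perm (Fin N),
          {ω | Tuple.sort (fun i => |x ω i|) = σ}.indicator (fun ω => x ω (σ ⟨k, hk⟩)) ω := by
      funext ω
      rw [Finset.sum_eq_single (Tuple.sort fun i => |x ω i|)]
      · rw [Set.indicator_of_mem]
        exact rfl
      · intro σ _ hσ
        rw [Set.indicator_of_notMem]
        exact fun h => hσ (Eq.symm h)
      · intro h
        exact absurd (Finset.mem_univ _) h
    rw [h2]
    refine Finset.measurable_fun_sum _ fun σ _ => ?_
    exact (hx _).indicator (measurableSet_sort (fun i => (hx i).abs) σ)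
  · have h1 : (fun ω => srt (x ω) k) = fun _ => (⊤ : EReal) := by
      funext ω
      exact srt_ge _ (not_lt.1 hk)
    rw [h1]
    exact measurable_const

end

end Vale.Agent.P156.H9
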