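import Vale.Agent.P156.H9.Proc2

/-! # The limit point process: convergence of linear statistics -/

open MeasureTheory Filter Topology Set

namespace Vale.Agent.P156.H9

noncomputable section

section main

variable {Ω : ℕ → Type*} [∀ n, MeasurableSpace (Ω n)] {μ : ∀ n, Measure (Ω n)}
  [∀ n, IsProbabilityMeasure (μ n)] {N : ℕ → ℕ} {x : ∀ n, Ω n → Fin (N n) → ℝ}
  {L : Filter ℕ} {Q : Measure (ℕ → EReal)}

/-- `Q` is the limit law of the sorted points. -/
def IsLim (μ : ∀ n, Measure (Ω n)) (x : ∀ n, Ω n → Fin (N n) → ℝ) (L : Filter ℕ)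
    (Q : Measure (ℕ → EReal)) : Prop :=
  ∀ F : BoundedContinuousFunction (ℕ → EReal) ℝ,
    Tendsto (fun n => ∫ ω, F (srt (x n ω)) ∂(μ n)) L (𝓝 (∫ y, F y ∂Q))

theorem exists_isLim (𝒰 : Ultrafilter ℕ) (hx : ∀ n i, Measurable fun ω => x n ω i) :
    ∃ Q : Measure (ℕ → EReal), IsProbabilityMeasure Q ∧ IsLim μ x (𝒰 : Filter ℕ) Q := by
  have hm : ∀ n, Measurable fun ω => srt (x n ω) := fun n => measurable_srt (hx n)
  obtain ⟨Q, hQ⟩ := Lim.exists_limit 𝒰 (fun n =>
    (⟨(μ n).map (fun ω => srt (x n ω)), Measure.isProbabilityMeasure_map (hm n).aemeasurable⟩ :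
      ProbabilityMeasure (ℕ → EReal)))
  refine ⟨Q, inferInstance, fun F => ?_⟩
  refine (ProbabilityMeasure.tendsto_iff_forall_integral_tendsto.1 hQ F).congr fun n => ?_
  exact integral_map (hm n).aemeasurable F.continuous.measurable.aestronglyMeasurable

theorem measurable_cnt (hx : ∀ n i, Measurable fun ω => x n ω i) (n : ℕ) (B : ℝ) :
    Measurable fun ω => ∑ i, if |x n ω i| ≤ B then (1 : ℝ) else 0 := by
  refine Finset.measurable_fun_sum _ fun i _ => ?_
  exact Measurable.ite (measurableSet_le (hx n i).abs measurable_const) measurable_const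
    measurable_const

theorem integrable_cnt (hx : ∀ n i, Measurable fun ω => x n ω i) (n : ℕ) (B : ℝ) :
    Integrable (fun ω => ∑ i, if |x n ω i| ≤ B then (1 : ℝ) else 0) (μ n) := by
  refine Integrable.of_bound (measurable_cnt hx n B).aestronglyMeasurable (N n) ?_
  refine Eventually.of_forall fun ω => ?_
  rw [Real.norm_eq_abs, abs_of_nonneg (Finset.sum_nonneg fun i _ => by positivity)]
  calc ∑ i, (if |x n ω i| ≤ B then (1 : ℝ) else 0) ≤ ∑ _i : Fin (N n), (1 : ℝ) :=
        Finset.sum_le_sum fun i _ => by split_ifs <;> norm_num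
    _ = N n := by simp

theorem lintegral_hat_le [L.NeBot] [IsProbabilityMeasure Q] (hQ : IsLim μ x L Q)
    (hx : ∀ n i, Measurable fun ω => x n ω i) {B C : ℝ}
    (hC : ∀ᶠ n in L, ∫ ω, (∑ i, if |x n ω i| ≤ B + 1 then (1 : ℝ) else 0) ∂(μ n) ≤ C) (M : ℕ) :
    ∫⁻ y, ENNReal.ofReal (∑ k ∈ Finset.range M, extz (hat B) (y k)) ∂Q ≤ ENNReal.ofReal C := by
  have hcont := continuous_sum_extz (continuous_hat B) (fun t ht => hat_zero ht) M
  set F : BoundedContinuousFunction (ℕ → EReal) ℝ := BoundedContinuousFunction.mkOfCompact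
    ⟨_, hcont⟩ with hF
  have h1 := hQ F
  have h2 : ∫ y, F y ∂Q ≤ C := by
    refine le_of_tendsto h1 ?_
    filter_upwards [hC] with n hn
    refine le_trans (integral_mono ?_ (integrable_cnt hx n (B + 1)) fun ω => ?_) hn
    · refine Integrable.of_bound (C := ‖F‖)
        (F.continuous.measurable.comp (measurable_srt (hx n))).aestronglyMeasurable
        (Eventually.of_forall fun ω => F.norm_coe_le_norm _)
    · refine (sum_srt_le (x n ω) (hat_nonneg B) M).trans ?_
      exact Finset.sum_le_sum fun i _ => hat_le B _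
  have h0 : ∀ y, 0 ≤ F y := by
    intro y
    show (0 : ℝ) ≤ ∑ k ∈ Finset.range M, extz (hat B) (y k)
    exact Finset.sum_nonneg fun k _ => extz_nonneg (hat_nonneg B) _
  have h3 : ∫⁻ y, ENNReal.ofReal (F y) ∂Q = ENNReal.ofReal (∫ y, F y ∂Q) :=
    (ofReal_integral_eq_lintegral_ofReal (F.integrable Q) (Eventually.of_forall h0)).symm
  change ∫⁻ y, ENNReal.ofReal (F y) ∂Q ≤ _
  rw [h3]
  exact ENNReal.ofReal_le_ofReal h2

theorem ae_locallyFinite [L.NeBot] [IsProbabilityMeasure Q] (hQ : IsLim μ x L Q)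
    (hx : ∀ n i, Measurable fun ω => x n ω i)
    (hT : ∀ B : ℝ, ∃ C : ℝ, ∀ᶠ n in L,
      ∫ ω, (∑ i, if |x n ω i| ≤ B then (1 : ℝ) else 0) ∂(μ n) ≤ C) :
    ∀ᵐ y ∂Q, ∀ B : ℕ, ptm y (Icc (-(B : ℝ)) B) < ⊤ := by
  rw [ae_all_iff]
  intro B
  obtain ⟨C, hC⟩ := hT (B + 1)
  have hmeas : Measurable fun y : ℕ → EReal => ptm y (Icc (-(B : ℝ)) B) :=
    (Measure.measurable_coe measurableSet_Icc).comp measurable_ptm
  refine ae_lt_top hmeas (ne_of_lt ?_)
  have hterm : ∀ (k : ℕ) (y : ℕ → EReal),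
      (if y k = ⊤ ∨ y k = ⊥ then (0 : ENNReal) else
        (Icc (-(B : ℝ)) B).indicator 1 (y k).toReal) ≤
      ENNReal.ofReal (extz (hat B) (y k)) := by
    intro k y
    unfold extz
    split_ifs with h
    · exact zero_le
    · rw [Set.indicator_apply]
      split_ifs with h2
      · rw [hat_eq_one (abs_le.2 h2)]
        simp
      · exact zero_le
  have hle : ∫⁻ y, ptm y (Icc (-(B : ℝ)) B) ∂Q ≤
      ∫⁻ y, ∑' k, ENNReal.ofReal (extz (hat B) (y k)) ∂Q := by
    refine lintegral_mono fun y => ?_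
    rw [ptm_apply _ measurableSet_Icc]
    exact ENNReal.tsum_le_tsum fun k => hterm k y
  refine lt_of_le_of_lt (hle.trans ?_) (ENNReal.ofReal_lt_top (r := C))
  have hm : ∀ k : ℕ, Measurable fun y : ℕ → EReal => ENNReal.ofReal (extz (hat B) (y k)) :=
    fun k => ((continuous_extz (continuous_hat B) (fun t ht => hat_zero ht)).measurable.comp
      (measurable_pi_apply k)).ennreal_ofReal
  rw [lintegral_tsum fun k => (hm k).aemeasurable]
  refine ENNReal.tsum_le_of_sum_range_le fun M => ?_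
  rw [← lintegral_finsetSum _ fun k _ => hm k]
  refine le_of_eq_of_le ?_ (lintegral_hat_le hQ hx hC M)
  refine lintegral_congr fun y => ?_
  rw [ENNReal.ofReal_sum_of_nonneg fun k _ => extz_nonneg (hat_nonneg B) _]

/-- **convergence of the linear statistics** -/
theorem tendsto_process [L.NeBot] [IsProbabilityMeasure Q] (hQ : IsLim μ x L Q)
    (hx : ∀ n i, Measurable fun ω => x n ω i)
    (hT : ∀ B : ℝ, ∃ C : ℝ, ∀ᶠ n in L,
      ∫ ω, (∑ i, if |x n ω i| ≤ B then (1 : ℝ) else 0) ∂(μ n) ≤ C)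
    {m : ℕ} (f : Fin m → ℝ → ℝ) (hf : ∀ j, Continuous (f j)) (hcs : ∀ j, HasCompactSupport (f j))
    (Φ : (Fin m → ℝ) → ℝ) (hΦ : Continuous Φ) {C : ℝ} (hC : ∀ v, |Φ v| ≤ C) :
    Tendsto (fun n => ∫ ω, Φ (fun j => ∑ i, f j (x n ω i)) ∂(μ n)) L
      (𝓝 (∫ y, Φ (fun j => ∫ t, f j t ∂(ptm y)) ∂Q)) := by
  classical
  have hC0 : 0 ≤ C := (abs_nonneg _).trans (hC 0)
  -- a common support
  choose R hR0 hR using fun j => (hcs j).exists_pos_le_norm
  set B : ℝ := ∑ j, R j with hB
  have hBf : ∀ j t, B < |t| → f j t = 0 := by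
    intro j t ht
    refine hR j t ?_
    rw [Real.norm_eq_abs]
    have h1 : R j ≤ B := Finset.single_le_sum (fun j _ => (hR0 j).le) (Finset.mem_univ j)
    linarith
  obtain ⟨D, hD⟩ := hT B
  -- truncations
  set T : ℕ → (ℕ → EReal) → (Fin m → ℝ) := fun M y j => ∑ k ∈ Finset.range M, extz (f j) (y k)
    with hTdef
  have hTc : ∀ M, Continuous (T M) := fun M =>
    continuous_pi fun j => continuous_sum_extz (hf j) (hBf j) M
  have lim1 : ∀ M, Tendsto (fun n => ∫ ω, Φ (T M (srt (x n ω))) ∂(μ n)) L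
      (𝓝 (∫ y, Φ (T M y) ∂Q)) := fun M =>
    hQ (BoundedContinuousFunction.mkOfCompact ⟨_, hΦ.comp (hTc M)⟩)
  have lim2 : Tendsto (fun M => ∫ y, Φ (T M y) ∂Q) atTop
      (𝓝 (∫ y, Φ (fun j => ∫ t, f j t ∂(ptm y)) ∂Q)) := by
    refine tendsto_integral_of_dominated_convergence (fun _ => C)
      (fun M => (hΦ.comp (hTc M)).measurable.aestronglyMeasurable) (integrable_const C)
      (fun M => Eventually.of_forall fun y => by rw [Real.norm_eq_abs]; exact hC _) ?_
    filter_upwards [ae_locallyFinite hQ hx hT] with y hy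
    refine (hΦ.tendsto _).comp ?_
    rw [tendsto_pi_nhds]
    intro j
    exact tendsto_ptm (locallyFinite_of hy) (hf j) (hcs j)
  have int1 : ∀ n, Integrable (fun ω => Φ (fun j => ∑ i, f j (x n ω i))) (μ n) := by
    intro n
    refine Integrable.of_bound (C := C) ?_ (Eventually.of_forall fun ω => by
      rw [Real.norm_eq_abs]; exact hC _)
    refine (hΦ.measurable.comp ?_).aestronglyMeasurable
    refine measurable_pi_iff.2 fun j => Finset.measurable_fun_sum _ fun i _ => ?_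
    exact (hf j).measurable.comp (hx n i)
  have int2 : ∀ n M, Integrable (fun ω => Φ (T M (srt (x n ω)))) (μ n) := by
    intro n M
    refine Integrable.of_bound (C := C) ?_ (Eventually.of_forall fun ω => by
      rw [Real.norm_eq_abs]; exact hC _)
    exact ((hΦ.comp (hTc M)).measurable.comp (measurable_srt (hx n))).aestronglyMeasurable
  have bound3 : ∀ M : ℕ, 0 < M → ∀ᶠ n in L,
      |∫ ω, Φ (fun j => ∑ i, f j (x n ω i)) ∂(μ n) - ∫ ω, Φ (T M (srt (x n ω))) ∂(μ n)| ≤
        2 * C / M * D := by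
    intro M hM
    have hM' : (0 : ℝ) < M := by exact_mod_cast hM
    filter_upwards [hD] with n hn
    have h1 : ∀ ω, |Φ (fun j => ∑ i, f j (x n ω i)) - Φ (T M (srt (x n ω)))| ≤
        2 * C / M * (∑ i, if |x n ω i| ≤ B then 1 else 0) := by
      intro ω
      by_cases h : (∑ i, if |x n ω i| ≤ B then (1 : ℝ) else 0) ≤ M
      · have h2 : T M (srt (x n ω)) = fun j => ∑ i, f j (x n ω i) := by
          funext j
          exact sum_srt_eq (x n ω) (hBf j) h
        rw [h2, sub_self, abs_zero]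
        have h3 : 0 ≤ ∑ i, (if |x n ω i| ≤ B then (1 : ℝ) else 0) :=
          Finset.sum_nonneg fun i _ => by positivity
        positivity
      · have h2 : |Φ (fun j => ∑ i, f j (x n ω i)) - Φ (T M (srt (x n ω)))| ≤ 2 * C := by
          refine (abs_sub _ _).trans ?_
          linarith [hC (fun j => ∑ i, f j (x n ω i)), hC (T M (srt (x n ω)))]
        refine h2.trans ?_
        have h3 : (M : ℝ) ≤ ∑ i, (if |x n ω i| ≤ B then (1 : ℝ) else 0) := (not_le.1 h).le
        calc 2 * C = 2 * C / M * M := by field_simp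
          _ ≤ _ := mul_le_mul_of_nonneg_left h3 (by positivity)
    rw [← integral_sub (int1 n) (int2 n M)]
    refine abs_integral_le_integral_abs.trans ?_
    refine (integral_mono ((int1 n).sub (int2 n M)).abs
      ((integrable_cnt hx n B).const_mul (2 * C / M)) h1).trans ?_
    rw [integral_const_mul]
    exact mul_le_mul_of_nonneg_left hn (by positivity)
  rw [Metric.tendsto_nhds]
  intro ε hε
  have hlim3 : Tendsto (fun M : ℕ => 2 * C / (M : ℝ) * D) atTop (𝓝 0) := by
    have := (tendsto_const_div_atTop_nhds_zero_nat (2 * C)).mul_const D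
    rwa [zero_mul] at this
  obtain ⟨M, hM1, hM2, hM3⟩ := ((Metric.tendsto_nhds.1 lim2 (ε / 3) (by positivity)).and
    ((hlim3.eventually (eventually_lt_nhds (show (0 : ℝ) < ε / 3 by positivity))).and
      (eventually_gt_atTop 0))).exists
  filter_upwards [bound3 M hM3, Metric.tendsto_nhds.1 (lim1 M) (ε / 3) (by positivity)]
    with n hn1 hn2
  rw [Real.dist_eq] at hM1 hn2 ⊢
  rw [abs_lt] at hM1 hn2 ⊢
  rw [abs_le] at hn1
  constructor <;> linarith [hM1.1, hM1.2, hn2.1, hn2.2, hn1.1, hn1.2]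

/-- **Existence of the limit point process along an ultrafilter.** -/
theorem exists_process (𝒰 : Ultrafilter ℕ) (hx : ∀ n i, Measurable fun ω => x n ω i)
    (hT : ∀ B : ℝ, ∃ C : ℝ, ∀ᶠ n in (𝒰 : Filter ℕ),
      ∫ ω, (∑ i, if |x n ω i| ≤ B then (1 : ℝ) else 0) ∂(μ n) ≤ C) :
    ∃ (Q : Measure (ℕ → EReal)) (Ξ : (ℕ → EReal) → Measure ℝ), IsProbabilityMeasure Q ∧
      Measurable Ξ ∧ (∀ y, IsLocallyFiniteMeasure (Ξ y)) ∧
      (∀ y, ∃ (κ : Set ℕ) (z : κ → ℝ), Ξ y = Measure.sum fun k => Measure.dirac (z k)) ∧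
      ∀ (m : ℕ) (f : Fin m → ℝ → ℝ), (∀ j, Continuous (f j)) → (∀ j, HasCompactSupport (f j)) →
      ∀ Φ : (Fin m → ℝ) → ℝ, Continuous Φ → (∃ C : ℝ, ∀ v, |Φ v| ≤ C) →
        Tendsto (fun n => ∫ ω, Φ (fun j => ∑ i, f j (x n ω i)) ∂(μ n)) (𝒰 : Filter ℕ)
          (𝓝 (∫ y, Φ (fun j => ∫ t, f j t ∂(Ξ y)) ∂Q)) := by
  classical
  obtain ⟨Q, hQp, hQ⟩ := exists_isLim (μ := μ) 𝒰 hx
  set A : Set (ℕ → EReal) := {y | ∀ B : ℕ, ptm y (Icc (-(B : ℝ)) B) < ⊤} with hA
  have hAm : MeasurableSet A := by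
    have h1 : A = ⋂ B : ℕ, {y | ptm y (Icc (-(B : ℝ)) B) < ⊤} := by
      ext y
      simp [hA]
    rw [h1]
    exact MeasurableSet.iInter fun B => measurableSet_lt
      ((Measure.measurable_coe measurableSet_Icc).comp measurable_ptm) measurable_const
  refine ⟨Q, fun y => if y ∈ A then ptm y else 0, hQp,
    Measurable.ite hAm measurable_ptm measurable_const, ?_, ?_, ?_⟩
  · intro y
    show IsLocallyFiniteMeasure (if y ∈ A then ptm y else 0)
    split_ifs with h
    · exact locallyFinite_of h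
    · infer_instance
  · intro y
    show ∃ (κ : Set ℕ) (z : κ → ℝ), (if y ∈ A then ptm y else 0) = _
    split_ifs with h
    · refine ⟨{k | ¬ (y k = ⊤ ∨ y k = ⊥)}, fun k => (y k).toReal, ?_⟩
      refine Measure.ext fun s hs => ?_
      rw [ptm_apply y hs, Measure.sum_apply _ hs]
      rw [← tsum_subtype_eq_of_support_subset (s := {k | ¬ (y k = ⊤ ∨ y k = ⊥)})]
      · refine tsum_congr fun k => ?_
        rw [if_neg k.2, Measure.dirac_apply' _ hs]
      · intro k hk
        rw [Function.mem_support] at hk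
        intro h'
        rw [if_pos h'] at hk
        exact hk rfl
    · refine ⟨∅, fun k => 0, ?_⟩
      refine Measure.ext fun s hs => ?_
      rw [Measure.sum_apply _ hs]
      simp
  · intro m f hf hcs Φ hΦ ⟨C, hC⟩
    have h1 := tendsto_process hQ hx hT f hf hcs Φ hΦ hC
    have h2 : ∫ y, Φ (fun j => ∫ t, f j t ∂(ptm y)) ∂Q =
        ∫ y, Φ (fun j => ∫ t, f j t ∂(if y ∈ A then ptm y else 0)) ∂Q := by
      refine integral_congr_ae ?_
      filter_upwards [ae_locallyFinite hQ hx hT] with y hy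
      have h3 : y ∈ A := hy
      rw [if_pos h3]
    rw [h2] at h1
    exact h1

end main

end

end Vale.Agent.P156.H9
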