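import Vale.Agent.P156.H9.Proc3
import Vale.Agent.P156.H625.Tight

/-! # The GOE bulk point process along an ultrafilter -/

open MeasureTheory Filter Topology Set

namespace Vale.Agent.P156.H9

noncomputable section

section eig

variable {X : Type*} [TopologicalSpace X] [MeasurableSpace X] [OpensMeasurableSpace X]
  {ι : Type*} [Fintype ι] [DecidableEq ι]

/-- continuous approximation of the indicator of `[t, ∞)` -/
def ramp (t : ℝ) (k : ℕ) (u : ℝ) : ℝ := max 0 (min 1 (1 - (k : ℝ) * (t - u)))

theorem continuous_ramp (t : ℝ) (k : ℕ) : Continuous (ramp t k) := by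
  unfold ramp
  fun_prop

theorem tendsto_ramp (t u : ℝ) :
    Tendsto (fun k : ℕ => ramp t k u) atTop (𝓝 (if t ≤ u then 1 else 0)) := by
  split_ifs with h
  · refine tendsto_const_nhds.congr fun k => ?_
    unfold ramp
    have h1 : (k : ℝ) * (t - u) ≤ 0 :=
      mul_nonpos_of_nonneg_of_nonpos (Nat.cast_nonneg k) (by linarith)
    rw [min_eq_left (by linarith), max_eq_right zero_le_one]
  · obtain ⟨K, hK⟩ := exists_nat_ge (1 / (t - u))
    have h0 : 0 < t - u := by linarith [not_le.1 h]
    refine tendsto_const_nhds.congr' ?_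
    filter_upwards [eventually_ge_atTop K] with k hk
    unfold ramp
    have h1 : 1 / (t - u) ≤ (k : ℝ) := hK.trans (by exact_mod_cast hk)
    rw [div_le_iff₀ h0] at h1
    rw [max_eq_left ((min_le_right _ _).trans (by linarith))]

theorem measurable_count (M : X → Matrix ι ι ℝ) (hM : Continuous M)
    (hH : ∀ x, (M x).IsHermitian) (t : ℝ) :
    Measurable fun x => ∑ i, if t ≤ (hH x).eigenvalues i then (1 : ℝ) else 0 := by
  refine measurable_of_tendsto_metrizable (f := fun k x => ∑ i, ramp t k ((hH x).eigenvalues i))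
    (fun k => (H849.continuous_sum_eigenvalues M hM hH _ (continuous_ramp t k)).measurable) ?_
  rw [tendsto_pi_nhds]
  intro x
  exact tendsto_finsetSum _ fun i _ => tendsto_ramp t _

theorem measurable_eigenvalues (M : X → Matrix ι ι ℝ) (hM : Continuous M)
    (hH : ∀ x, (M x).IsHermitian) (i : ι) : Measurable fun x => (hH x).eigenvalues i := by
  classical
  have h0 : ∀ k : Fin (Fintype.card ι), Measurable fun x => (hH x).eigenvalues₀ k := by
    intro k
    refine measurable_of_Ici fun t => ?_
    have h1 : (fun x => (hH x).eigenvalues₀ k) ⁻¹' Ici t =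
        {x | (k : ℝ) + 1 ≤ ∑ i, if t ≤ (hH x).eigenvalues i then (1 : ℝ) else 0} := by
      ext x
      simp only [Set.mem_preimage, Set.mem_Ici, Set.mem_ofPred_eq]
      have h2 : (∑ i, if t ≤ (hH x).eigenvalues i then (1 : ℝ) else 0) =
          ((Finset.univ.filter fun j => t ≤ (hH x).eigenvalues₀ j).card : ℝ) := by
        have h3 : (∑ i, if t ≤ (hH x).eigenvalues i then (1 : ℝ) else 0) =
            ∑ j, if t ≤ (hH x).eigenvalues₀ j then (1 : ℝ) else 0 := by
          unfold Matrix.IsHermitian.eigenvalues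
          exact Equiv.sum_comp (Fintype.equivOfCardEq (Fintype.card_fin _)).symm
            (fun j => if t ≤ (hH x).eigenvalues₀ j then (1 : ℝ) else 0)
        rw [h3, Finset.sum_ite, Finset.sum_const_zero, add_zero, Finset.sum_const, nsmul_eq_mul,
          mul_one]
      rw [h2]
      have hanti := (hH x).eigenvalues₀_antitone
      constructor
      · intro h
        have h4 : (Finset.Iic k).card ≤
            (Finset.univ.filter fun j => t ≤ (hH x).eigenvalues₀ j).card := by
          refine Finset.card_le_card fun j hj => ?_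
          rw [Finset.mem_filter]
          exact ⟨Finset.mem_univ _, h.trans (hanti (Finset.mem_Iic.1 hj))⟩
        rw [Fin.card_Iic] at h4
        exact_mod_cast h4
      · intro h
        by_contra hcon
        have h4 : (Finset.univ.filter fun j => t ≤ (hH x).eigenvalues₀ j).card ≤
            (Finset.Iio k).card := by
          refine Finset.card_le_card fun j hj => ?_
          rw [Finset.mem_filter] at hj
          rw [Finset.mem_Iio]
          by_contra hjk
          exact hcon (hj.2.trans (hanti (not_lt.1 hjk)))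
        rw [Fin.card_Iio] at h4
        have h5 : (k : ℕ) + 1 ≤ (Finset.univ.filter fun j => t ≤ (hH x).eigenvalues₀ j).card := by
          exact_mod_cast h
        omega
    rw [h1]
    exact measurableSet_le measurable_const (measurable_count M hM hH t)
  exact h0 _

end eig

/-- unfolded eigenvalues of a GOE matrix -/
def xO (n : ℕ) (w : Upper n → ℝ) (i : Fin n) : ℝ :=
  n / Real.pi * (goeMat_isHermitian w).eigenvalues i

theorem measurable_xO (n : ℕ) (i : Fin n) : Measurable fun w : Upper n → ℝ => xO n w i := by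
  unfold xO
  exact (measurable_eigenvalues _ (H849.continuous_goeMat n) goeMat_isHermitian i).const_mul _

instance goeProb (n : ℕ) : IsProbabilityMeasure (goeLaw n) := by
  unfold goeLaw
  infer_instance

theorem goe_count (B : ℝ) : ∃ C : ℝ, ∀ᶠ n : ℕ in atTop,
    ∫ w, (∑ i, if |xO n w i| ≤ B then (1 : ℝ) else 0) ∂(goeLaw n) ≤ C := by
  obtain ⟨C, hC⟩ := H625.goeWegner
  set K : ℝ := 1 + (Real.pi * |B|) ^ 2 with hK
  refine ⟨K * C, ?_⟩
  filter_upwards [hC] with n hn
  have hpt : ∀ w : Upper n → ℝ, (∑ i, if |xO n w i| ≤ B then (1 : ℝ) else 0) ≤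
      K * ∑ i, (1 + ((n : ℝ) * (goeMat_isHermitian w).eigenvalues i) ^ 2)⁻¹ := by
    intro w
    rw [Finset.mul_sum]
    refine Finset.sum_le_sum fun i _ => ?_
    split_ifs with h
    · unfold xO at h
      set lam := (goeMat_isHermitian w).eigenvalues i with hlam
      have h1 : |(n : ℝ) * lam| ≤ Real.pi * |B| := by
        have h2 : (n : ℝ) * lam = Real.pi * (n / Real.pi * lam) := by
          have := Real.pi_ne_zero
          field_simp
        rw [h2, abs_mul, abs_of_pos Real.pi_pos]
        exact mul_le_mul_of_nonneg_left (h.trans (le_abs_self B)) Real.pi_pos.le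
      have h3 : ((n : ℝ) * lam) ^ 2 ≤ (Real.pi * |B|) ^ 2 := by
        rw [← sq_abs ((n : ℝ) * lam)]
        exact pow_le_pow_left₀ (abs_nonneg _) h1 2
      rw [← div_eq_mul_inv, le_div_iff₀ (by positivity)]
      linarith
    · positivity
  have hcont : Continuous fun w : Upper n → ℝ =>
      ∑ i, (1 + ((n : ℝ) * (goeMat_isHermitian w).eigenvalues i) ^ 2)⁻¹ := by
    refine H849.continuous_sum_eigenvalues _ (H849.continuous_goeMat n) goeMat_isHermitian
      (fun u => (1 + ((n : ℝ) * u) ^ 2)⁻¹) ?_
    refine Continuous.inv₀ (by fun_prop) fun u => ?_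
    positivity
  have hint : Integrable (fun w : Upper n → ℝ =>
      ∑ i, (1 + ((n : ℝ) * (goeMat_isHermitian w).eigenvalues i) ^ 2)⁻¹) (goeLaw n) := by
    refine Integrable.of_bound (C := n) hcont.aestronglyMeasurable
      (Eventually.of_forall fun w => ?_)
    rw [Real.norm_eq_abs, abs_of_nonneg (Finset.sum_nonneg fun i _ => by positivity)]
    calc ∑ i : Fin n, (1 + ((n : ℝ) * (goeMat_isHermitian w).eigenvalues i) ^ 2)⁻¹
        ≤ ∑ _i : Fin n, (1 : ℝ) := by
          refine Finset.sum_le_sum fun i _ => ?_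
          have h1 := sq_nonneg ((n : ℝ) * (goeMat_isHermitian w).eigenvalues i)
          exact inv_le_one_of_one_le₀ (by linarith)
      _ = n := by simp
  have hint2 : Integrable (fun w : Upper n → ℝ =>
      ∑ i, if |xO n w i| ≤ B then (1 : ℝ) else 0) (goeLaw n) := by
    refine Integrable.of_bound (C := n) (Measurable.aestronglyMeasurable ?_)
      (Eventually.of_forall fun w => ?_)
    · refine Finset.measurable_fun_sum _ fun i _ => ?_
      exact Measurable.ite (measurableSet_le (measurable_xO n i).abs measurable_const)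
        measurable_const measurable_const
    · rw [Real.norm_eq_abs, abs_of_nonneg (Finset.sum_nonneg fun i _ => by positivity)]
      calc ∑ i, (if |xO n w i| ≤ B then (1 : ℝ) else 0) ≤ ∑ _i : Fin n, (1 : ℝ) :=
            Finset.sum_le_sum fun i _ => by split_ifs <;> norm_num
        _ = n := by simp
  refine (integral_mono hint2 (hint.const_mul K) hpt).trans ?_
  rw [integral_const_mul]
  exact mul_le_mul_of_nonneg_left hn (by positivity)

/-- `Ξ`, a random locally finite point measure on the probability space `(Ω, P)`, is the limit in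
law of the unfolded point measures of the GOE: every linear statistics vector converges in law. -/
structure IsGOEBulk {Ω : Type*} [MeasurableSpace Ω] (P : Measure Ω) (Ξ : Ω → Measure ℝ) :
    Prop where
  prob : IsProbabilityMeasure P
  meas : Measurable Ξ
  locFin : ∀ ω, IsLocallyFiniteMeasure (Ξ ω)
  point : ∀ ω, ∃ (κ : Set ℕ) (z : κ → ℝ), Ξ ω = Measure.sum fun k => Measure.dirac (z k)
  lim : ∀ (m : ℕ) (f : Fin m → ℝ → ℝ), (∀ j, Continuous (f j)) →
    (∀ j, HasCompactSupport (f j)) → ∀ Φ : (Fin m → ℝ) → ℝ, Continuous Φ →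
    (∃ C : ℝ, ∀ v, |Φ v| ≤ C) →
      Tendsto (fun n => avgGOE n f Φ) atTop (𝓝 (∫ ω, Φ (fun j => ∫ t, f j t ∂(Ξ ω)) ∂P))

/-- **Existence of the GOE bulk point process**, if the laws of the linear statistics converge. -/
theorem exists_goeBulk (h : ∀ (m : ℕ) (f : Fin m → ℝ → ℝ), (∀ j, Continuous (f j)) →
    (∀ j, HasCompactSupport (f j)) → ∀ Φ : (Fin m → ℝ) → ℝ, Continuous Φ →
    (∃ C : ℝ, ∀ v, |Φ v| ≤ C) → ∃ v : ℝ, Tendsto (fun n => avgGOE n f Φ) atTop (𝓝 v)) :
    ∃ (P : Measure (ℕ → EReal)) (Ξ : (ℕ → EReal) → Measure ℝ), IsGOEBulk P Ξ := by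
  set 𝒰 : Ultrafilter ℕ := Ultrafilter.of atTop with h𝒰
  have hle : (𝒰 : Filter ℕ) ≤ atTop := Ultrafilter.of_le _
  obtain ⟨Q, Ξ, h1, h2, h3, h4, h5⟩ := exists_process (μ := goeLaw) (x := xO) 𝒰
    (fun n i => measurable_xO n i) (fun B => by
      obtain ⟨C, hC⟩ := goe_count B
      exact ⟨C, hle hC⟩)
  refine ⟨Q, Ξ, h1, h2, h3, h4, fun m f hf hcs Φ hΦ hC => ?_⟩
  obtain ⟨v, hv⟩ := h m f hf hcs Φ hΦ hC
  have h6 := h5 m f hf hcs Φ hΦ hC
  have h7 : (fun n => avgGOE n f Φ) = fun n => ∫ w, Φ (fun j => ∑ i, f j (xO n w i)) ∂(goeLaw n) := by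
    funext n
    unfold avgGOE xO
    simp only [H849.integral_XiGOE]
  rw [h7] at hv ⊢
  have h8 := tendsto_nhds_unique (hv.mono_left hle) h6
  rw [← h8]
  exact hv

end

end Vale.Agent.P156.H9
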