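import Vale.Agent.P156.H9.Lim2
import Vale.Agent.P156.F.Clos
import Vale.Agent.P156.H266.Limit
import Vale.Agent.P156.H917.F1

/-!
P156, GOE side (H2): the laws of the Cayley matrices as probability measures on the symmetric
unitary matrices, exact invariance and chain property, ultrafilter limits.
-/

namespace Vale.Agent.P156.H9

open MeasureTheory ProbabilityTheory Matrix Filter Topology
open Vale.Agent.P156.F (InvBy IsReal OInv DInv clos closM)

/-- the Cayley matrix of the leads -/
noncomputable def Sg (n t : ℕ) (x : KK n t → ℝ) : F.SymU (Fin t) :=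
  ⟨cay (cx (RR (cc n) n t x)), cay_cx_mem (RR_isSymm _ _ _ x)⟩

/-- embedding of the symmetric unitary matrices into the functions -/
def emb {ι : Type} [Fintype ι] [DecidableEq ι] (S : F.SymU ι) : ι → ι → ℂ := fun i j => S.1 i j

theorem isClosedEmbedding_emb {ι : Type} [Fintype ι] [DecidableEq ι] :
    Topology.IsClosedEmbedding (emb (ι := ι)) :=
  (F.isClosed_symU (ι := ι)).isClosedEmbedding_subtypeVal

theorem measurable_of_entries {ι : Type} [Fintype ι] [DecidableEq ι] {Ω : Type*}
    [MeasurableSpace Ω] {S : Ω → F.SymU ι} (h : ∀ i j, Measurable fun ω => (S ω).1 i j) :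
    Measurable S := by
  have he : MeasurableEmbedding (emb (ι := ι)) := isClosedEmbedding_emb.measurableEmbedding
  rw [← he.measurable_comp_iff]
  exact measurable_pi_lambda _ fun i => measurable_pi_lambda _ fun j => h i j

theorem measurable_Sg (n t : ℕ) : Measurable (Sg n t) := by
  apply measurable_of_entries
  intro i j
  exact measurable_cay (measurable_cx (measurable_RR _ _ _)) i j

/-- the law of the Cayley matrix -/
noncomputable def mug (n t : ℕ) : ProbabilityMeasure (F.SymU (Fin t)) :=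
  ⟨(gam (KK n t)).map (Sg n t), Measure.isProbabilityMeasure_map (measurable_Sg n t).aemeasurable⟩

theorem coe_mug (n t : ℕ) : (mug n t : Measure (F.SymU (Fin t))) = (gam (KK n t)).map (Sg n t) := rfl

/-! ### exact invariance -/

theorem RR_rot (c : ℝ) (n t : ℕ) (O : Matrix (Fin t) (Fin t) ℝ) (x : KK n t → ℝ) :
    RR c n t (Sum.elim
      (fun p => ∑ q : Fin n × Fin n, (1 : Matrix (Fin n) (Fin n) ℝ) p.1 q.1
        * (1 : Matrix (Fin n) (Fin n) ℝ) p.2 q.2 * x (Sum.inl q))
      (fun p => ∑ q : Fin t × Fin n, O p.1 q.1 * (1 : Matrix (Fin n) (Fin n) ℝ) p.2 q.2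
        * x (Sum.inr q))) = O * RR c n t x * Oᵀ := by
  ext a b
  have hG : Hm (fun p => ∑ q : Fin n × Fin n, (1 : Matrix (Fin n) (Fin n) ℝ) p.1 q.1
      * (1 : Matrix (Fin n) (Fin n) ℝ) p.2 q.2 * x (Sum.inl q)) = Hm (fun p => x (Sum.inl p)) := by
    rw [Hm_conj]; simp
  have hg : ∀ (a : Fin t), (fun i => ∑ q : Fin t × Fin n, O a q.1
      * (1 : Matrix (Fin n) (Fin n) ℝ) i q.2 * x (Sum.inr q))
      = ∑ a', O a a' • (fun i => x (Sum.inr (a', i))) := by
    intro a
    ext i
    rw [Fintype.sum_prod_type, Finset.sum_apply]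
    apply Finset.sum_congr rfl
    intro a' _
    simp [Matrix.one_apply]
  unfold RR
  simp only [Sum.elim_inl, Sum.elim_inr]
  rw [hG, Rv_apply, hg, hg, mul_apply, mulVec_sum, dotProduct_sum, Finset.mul_sum]
  apply Finset.sum_congr rfl
  intro b' _
  rw [sum_dotProduct, Finset.mul_sum, mul_apply, Finset.sum_mul]
  apply Finset.sum_congr rfl
  intro a' _
  rw [mulVec_smul, dotProduct_smul, smul_dotProduct, Rv_apply, transpose_apply]
  simp only [smul_eq_mul]
  ring

theorem OInv_mug (n t : ℕ) : OInv (mug n t : Measure (F.SymU (Fin t))) := by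
  intro U hU
  -- the real matrix
  set O : Matrix (Fin t) (Fin t) ℝ := U.1.map Complex.re with hO
  have hUO : U.1 = cx O := by
    ext i j
    rw [hO, cx_apply, map_apply]
    exact Complex.ext (by simp) (by simp [hU i j])
  have hUT : (cx O)ᴴ = (cx O)ᵀ := by rw [cx_conjTranspose, cx_transpose]
  have hOO : O * Oᵀ = 1 := by
    have h1 := mem_unitaryGroup_iff.1 U.2
    rw [star_eq_conjTranspose, hUO, cx_conjTranspose, ← cx_mul] at h1
    ext i j
    have h2 := congrFun (congrFun h1 i) j
    rw [cx_apply, Matrix.one_apply] at h2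
    rw [Matrix.one_apply]
    split_ifs at h2 ⊢ <;> exact_mod_cast h2
  set T : (KK n t → ℝ) → (KK n t → ℝ) := fun x => Sum.elim
      (fun p => ∑ q : Fin n × Fin n, (1 : Matrix (Fin n) (Fin n) ℝ) p.1 q.1
        * (1 : Matrix (Fin n) (Fin n) ℝ) p.2 q.2 * x (Sum.inl q))
      (fun p => ∑ q : Fin t × Fin n, O p.1 q.1 * (1 : Matrix (Fin n) (Fin n) ℝ) p.2 q.2
        * x (Sum.inr q)) with hT
  have hTm : Measurable T := measurable_rot O 1
  have hTg : (gam (KK n t)).map T = gam (KK n t) := gam_rot hOO (by simp)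
  have hS : ∀ x, Sg n t (T x) = U • Sg n t x := by
    intro x
    apply Subtype.ext
    rw [F.coe_smul]
    change cay (cx (RR (cc n) n t (T x))) = U.1 * cay (cx (RR (cc n) n t x)) * U.1ᵀ
    rw [hT, RR_rot, cx_mul, cx_mul, hUO, ← hUT]
    have h3 : cx Oᵀ = (cx O)ᴴ := by rw [cx_conjTranspose]
    rw [h3]
    apply cay_conj (cx_isHermitian (RR_isSymm _ _ _ x))
    rw [← hUO]; exact U.2
  unfold InvBy
  rw [coe_mug, Measure.map_map (F.measurable_smul U) (measurable_Sg n t)]
  have : (fun S => U • S) ∘ Sg n t = Sg n t ∘ T := by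
    ext1 x; exact (hS x).symm
  rw [this, ← Measure.map_map (measurable_Sg n t) hTm, hTg]

/-! ### exact chain -/

theorem chain_mug (n t : ℕ) :
    (mug n t : Measure (F.SymU (Fin t))) = (mug n (t + 1) : Measure (F.SymU (Fin (t + 1)))).map
      (clos 1) := by
  set f : KK n t → KK n (t + 1) := Sum.elim Sum.inl (fun q => Sum.inr (q.1.succ, q.2)) with hf
  have hfi : Function.Injective f := by
    rintro (p | ⟨a, i⟩) (p' | ⟨a', i'⟩) h
    · simpa [hf] using h
    · simp [hf] at h
    · simp [hf] at h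
    · simpa [hf] using h
  have hmap := gam_comp f hfi
  have hm : Measurable (fun (x : KK n (t + 1) → ℝ) r => x (f r)) := by fun_prop
  have hS : ∀ x, Sg n t (fun r => x (f r)) = clos 1 (Sg n (t + 1) x) := by
    intro x
    have hH := cx_isHermitian (RR_isSymm (cc n) n (t + 1) x)
    have h0 : (Sg n (t + 1) x).1 0 0 ≠ (1 : ℂ)⁻¹ := by
      rw [inv_one]
      exact cay_diag_ne_one hH 0
    apply Subtype.ext
    rw [F.coe_clos (by simp) h0]
    ext i j
    rw [F.closM_apply, inv_one]
    have h1 : cx (RR (cc n) n t fun r => x (f r))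
        = (cx (RR (cc n) n (t + 1) x)).submatrix Fin.succ Fin.succ := by
      ext a b
      rw [submatrix_apply, cx_apply, cx_apply]
      rfl
    change cay (cx (RR (cc n) n t fun r => x (f r))) i j = _
    rw [h1, cay_drop hH]
    rfl
  rw [coe_mug, coe_mug, ← hmap, Measure.map_map (measurable_Sg n t) hm,
    Measure.map_map (F.measurable_clos 1) (measurable_Sg n (t + 1))]
  congr 1
  ext1 x
  exact hS x

/-! ### asymptotic covariance under `D` -/

/-- the phase matrix as a unitary matrix -/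
noncomputable def Du (s : ℕ) : unitaryGroup (Fin (s + 1)) ℂ := ⟨Dm 0, Dm_mem 0⟩

theorem Du_smul {s : ℕ} (S : F.SymU (Fin (s + 1))) : (Du s • S).1 = DD S.1 := by
  rw [F.coe_smul]
  change Dm 0 * S.1 * (Dm 0)ᵀ = _
  rw [Dm_transpose]; rfl

open Classical in
/-- extension of a function on symmetric unitary matrices -/
noncomputable def extF {ι : Type} [Fintype ι] [DecidableEq ι] (G : C(F.SymU ι, ℝ)) :
    Matrix ι ι ℂ → ℝ := fun S => if h : S ∈ F.symU ι then G ⟨S, h⟩ else 0

theorem extF_coe {ι : Type} [Fintype ι] [DecidableEq ι] (G : C(F.SymU ι, ℝ)) (S : F.SymU ι) :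
    extF G S.1 = G S := by
  rw [extF, dif_pos S.2]

theorem mc_extF {ι : Type} [Fintype ι] [DecidableEq ι] (G : C(F.SymU ι, ℝ)) : MC (extF G) := by
  classical
  have hcl : IsClosed {r : ι → ι → ℂ | Matrix.of r ∈ F.symU ι} := F.isClosed_symU (ι := ι)
  apply measurable_of_restrict_of_restrict_compl hcl.measurableSet
  · have h1 : ({r : ι → ι → ℂ | Matrix.of r ∈ F.symU ι}).domRestrict
        (fun r : ι → ι → ℂ => extF G (Matrix.of r)) = fun r => G ⟨Matrix.of r.1, r.2⟩ := by
      ext r
      rw [Set.domRestrict_apply]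
      exact extF_coe G ⟨Matrix.of r.1, r.2⟩
    rw [h1]
    apply Continuous.measurable
    apply G.continuous.comp
    exact Continuous.subtype_mk continuous_subtype_val _
  · have h1 : ({r : ι → ι → ℂ | Matrix.of r ∈ F.symU ι}ᶜ).domRestrict
        (fun r : ι → ι → ℂ => extF G (Matrix.of r)) = fun _ => 0 := by
      ext r
      have h2 : ¬ (Matrix.of r.1 ∈ F.symU ι) := r.2
      rw [Set.domRestrict_apply, extF, dif_neg h2]
    rw [h1]
    exact measurable_const

theorem uc_extF {ι : Type} [Fintype ι] [DecidableEq ι] (G : C(F.SymU ι, ℝ)) : UC (extF G) := by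
  intro ε hε
  obtain ⟨C, hC0, hC⟩ := Lim.exists_modulus (X := F.SymU ι)
    (δ := fun S S' => ∑ i, ∑ j, ‖S.1 i j - S'.1 i j‖)
    (by
      apply continuous_finsetSum
      intro i _
      apply continuous_finsetSum
      intro j _
      apply Continuous.norm
      have h1 : Continuous fun p : F.SymU ι × F.SymU ι => p.1.1 i j :=
        (continuous_subtype_val.comp continuous_fst).matrix_elem i j
      have h2 : Continuous fun p : F.SymU ι × F.SymU ι => p.2.1 i j :=
        (continuous_subtype_val.comp continuous_snd).matrix_elem i j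
      exact h1.sub h2)
    (fun S S' => Finset.sum_nonneg fun i _ => Finset.sum_nonneg fun j _ => norm_nonneg _)
    (by
      intro S S' h
      apply Subtype.ext
      ext i j
      rw [Finset.sum_eq_zero_iff_of_nonneg
        (fun i _ => Finset.sum_nonneg fun j _ => norm_nonneg _)] at h
      have h1 := h i (Finset.mem_univ i)
      rw [Finset.sum_eq_zero_iff_of_nonneg (fun j _ => norm_nonneg _)] at h1
      have h2 := h1 j (Finset.mem_univ j)
      exact sub_eq_zero.1 (norm_eq_zero.1 h2)) G (ε := ε / 2) (by positivity)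
  set N : ℝ := (Fintype.card ι : ℝ) ^ 2 with hN
  refine ⟨ε / (2 * (C * N + 1)), by positivity, fun S S' hS hS' h => ?_⟩
  have e1 : extF G S = G ⟨S, hS⟩ := extF_coe G ⟨S, hS⟩
  have e2 : extF G S' = G ⟨S', hS'⟩ := extF_coe G ⟨S', hS'⟩
  rw [e1, e2]
  refine (hC _ _).trans ?_
  have h3 : ∑ i, ∑ j, ‖S i j - S' i j‖ ≤ N * (ε / (2 * (C * N + 1))) := by
    calc ∑ i, ∑ j, ‖S i j - S' i j‖ ≤ ∑ _i : ι, ∑ _j : ι, ε / (2 * (C * N + 1)) :=
          Finset.sum_le_sum fun i _ => Finset.sum_le_sum fun j _ => h i j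
      _ = _ := by simp [hN, sq]; ring
  have h4 : C * (N * (ε / (2 * (C * N + 1)))) ≤ ε / 2 := by
    have h5 : 0 < C * N + 1 := by positivity
    rw [← mul_assoc, ← mul_div_assoc, div_le_div_iff₀ (by positivity) (by positivity)]
    nlinarith
  have h5 := mul_le_mul_of_nonneg_left h3 hC0
  linarith

theorem abs_extF_le {ι : Type} [Fintype ι] [DecidableEq ι] (G : C(F.SymU ι, ℝ)) :
    ∃ M, ∀ S, |extF G S| ≤ M := by
  obtain ⟨B, hB⟩ := (isCompact_univ (X := F.SymU ι)).bddAbove_image
    (f := fun S => |G S|) (G.continuous.abs.continuousOn)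
  refine ⟨max B 0, fun S => ?_⟩
  unfold extF
  split_ifs with h
  · exact le_max_of_le_left (hB ⟨_, Set.mem_univ _, rfl⟩)
  · simp

theorem integral_mug (n t : ℕ) (G : C(F.SymU (Fin t), ℝ)) :
    ∫ S, G S ∂(mug n t : Measure (F.SymU (Fin t))) = ∫ x, G (Sg n t x) ∂(gam (KK n t)) := by
  rw [coe_mug, integral_map (measurable_Sg n t).aemeasurable
    G.continuous.measurable.aestronglyMeasurable]

theorem mug_border (s : ℕ) (G : C(F.SymU (Fin (s + 1)), ℝ)) :
    Tendsto (fun n => ∫ S, G S ∂(mug (n + 1) (s + 1) : Measure (F.SymU (Fin (s + 1))))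
      - ∫ S, G (Du s • S) ∂(mug n (s + 1) : Measure (F.SymU (Fin (s + 1))))) atTop (𝓝 0) := by
  obtain ⟨M, hM⟩ := abs_extF_le G
  have h := border_lim (mc_extF G) hM (uc_extF G)
  refine h.congr fun n => ?_
  congr 1
  · rw [integral_mug]
    congr 1
    ext x
    exact extF_coe G (Sg (n + 1) (s + 1) x)
  · have hc : Continuous fun S : F.SymU (Fin (s + 1)) => Du s • S := continuous_const_smul _
    have h2 := integral_mug n (s + 1) (G.comp ⟨_, hc⟩)
    simp only [ContinuousMap.comp_apply, ContinuousMap.coe_mk] at h2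
    rw [h2]
    congr 1
    ext x
    have : DD (cay (cx (RR (cc n) n (s + 1) x))) = (Du s • Sg n (s + 1) x).1 :=
      (Du_smul (Sg n (s + 1) x)).symm
    rw [this, extF_coe]

end Vale.Agent.P156.H9
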