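import Vale.Agent.P156.H9.Ultra

/-!
P156, GOE side (H2): limits along ultrafilters of the laws of the Cayley matrices.
-/

namespace Vale.Agent.P156.H9

open MeasureTheory ProbabilityTheory Matrix Filter Topology
open Vale.Agent.P156.F (InvBy IsReal OInv DInv clos closM)

variable {ι : Type} [Fintype ι] [DecidableEq ι]

/-- the image of a probability measure under the action of one unitary matrix -/
noncomputable def pmap (U : unitaryGroup ι ℂ) (μ : ProbabilityMeasure (F.SymU ι)) :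
    ProbabilityMeasure (F.SymU ι) := μ.map (F.measurable_smul U).aemeasurable

theorem coe_pmap (U : unitaryGroup ι ℂ) (μ : ProbabilityMeasure (F.SymU ι)) :
    (pmap U μ : Measure (F.SymU ι)) = (μ : Measure (F.SymU ι)).map (fun S => U • S) := rfl

theorem tendsto_pmap {L : Filter ℕ} {μs : ℕ → ProbabilityMeasure (F.SymU ι)}
    {μ : ProbabilityMeasure (F.SymU ι)} (h : Tendsto μs L (𝓝 μ)) (U : unitaryGroup ι ℂ) :
    Tendsto (fun n => pmap U (μs n)) L (𝓝 (pmap U μ)) :=
  Lim.tendsto_map_of_ae_continuousAt h (F.measurable_smul U)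
    (Eventually.of_forall fun _ => (continuous_const_smul U).continuousAt)

instance : T2Space (ProbabilityMeasure (F.SymU ι)) := inferInstance

theorem InvBy_limit {L : Filter ℕ} [L.NeBot] {μs : ℕ → ProbabilityMeasure (F.SymU ι)}
    {μ : ProbabilityMeasure (F.SymU ι)} (h : Tendsto μs L (𝓝 μ)) {U : unitaryGroup ι ℂ}
    (hU : ∀ n, InvBy (μs n : Measure (F.SymU ι)) U) : InvBy (μ : Measure (F.SymU ι)) U := by
  have h1 := tendsto_pmap h U
  have h2 : ∀ n, pmap U (μs n) = μs n := by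
    intro n
    apply Subtype.ext
    exact hU n
  simp only [h2] at h1
  have h3 := tendsto_nhds_unique h1 h
  have := congrArg (fun ν : ProbabilityMeasure (F.SymU ι) => (ν : Measure (F.SymU ι))) h3
  exact this

theorem OInv_limit {L : Filter ℕ} [L.NeBot] {μs : ℕ → ProbabilityMeasure (F.SymU ι)}
    {μ : ProbabilityMeasure (F.SymU ι)} (h : Tendsto μs L (𝓝 μ))
    (hU : ∀ n, OInv (μs n : Measure (F.SymU ι))) : OInv (μ : Measure (F.SymU ι)) :=
  fun U hU' => InvBy_limit h fun n => hU n U hU'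

/-- the limit of the shifted sequence is the image under `D` -/
theorem limit_shift (s : ℕ) {𝒰 : Ultrafilter ℕ} (h𝒰 : (𝒰 : Filter ℕ) ≤ atTop)
    {ν ν' : ProbabilityMeasure (F.SymU (Fin (s + 1)))}
    (h : Tendsto (fun n => mug n (s + 1)) 𝒰 (𝓝 ν))
    (h' : Tendsto (fun n => mug (n + 1) (s + 1)) 𝒰 (𝓝 ν')) : ν' = pmap (Du s) ν := by
  have h2 := tendsto_pmap h (Du s)
  refine tendsto_nhds_unique h' ?_
  rw [ProbabilityMeasure.tendsto_iff_forall_integral_tendsto] at h2 ⊢
  intro G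
  have h3 := (mug_border s ⟨G, G.continuous⟩).mono_left h𝒰
  have h4 := h3.add (h2 G)
  rw [zero_add] at h4
  refine h4.congr fun n => ?_
  have h5 : ∫ S, G S ∂(pmap (Du s) (mug n (s + 1)) : Measure (F.SymU (Fin (s + 1))))
      = ∫ S, G (Du s • S) ∂(mug n (s + 1) : Measure (F.SymU (Fin (s + 1)))) := by
    rw [coe_pmap]
    exact integral_map (F.measurable_smul _).aemeasurable G.continuous.measurable.aestronglyMeasurable
  rw [h5]
  simp

/-- the limit law is `D`-invariant -/
theorem DInv_limit (s : ℕ) {𝒰 : Ultrafilter ℕ} (h𝒰 : (𝒰 : Filter ℕ) ≤ atTop)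
    {ν : ProbabilityMeasure (F.SymU (Fin (s + 3)))}
    (h : Tendsto (fun n => mug n (s + 3)) 𝒰 (𝓝 ν)) :
    DInv (ν : Measure (F.SymU (Fin (s + 3)))) := by
  obtain ⟨ν', h'⟩ := Lim.exists_limit 𝒰 (fun n => mug (n + 1) (s + 3))
  have hν' := limit_shift (s + 2) h𝒰 h h'
  have hO : OInv (ν : Measure (F.SymU (Fin (s + 3)))) := OInv_limit h fun n => OInv_mug n _
  have hO' : OInv (ν' : Measure (F.SymU (Fin (s + 3)))) := OInv_limit h' fun n => OInv_mug _ _
  -- the transposition of the channels `0` and `1`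
  have h01 : (0 : Fin (s + 3)) ≠ ⟨1, by omega⟩ := by simp
  have h12 : (⟨1, by omega⟩ : Fin (s + 3)) ≠ ⟨2, by omega⟩ := by simp [Fin.ext_iff]
  have h02 : (0 : Fin (s + 3)) ≠ ⟨2, by omega⟩ := by simp [Fin.ext_iff]
  have hP : (H917.plane (0 : Fin (s + 3)) ⟨1, by omega⟩ 0 1 1 0 :
      Matrix (Fin (s + 3)) (Fin (s + 3)) ℂ) ∈ unitaryGroup (Fin (s + 3)) ℂ := by
    have h1 := H917.ofReal_mem_unitary (H917.swap_mul_transpose h01)
    have h2 : (H917.plane (0 : Fin (s + 3)) ⟨1, by omega⟩ (0 : ℝ) 1 1 0).map (algebraMap ℝ ℂ)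
        = H917.plane 0 ⟨1, by omega⟩ 0 1 1 0 := by
      rw [H917.plane_map]; simp
    rw [h2] at h1
    exact h1
  refine H917.DInv_of_swap hO h01 h12 h02 (w := -Complex.I) ?_ (Du (s + 2)) ⟨_, hP⟩ rfl rfl ?_
  · rw [neg_sq, Complex.I_sq]; norm_num
  · have : (ν' : Measure (F.SymU (Fin (s + 3)))) = (ν : Measure (F.SymU (Fin (s + 3)))).map
        (fun S => Du (s + 2) • S) := by rw [hν', coe_pmap]
    rw [← this]
    apply hO'
    intro i j
    simp only [H917.plane]
    split_ifs <;> simp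

/-- the chain property in the limit -/
theorem chain_limit (t : ℕ) {𝒰 : Ultrafilter ℕ}
    {ν : ProbabilityMeasure (F.SymU (Fin t))} {ν' : ProbabilityMeasure (F.SymU (Fin (t + 1)))}
    (h : Tendsto (fun n => mug n t) 𝒰 (𝓝 ν)) (h' : Tendsto (fun n => mug n (t + 1)) 𝒰 (𝓝 ν'))
    (h0 : (ν' : Measure (F.SymU (Fin (t + 1)))) {S | S.1 0 0 = 1} = 0) :
    (ν : Measure (F.SymU (Fin t))) = (ν' : Measure (F.SymU (Fin (t + 1)))).map (clos 1) := by
  have h1 := Lim.tendsto_map_of_ae_continuousAt h' (F.measurable_clos (t := t) 1) (by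
    rw [ae_iff]
    refine measure_mono_null ?_ h0
    intro S hS
    by_contra hne
    apply hS
    have hopen := F.isOpen_entry_ne t ((1 : ℂ)⁻¹)
    have := F.continuousOn_clos (t := t) (ν := 1) (by simp)
    refine this.continuousAt (hopen.mem_nhds ?_)
    rw [Set.mem_ofPred_eq, inv_one]
    exact hne)
  have h2 : ∀ n, (mug n (t + 1)).map (F.measurable_clos (t := t) 1).aemeasurable = mug n t := by
    intro n
    apply Subtype.ext
    exact (chain_mug n t).symm
  simp only [h2] at h1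
  have h3 := tendsto_nhds_unique h h1
  rw [h3]
  rfl

end Vale.Agent.P156.H9
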